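import Vale.Agent.P309.Defs

/-!
The chart of the sphere, dyadic cells of the unit cube, and smoothed channels.
-/

namespace Vale.Agent.P309

open MeasureTheory ProbabilityTheory
open scoped RealInnerProductSpace

/-- Parameters of the chart. -/
abbrev Par (n : ℕ) : Type := Fin n → ℝ

/-- The half-open unit cube. -/
def cube (n : ℕ) : Set (Par n) := Set.univ.pi fun _ => Set.Ico (0 : ℝ) 1

/-- The uniform law on the cube. -/
noncomputable def cubeMeas (n : ℕ) : Measure (Par n) := volume.restrict (cube n)

/-- The flat coordinate of a parameter. -/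
noncomputable def flat (n : ℕ) (u : Par n) : Euc n :=
  WithLp.toLp 2 fun i => (u i - 1 / 2) / Real.sqrt n

/-- The chart of the sphere in dimension `n + 1`. -/
noncomputable def chart (n : ℕ) (u : Par n) : Euc (n + 1) :=
  WithLp.toLp 2 (Fin.snoc (α := fun _ => ℝ) (fun i => (u i - 1 / 2) / Real.sqrt n)
    (Real.sqrt (1 - ‖flat n u‖ ^ 2)))

/-- The probability of moving from `z` to `z'` for signal `s`. -/
noncomputable def trans {d : ℕ} {S : Type*} (K : S → Euc d × ℝ → S → ℝ) (s : Euc d) (z z' : S) :
    ℝ :=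
  ∫ x, K z (x, ⟪x, s⟫) z' ∂(stdGaussian (Euc d))

/-- The probability of moving from `z` to `z'` for signal `s` and labels perturbed by Gaussian
noise of standard deviation `eta`. -/
noncomputable def transNoisy {d : ℕ} {S : Type*} (K : S → Euc d × ℝ → S → ℝ) (eta : ℝ) (s : Euc d)
    (z z' : S) : ℝ :=
  ∫ x, ∫ g, K z (x, ⟪x, s⟫ + eta * g) z' ∂(gaussianReal 0 1) ∂(stdGaussian (Euc d))

/-- A stochastic, everywhere positive state machine. -/
structure Chan (d : ℕ) (S : Type) [Fintype S] where
  init : S → ℝ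
  init_pos : ∀ z, 0 < init z
  init_sum : ∑ z, init z = 1
  K : ℕ → S → Euc d × ℝ → S → ℝ
  K_meas : ∀ t z w, Measurable fun p => K t z p w
  low : ℝ
  low_pos : 0 < low
  K_low : ∀ t z p w, low ≤ K t z p w
  K_sum : ∀ t z p, ∑ w, K t z p w = 1

/-- The law of the state after `t` rows, for signal `s`. -/
noncomputable def Chan.lk {d : ℕ} {S : Type} [Fintype S] (C : Chan d S) (s : Euc d) : ℕ → S → ℝ
  | 0, z => C.init z
  | t + 1, z' => ∑ z, C.lk s t z * trans (C.K t) s z z'

end Vale.Agent.P309
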