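import Vale.Agent.P309.Geom
import Mathlib.MeasureTheory.Measure.Lebesgue.EqHaar
import Mathlib.MeasureTheory.Integral.Pi
import Mathlib.MeasureTheory.Function.Floor
import Mathlib.Analysis.Real.Pi.Bounds
import Mathlib.Analysis.Complex.ExponentialBounds

/-!
Dyadic cells of the unit cube and the mass of plane neighbourhoods.
-/

namespace Vale.Agent.P309

open MeasureTheory ProbabilityTheory Real
open scoped RealInnerProductSpace ENNReal

variable {n : ℕ}

/-- The dyadic index of a parameter at level `l`. -/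
noncomputable def idx (l : ℕ) (u : Par n) : Fin n → ℤ := fun i => ⌊(2 : ℝ) ^ l * u i⌋

/-- All indices of level `l`. -/
noncomputable def idxSet (n l : ℕ) : Finset (Fin n → ℤ) :=
  Fintype.piFinset fun _ => Finset.Ico (0 : ℤ) (2 ^ l)

/-- The dyadic cell with index `c` at level `l`. -/
def cellOf (l : ℕ) (c : Fin n → ℤ) : Set (Par n) :=
  cube n ∩ {u | idx l u = c}

/-- The mass of `f` in the level `l` cell of `u`. -/
noncomputable def mass (l : ℕ) (f : Par n → ℝ) (u : Par n) : ℝ :=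
  ∫ v in cellOf l (idx l u), f v

lemma mem_cube {u : Par n} : u ∈ cube n ↔ ∀ i, 0 ≤ u i ∧ u i < 1 := by simp [cube]

lemma measurableSet_cube : MeasurableSet (cube n) :=
  MeasurableSet.univ_pi fun _ => measurableSet_Ico

lemma measurable_idx (l : ℕ) : Measurable (idx (n := n) l) :=
  measurable_pi_lambda _ fun i => Int.measurable_floor.comp ((measurable_pi_apply i).const_mul _)

lemma measurableSet_cellOf (l : ℕ) (c : Fin n → ℤ) : MeasurableSet (cellOf l c) :=
  measurableSet_cube.inter (measurable_idx l (measurableSet_singleton c))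

lemma measurable_mass (l : ℕ) (f : Par n → ℝ) : Measurable (mass l f) :=
  (Measurable.of_discrete (f := fun c => ∫ v in cellOf l c, f v)).comp (measurable_idx l)

lemma idx_mem {l : ℕ} {u : Par n} (hu : u ∈ cube n) : idx l u ∈ idxSet n l := by
  rw [idxSet, Fintype.mem_piFinset]
  intro i
  obtain ⟨h0, h1⟩ := mem_cube.1 hu i
  rw [Finset.mem_Ico, idx, Int.le_floor, Int.floor_lt]
  have h2 : (0 : ℝ) < 2 ^ l := by positivity
  constructor
  · simp only [Int.cast_zero]; positivity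
  · push_cast; nlinarith

lemma mem_cellOf_self {l : ℕ} {u : Par n} (hu : u ∈ cube n) : u ∈ cellOf l (idx l u) := ⟨hu, rfl⟩

lemma idx_eq_of_mem {l : ℕ} {c : Fin n → ℤ} {u : Par n} (hu : u ∈ cellOf l c) : idx l u = c := hu.2

lemma cellOf_eq {l : ℕ} {c : Fin n → ℤ} (hc : c ∈ idxSet n l) :
    cellOf l c = Set.univ.pi fun i => Set.Ico ((c i : ℝ) / 2 ^ l) (((c i : ℝ) + 1) / 2 ^ l) := by
  rw [idxSet, Fintype.mem_piFinset] at hc
  have h2 : (0 : ℝ) < 2 ^ l := by positivity
  ext u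
  simp only [cellOf, Set.mem_inter_iff, mem_cube, Set.mem_ofPred_eq, funext_iff, idx,
    Set.mem_univ_pi, Set.mem_Ico, Int.floor_eq_iff, div_le_iff₀ h2, lt_div_iff₀ h2]
  constructor
  · rintro ⟨_, h⟩ i
    obtain ⟨h3, h4⟩ := h i
    constructor <;> linarith
  · intro h
    refine ⟨fun i => ?_, fun i => ?_⟩
    · obtain ⟨h3, h4⟩ := h i
      obtain ⟨h5, h6⟩ := Finset.mem_Ico.1 (hc i)
      have h5' : (0 : ℝ) ≤ (c i : ℝ) := by exact_mod_cast h5
      have h6' : (c i : ℝ) + 1 ≤ 2 ^ l := by exact_mod_cast Int.add_one_le_iff.2 h6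
      constructor <;> nlinarith
    · obtain ⟨h3, h4⟩ := h i
      constructor <;> linarith

lemma volume_real_cellOf {l : ℕ} {c : Fin n → ℤ} (hc : c ∈ idxSet n l) :
    volume.real (cellOf l c) = (1 / 2 : ℝ) ^ (l * n) := by
  have h2 : (0 : ℝ) < 2 ^ l := by positivity
  rw [cellOf_eq hc, measureReal_def, volume_pi_pi, ENNReal.toReal_prod]
  simp only [Real.volume_Ico]
  have h : ∀ i : Fin n, (ENNReal.ofReal (((c i : ℝ) + 1) / 2 ^ l - (c i : ℝ) / 2 ^ l)).toReal =
      (1 / 2 : ℝ) ^ l := by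
    intro i
    rw [show ((c i : ℝ) + 1) / 2 ^ l - (c i : ℝ) / 2 ^ l = 1 / 2 ^ l by ring,
      ENNReal.toReal_ofReal (by positivity), one_div_pow]
  rw [Finset.prod_congr rfl fun i _ => h i, Finset.prod_const, Finset.card_univ, Fintype.card_fin,
    ← pow_mul]

lemma volume_cube : volume (cube n) = 1 := by
  simp [cube, volume_pi_pi, Real.volume_Ico]

lemma volume_cellOf_ne_top (l : ℕ) (c : Fin n → ℤ) : volume (cellOf l c) ≠ ∞ :=
  (lt_of_le_of_lt (measure_mono Set.inter_subset_left) (by simp [volume_cube])).ne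

instance : IsProbabilityMeasure (cubeMeas n) :=
  ⟨by rw [cubeMeas, Measure.restrict_apply_univ, volume_cube]⟩

/-- A finer index determines a coarser one. -/
lemma idx_coarse (l i : ℕ) (u : Par n) (j : Fin n) : idx l u j = idx (l + i) u j / (2 ^ i : ℤ) := by
  simp only [idx]
  have h1 : (2 : ℝ) ^ l * u j = (2 : ℝ) ^ (l + i) * u j / ((2 ^ i : ℕ) : ℝ) := by
    push_cast; rw [pow_add]; field_simp
  rw [h1, Int.floor_div_natCast]
  push_cast; rfl

lemma idx_eq_of_fine {l i : ℕ} {u v : Par n} (h : idx (l + i) u = idx (l + i) v) :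
    idx l u = idx l v := by
  funext j; rw [idx_coarse l i u j, idx_coarse l i v j, h]

lemma cellOf_subset {l i : ℕ} {u : Par n} :
    cellOf (l + i) (idx (l + i) u) ⊆ cellOf l (idx l u) :=
  fun _ hv => ⟨hv.1, idx_eq_of_fine hv.2⟩

lemma cube_eq_biUnion (l : ℕ) : cube n = ⋃ c ∈ idxSet n l, cellOf l c := by
  ext u
  simp only [Set.mem_iUnion]
  exact ⟨fun hu => ⟨idx l u, idx_mem hu, mem_cellOf_self hu⟩, fun ⟨_, _, hu⟩ => hu.1⟩

lemma pairwise_cellOf (l : ℕ) (s : Finset (Fin n → ℤ)) :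
    (s : Set (Fin n → ℤ)).PairwiseDisjoint (cellOf l) := by
  intro a _ b _ hab
  exact Set.disjoint_left.2 fun u ha hb => hab (ha.2.symm.trans hb.2)

lemma integral_cube_eq_sum {f : Par n → ℝ} (hf : Integrable f (cubeMeas n)) (l : ℕ) :
    ∫ u, f u ∂(cubeMeas n) = ∑ c ∈ idxSet n l, ∫ u in cellOf l c, f u := by
  rw [cubeMeas]
  conv_lhs => rw [cube_eq_biUnion l]
  exact integral_biUnion_finset _ (fun c _ => measurableSet_cellOf l c) (pairwise_cellOf l _)
    fun c _ => IntegrableOn.mono_set hf Set.inter_subset_left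

/-! ### The Gaussian comparison -/

lemma pi_gauss_eq :
    Measure.pi (fun _ : Fin n => gaussianReal 0 1) =
      (volume : Measure (Par n)).withDensity fun x => ∏ i, gaussianPDF 0 1 (x i) := by
  symm
  refine (Measure.pi_eq fun s hs => ?_).symm
  rw [withDensity_apply _ (MeasurableSet.univ_pi hs)]
  have : ∀ i : Fin n, gaussianReal 0 1 (s i) = ∫⁻ x in s i, gaussianPDF 0 1 x := fun i => by
    rw [gaussianReal_of_var_ne_zero _ one_ne_zero, withDensity_apply _ (hs i)]
  simp_rw [this]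
  rw [volume_pi, Measure.restrict_pi_pi]
  simp only [gaussianPDF, ← ENNReal.ofReal_prod_of_nonneg fun i _ => gaussianPDFReal_nonneg 0 1 _]
  have hint : ∀ i : Fin n, Integrable (gaussianPDFReal 0 1) (volume.restrict (s i)) := fun i =>
    (integrable_gaussianPDFReal 0 1).restrict
  rw [← ofReal_integral_eq_lintegral_ofReal (Integrable.fintype_prod hint)
      (.of_forall fun x => Finset.prod_nonneg fun i _ => gaussianPDFReal_nonneg 0 1 _),
    integral_fintype_prod_eq_prod (fun _ : Fin n => gaussianPDFReal 0 1),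
    ENNReal.ofReal_prod_of_nonneg fun i _ => integral_nonneg (gaussianPDFReal_nonneg 0 1)]
  exact Finset.prod_congr rfl fun i _ => ofReal_integral_eq_lintegral_ofReal (hint i)
    (.of_forall (gaussianPDFReal_nonneg 0 1))

lemma third_le_pdf {x : ℝ} (hx : |x| ≤ 1 / 2) : 1 / 3 ≤ gaussianPDFReal 0 1 x := by
  rw [gaussianPDFReal_def]
  simp only [NNReal.coe_one, mul_one, sub_zero]
  have h1 : √(2 * π) ≤ 2.6 := by
    rw [Real.sqrt_le_iff]; constructor <;> nlinarith [pi_lt_d4]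
  have h2 : (7 / 8 : ℝ) ≤ exp (-x ^ 2 / 2) := by
    have : x ^ 2 ≤ 1 / 4 := by nlinarith [abs_le.1 hx]
    nlinarith [add_one_le_exp (-x ^ 2 / 2)]
  have h3 : 0 < √(2 * π) := by positivity
  calc (1 / 3 : ℝ) ≤ (7 / 8) / √(2 * π) := by rw [le_div_iff₀ h3]; linarith
    _ ≤ exp (-x ^ 2 / 2) / √(2 * π) := div_le_div_of_nonneg_right h2 h3.le
    _ = _ := by rw [div_eq_inv_mul]

lemma volume_le_gauss {A : Set (Euc n)} (hA : MeasurableSet A) :
    volume.real {x : Par n | (∀ i, |x i| ≤ 1 / 2) ∧ WithLp.toLp 2 x ∈ A} ≤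
      (3 : ℝ) ^ n * (stdGaussian (Euc n)).real A := by
  set S := {x : Par n | (∀ i, |x i| ≤ 1 / 2) ∧ WithLp.toLp 2 x ∈ A} with hS
  have hm : Measurable (WithLp.toLp 2 : Par n → Euc n) := WithLp.measurable_toLp 2 _
  have hbox : MeasurableSet {x : Par n | ∀ i, |x i| ≤ 1 / 2} := by
    have : {x : Par n | ∀ i, |x i| ≤ 1 / 2} = ⋂ i, {x : Par n | |x i| ≤ 1 / 2} := by ext x; simp
    rw [this]
    exact MeasurableSet.iInter fun i => measurableSet_le (by fun_prop) measurable_const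
  have hSm : MeasurableSet S := hbox.inter (hm hA)
  have key : volume S ≤ (3 : ℝ≥0∞) ^ n * stdGaussian (Euc n) A := by
    rw [← map_pi_eq_stdGaussian, Measure.map_apply hm hA, pi_gauss_eq,
      withDensity_apply _ (hm hA), ← lintegral_const_mul' _ _ (by simp)]
    calc volume S = ∫⁻ _x in S, 1 := by simp
      _ ≤ ∫⁻ x in S, (3 : ℝ≥0∞) ^ n * ∏ i, gaussianPDF 0 1 (x i) := by
          refine setLIntegral_mono (by fun_prop) fun x hx => ?_
          have h3 : (3 : ℝ≥0∞) ^ n = ∏ _i : Fin n, (3 : ℝ≥0∞) := by simp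
          rw [h3, ← Finset.prod_mul_distrib]
          refine Finset.one_le_prod' fun i _ => ?_
          rw [gaussianPDF, ← ENNReal.ofReal_ofNat 3, ← ENNReal.ofReal_mul (by norm_num),
            ENNReal.one_le_ofReal]
          linarith [third_le_pdf (hx.1 i)]
      _ ≤ _ := lintegral_mono_set fun x hx => hx.2
  calc volume.real S ≤ ((3 : ℝ≥0∞) ^ n * stdGaussian (Euc n) A).toReal :=
        ENNReal.toReal_mono (ENNReal.mul_ne_top (by simp) (measure_ne_top _ _)) key
    _ = _ := by simp [measureReal_def]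

lemma flat_apply (u : Par n) (i : Fin n) : flat n u i = (u i - 1 / 2) / Real.sqrt n := rfl

lemma continuous_flat : Continuous (flat n) := by
  unfold flat; fun_prop

/-- Volume of the neighbourhood of an affine subspace inside a cell. -/
lemma volume_nbhd (hn : 1 ≤ n) (W : Submodule ℝ (Euc n)) (hW : 2 * Module.finrank ℝ W ≤ n)
    (a : Euc n) {ρ : ℝ} (hρ : 0 < ρ) {l : ℕ} (hlρ : (2 : ℝ) ^ l * ρ ≤ 1) {c : Fin n → ℤ}
    (hc : c ∈ idxSet n l) {q : ℕ} (hq : Module.finrank ℝ W ≤ q) :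
    volume.real (cellOf l c ∩ {u | ‖(flat n u - a) - W.starProjection (flat n u - a)‖ ≤ ρ}) ≤
      (1 / 2 : ℝ) ^ (l * n) * ((9 : ℝ) ^ n * ((2 : ℝ) ^ l * ρ) ^ (n - q)) := by
  set p := Module.finrank ℝ Wᗮ with hp
  have hsum : Module.finrank ℝ W + p = n := by
    rw [hp, W.finrank_add_finrank_orthogonal, finrank_euclideanSpace_fin]
  have hp0 : p ≠ 0 := by omega
  have hpR : (n : ℝ) ≤ 2 * p := by exact_mod_cast (show n ≤ 2 * p by omega)
  have hnR : (0 : ℝ) < n := by exact_mod_cast hn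
  have hL : (0 : ℝ) < 2 ^ l := by positivity
  set v : Par n := fun i => -((c i : ℝ) + 1 / 2) with hv
  set kap : ℝ := (2 : ℝ) ^ l * √(n : ℝ) with hkap
  have hkap0 : 0 < kap := by positivity
  set b : Euc n := WithLp.toLp 2 (fun i => (((c i : ℝ) + 1 / 2) / 2 ^ l - 1 / 2) / √(n : ℝ)) with hb
  set A : Set (Euc n) := {x | ‖(x - kap • (a - b)) - W.starProjection (x - kap • (a - b))‖ ≤ kap * ρ}
    with hA
  have hAm : MeasurableSet A := (isClosed_le (by fun_prop) continuous_const).measurableSet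
  have hsub : cellOf l c ∩ {u | ‖(flat n u - a) - W.starProjection (flat n u - a)‖ ≤ ρ} ⊆
      (fun u => (2 : ℝ) ^ l • u + v) ⁻¹' {x : Par n | (∀ i, |x i| ≤ 1 / 2) ∧ WithLp.toLp 2 x ∈ A} := by
    rintro u ⟨hu, hd⟩
    rw [cellOf_eq hc] at hu
    simp only [Set.mem_univ_pi, Set.mem_Ico, div_le_iff₀ hL, lt_div_iff₀ hL] at hu
    refine ⟨fun i => ?_, ?_⟩
    · obtain ⟨h1, h2⟩ := hu i
      simp only [hv, Pi.add_apply, Pi.smul_apply, smul_eq_mul, abs_le]
      constructor <;> linarith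
    · have heq : WithLp.toLp 2 ((2 : ℝ) ^ l • u + v) - kap • (a - b) = kap • (flat n u - a) := by
        ext i
        simp only [hv, hb, hkap, PiLp.sub_apply, PiLp.smul_apply, Pi.add_apply, Pi.smul_apply,
          smul_eq_mul, flat_apply]
        field_simp
        ring
      show ‖_‖ ≤ _
      rw [heq, map_smul, ← smul_sub, norm_smul, Real.norm_eq_abs, abs_of_pos hkap0]
      exact mul_le_mul_of_nonneg_left hd hkap0.le
  have hvol : volume.real ((fun u : Par n => (2 : ℝ) ^ l • u + v) ⁻¹'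
      {x : Par n | (∀ i, |x i| ≤ 1 / 2) ∧ WithLp.toLp 2 x ∈ A}) =
      (1 / 2 : ℝ) ^ (l * n) * volume.real {x : Par n | (∀ i, |x i| ≤ 1 / 2) ∧ WithLp.toLp 2 x ∈ A} := by
    rw [← Function.comp_def (fun x : Par n => x + v) (fun u => (2 : ℝ) ^ l • u),
      Set.preimage_comp, measureReal_def, Measure.addHaar_preimage_smul volume hL.ne',
      measure_preimage_add_right, ENNReal.toReal_mul, measureReal_def]
    congr 1
    rw [ENNReal.toReal_ofReal (abs_nonneg _), abs_of_pos (by positivity), Module.finrank_fin_fun,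
      ← pow_mul, one_div_pow, one_div]
  have hfin : volume {x : Par n | (∀ i, |x i| ≤ 1 / 2) ∧ WithLp.toLp 2 x ∈ A} ≠ ∞ := by
    have hI : volume (Set.Icc (fun _ => (-1 : ℝ)) (fun _ => 1) : Set (Par n)) < ∞ :=
      isCompact_Icc.measure_lt_top
    refine (lt_of_le_of_lt (measure_mono (fun x hx => ?_)) hI).ne
    exact ⟨fun i => by linarith [(abs_le.1 (hx.1 i)).1], fun i => by linarith [(abs_le.1 (hx.1 i)).2]⟩
  have hpre : volume ((fun u : Par n => (2 : ℝ) ^ l • u + v) ⁻¹'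
      {x : Par n | (∀ i, |x i| ≤ 1 / 2) ∧ WithLp.toLp 2 x ∈ A}) ≠ ∞ := by
    rw [← Function.comp_def (fun x : Par n => x + v) (fun u => (2 : ℝ) ^ l • u),
      Set.preimage_comp, Measure.addHaar_preimage_smul volume hL.ne', measure_preimage_add_right]
    exact ENNReal.mul_ne_top ENNReal.ofReal_ne_top hfin
  calc _ ≤ _ := measureReal_mono hsub hpre
    _ = _ := hvol
    _ ≤ (1 / 2 : ℝ) ^ (l * n) * ((3 : ℝ) ^ n * (stdGaussian (Euc n)).real A) :=
        mul_le_mul_of_nonneg_left (volume_le_gauss hAm) (by positivity)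
    _ ≤ (1 / 2 : ℝ) ^ (l * n) *
        ((3 : ℝ) ^ n * (exp (1 / 2) * (kap * ρ) / √(p : ℝ)) ^ p) := by
        refine mul_le_mul_of_nonneg_left (mul_le_mul_of_nonneg_left ?_ (by positivity)) (by positivity)
        exact gauss_nbhd W (kap • (a - b)) (by positivity) hp0
    _ ≤ (1 / 2 : ℝ) ^ (l * n) * ((9 : ℝ) ^ n * ((2 : ℝ) ^ l * ρ) ^ (n - q)) := by
        refine mul_le_mul_of_nonneg_left ?_ (by positivity)
        rw [show (9 : ℝ) = 3 * 3 by norm_num, mul_pow (3 : ℝ) 3 n,
          mul_assoc ((3 : ℝ) ^ n) ((3 : ℝ) ^ n)]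
        refine mul_le_mul_of_nonneg_left ?_ (by positivity : (0 : ℝ) ≤ (3 : ℝ) ^ n)
        have h3 : exp (1 / 2) * (kap * ρ) / √(p : ℝ) ≤ 3 * ((2 : ℝ) ^ l * ρ) := by
          have hsp : 0 < √(p : ℝ) := by
            have : (0 : ℝ) < p := by linarith
            positivity
          rw [div_le_iff₀ hsp, hkap]
          have he : exp (1 / 2) ≤ 2 := by
            have : exp (1 / 2) * exp (1 / 2) ≤ 3 := by
              rw [← exp_add, show (1 / 2 : ℝ) + 1 / 2 = 1 by norm_num]; linarith [exp_one_lt_d9]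
            nlinarith [exp_pos (1 / 2)]
          have hsq : √(n : ℝ) ≤ 3 / 2 * √(p : ℝ) := by
            rw [Real.sqrt_le_iff]
            refine ⟨by positivity, ?_⟩
            rw [mul_pow, Real.sq_sqrt (by linarith)]
            linarith
          have := mul_le_mul he hsq (by positivity) (by norm_num)
          have h4 := mul_le_mul_of_nonneg_left this (by positivity : (0 : ℝ) ≤ (2 : ℝ) ^ l * ρ)
          linarith
        calc (exp (1 / 2) * (kap * ρ) / √(p : ℝ)) ^ p ≤ (3 * ((2 : ℝ) ^ l * ρ)) ^ p :=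
              pow_le_pow_left₀ (by positivity) h3 p
          _ = (3 : ℝ) ^ p * ((2 : ℝ) ^ l * ρ) ^ p := mul_pow _ _ _
          _ ≤ _ := mul_le_mul (pow_le_pow_right₀ (by norm_num) (by omega))
              (pow_le_pow_of_le_one (by positivity) hlρ (by omega)) (by positivity) (by positivity)

lemma flat_cell_dist {l : ℕ} {c : Fin n → ℤ} (hc : c ∈ idxSet n l) {u v : Par n}
    (hu : u ∈ cellOf l c) (hv : v ∈ cellOf l c) (hn : 1 ≤ n) :
    ‖flat n u - flat n v‖ ≤ (1 / 2 : ℝ) ^ l := by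
  rw [cellOf_eq hc] at hu hv
  simp only [Set.mem_univ_pi, Set.mem_Ico] at hu hv
  have hnR : (0 : ℝ) < n := by exact_mod_cast hn
  rw [EuclideanSpace.norm_eq, Real.sqrt_le_iff]
  refine ⟨by positivity, ?_⟩
  calc ∑ i, ‖(flat n u - flat n v) i‖ ^ 2 ≤ ∑ _i : Fin n, ((1 / 2 : ℝ) ^ l) ^ 2 / n := by
        refine Finset.sum_le_sum fun i _ => ?_
        rw [PiLp.sub_apply, flat_apply, flat_apply, ← sub_div, Real.norm_eq_abs, sq_abs, div_pow,
          Real.sq_sqrt hnR.le]
        refine div_le_div_of_nonneg_right ?_ hnR.le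
        have h1 : ((c i : ℝ) + 1) / 2 ^ l - (c i : ℝ) / 2 ^ l = (1 / 2 : ℝ) ^ l := by
          rw [one_div_pow]; ring
        obtain ⟨a1, a2⟩ := hu i
        obtain ⟨b1, b2⟩ := hv i
        exact sq_le_sq' (by linarith) (by linarith)
    _ = ((1 / 2 : ℝ) ^ l) ^ 2 := by
        rw [Finset.sum_const, Finset.card_univ, Fintype.card_fin, nsmul_eq_mul]
        field_simp

end Vale.Agent.P309
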