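import Vale.Agent.P309.Gain

/-!
The kernel of a window of rows, with and without noise.
-/

namespace Vale.Agent.P309

open MeasureTheory ProbabilityTheory Real Filter Topology
open scoped RealInnerProductSpace

variable {n k : ℕ} {S : Type} [Fintype S] [DecidableEq S]

/-- The kernel of `k` rows starting at index `t`. -/
noncomputable def winK (C : Chan (n + 1) S) (t : ℕ) :
    (k : ℕ) → (Fin k → Row (n + 1)) → S → S → ℝ
  | 0, _, z, z' => if z = z' then 1 else 0
  | k + 1, W, z, z' =>
      ∑ y, winK C t k (fun i => W i.castSucc) z y * C.K (t + k) y (W (Fin.last k)) z'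

/-- The transition probabilities of `k` rows for signal `chart u`, with noise `eta`. -/
noncomputable def winNoisy (C : Chan (n + 1) S) (eta : ℝ) (t : ℕ) :
    ℕ → Par n → S → S → ℝ
  | 0, _, z, z' => if z = z' then 1 else 0
  | k + 1, u, z, z' =>
      ∑ y, winNoisy C eta t k u z y * transNoisy (C.K (t + k)) eta (chart n u) y z'

/-- The transition probabilities of `k` exact rows for signal `chart u`. -/
noncomputable def winExact (C : Chan (n + 1) S) (t : ℕ) : ℕ → Par n → S → S → ℝ
  | 0, _, z, z' => if z = z' then 1 else 0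
  | k + 1, u, z, z' => ∑ y, winExact C t k u z y * trans (C.K (t + k)) (chart n u) y z'

omit [DecidableEq S] in
lemma chan_le_one {d : ℕ} (C : Chan d S) (t : ℕ) (z : S) (p : Euc d × ℝ) (w : S) :
    C.K t z p w ≤ 1 := by
  rw [← C.K_sum t z p]
  exact Finset.single_le_sum (fun y _ => C.low_pos.le.trans (C.K_low t z p y)) (Finset.mem_univ w)

lemma winK_props (C : Chan (n + 1) S) (t : ℕ) : ∀ (k : ℕ) (z : S),
    (∀ z', Measurable fun W : Fin k → Row (n + 1) => winK C t k W z z') ∧
    (∀ W z', 0 ≤ winK C t k W z z') ∧ (∀ W, ∑ z', winK C t k W z z' = 1) ∧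
    (1 ≤ k → ∀ W z', C.low ≤ winK C t k W z z') := by
  intro k
  induction k with
  | zero =>
    intro z
    refine ⟨fun z' => measurable_const, fun W z' => ?_, fun W => ?_, fun h => absurd h (by omega)⟩
    · simp only [winK]; split_ifs <;> norm_num
    · simp [winK]
  | succ k ih =>
    intro z
    obtain ⟨hm, h0, h1, -⟩ := ih z
    refine ⟨fun z' => ?_, fun W z' => ?_, fun W => ?_, fun _ W z' => ?_⟩
    · exact Finset.measurable_sum _ fun y _ =>
        ((hm y).comp (f := fun (W : Fin (k + 1) → Row (n + 1)) (i : Fin k) => W i.castSucc)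
            (measurable_pi_lambda _ fun i => measurable_pi_apply i.castSucc)).mul
          ((C.K_meas (t + k) y z').comp (f := fun W : Fin (k + 1) → Row (n + 1) => W (Fin.last k))
            (measurable_pi_apply (Fin.last k)))
    · exact Finset.sum_nonneg fun y _ => mul_nonneg (h0 _ y) (C.low_pos.le.trans (C.K_low _ _ _ _))
    · simp only [winK]
      rw [Finset.sum_comm]
      simp only [← Finset.mul_sum, C.K_sum, mul_one]
      exact h1 _
    · calc C.low = ∑ y, winK C t k (fun i => W i.castSucc) z y * C.low := by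
            rw [← Finset.sum_mul, h1, one_mul]
        _ ≤ _ := Finset.sum_le_sum fun y _ => mul_le_mul_of_nonneg_left (C.K_low _ _ _ _) (h0 _ y)

omit [DecidableEq S] in
lemma trans_props (C : Chan (n + 1) S) (t : ℕ) (u : Par n) (y : S) :
    (∀ z', C.low ≤ trans (C.K t) (chart n u) y z') ∧
    (∑ z', trans (C.K t) (chart n u) y z' = 1) := by
  have hint : ∀ z', Integrable (fun x => C.K t y (x, ⟪x, chart n u⟫) z')
      (stdGaussian (Euc (n + 1))) := fun z' =>
    Integrable.of_bound
      ((C.K_meas t y z').comp (Continuous.measurable (by fun_prop))).aestronglyMeasurable 1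
      (.of_forall fun x => by
        rw [Real.norm_eq_abs, abs_of_pos (C.low_pos.trans_le (C.K_low _ _ _ _))]
        exact chan_le_one C t y _ _)
  refine ⟨fun z' => ?_, ?_⟩
  · calc C.low = ∫ _x, C.low ∂(stdGaussian (Euc (n + 1))) := by simp
      _ ≤ _ := integral_mono (integrable_const _) (hint z') fun x => C.K_low _ _ _ _
  · simp only [trans]
    rw [← integral_finsetSum _ fun z' _ => hint z']
    simp [C.K_sum]

omit [DecidableEq S] in
lemma transNoisy_props (C : Chan (n + 1) S) (eta : ℝ) (t : ℕ) (u : Par n) (y : S) :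
    (∀ z', C.low ≤ transNoisy (C.K t) eta (chart n u) y z') ∧
    (∑ z', transNoisy (C.K t) eta (chart n u) y z' = 1) := by
  have hm : ∀ z', Measurable fun p : Euc (n + 1) × ℝ =>
      C.K t y (p.1, ⟪p.1, chart n u⟫ + eta * p.2) z' := fun z' =>
    (C.K_meas t y z').comp (Continuous.measurable (by fun_prop))
  have hbd : ∀ z' (p : Euc (n + 1) × ℝ), ‖C.K t y (p.1, ⟪p.1, chart n u⟫ + eta * p.2) z'‖ ≤ 1 :=
    fun z' p => by
      rw [Real.norm_eq_abs, abs_of_pos (C.low_pos.trans_le (C.K_low _ _ _ _))]
      exact chan_le_one C t y _ _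
  have hin : ∀ z' x, Integrable (fun g => C.K t y (x, ⟪x, chart n u⟫ + eta * g) z')
      (gaussianReal 0 1) := fun z' x =>
    Integrable.of_bound ((hm z').comp measurable_prodMk_left).aestronglyMeasurable 1
      (.of_forall fun g => hbd z' (x, g))
  have hout : ∀ z', Integrable (fun x => ∫ g, C.K t y (x, ⟪x, chart n u⟫ + eta * g) z'
      ∂(gaussianReal 0 1)) (stdGaussian (Euc (n + 1))) := fun z' => by
    have h : Integrable (fun p : Euc (n + 1) × ℝ => C.K t y (p.1, ⟪p.1, chart n u⟫ + eta * p.2) z')
        ((stdGaussian (Euc (n + 1))).prod (gaussianReal 0 1)) :=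
      Integrable.of_bound (hm z').aestronglyMeasurable 1 (.of_forall (hbd z'))
    exact h.integral_prod_left
  refine ⟨fun z' => ?_, ?_⟩
  · calc C.low = ∫ _x, (∫ _g, C.low ∂(gaussianReal 0 1)) ∂(stdGaussian (Euc (n + 1))) := by simp
      _ ≤ _ := integral_mono (integrable_const _) (hout z') fun x =>
          integral_mono (integrable_const _) (hin z' x) fun g => C.K_low _ _ _ _
  · simp only [transNoisy]
    rw [← integral_finsetSum _ fun z' _ => hout z']
    have : ∀ x, ∑ z', ∫ g, C.K t y (x, ⟪x, chart n u⟫ + eta * g) z' ∂(gaussianReal 0 1) = 1 := by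
      intro x
      rw [← integral_finsetSum _ fun z' _ => hin z' x]
      simp [C.K_sum]
    simp [this]

lemma winExact_props (C : Chan (n + 1) S) (t : ℕ) (u : Par n) : ∀ (k : ℕ) (z : S),
    (∀ z', 0 ≤ winExact C t k u z z') ∧ (∑ z', winExact C t k u z z' = 1) ∧
    (1 ≤ k → ∀ z', C.low ≤ winExact C t k u z z') := by
  intro k
  induction k with
  | zero =>
    intro z
    refine ⟨fun z' => ?_, by simp [winExact], fun h => absurd h (by omega)⟩
    simp only [winExact]; split_ifs <;> norm_num
  | succ k ih =>
    intro z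
    obtain ⟨h0, h1, -⟩ := ih z
    refine ⟨fun z' => Finset.sum_nonneg fun y _ => mul_nonneg (h0 y)
      (C.low_pos.le.trans ((trans_props C _ u y).1 z')), ?_, fun _ z' => ?_⟩
    · simp only [winExact]
      rw [Finset.sum_comm]
      simp only [← Finset.mul_sum, fun y => (trans_props C (t + k) u y).2, mul_one, h1]
    · calc C.low = ∑ y, winExact C t k u z y * C.low := by rw [← Finset.sum_mul, h1, one_mul]
        _ ≤ _ := Finset.sum_le_sum fun y _ =>
            mul_le_mul_of_nonneg_left ((trans_props C _ u y).1 z') (h0 y)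

lemma winNoisy_props (C : Chan (n + 1) S) (eta : ℝ) (t : ℕ) (u : Par n) : ∀ (k : ℕ) (z : S),
    (∀ z', 0 ≤ winNoisy C eta t k u z z') ∧ (∑ z', winNoisy C eta t k u z z' = 1) ∧
    (1 ≤ k → ∀ z', C.low ≤ winNoisy C eta t k u z z') := by
  intro k
  induction k with
  | zero =>
    intro z
    refine ⟨fun z' => ?_, by simp [winNoisy], fun h => absurd h (by omega)⟩
    simp only [winNoisy]; split_ifs <;> norm_num
  | succ k ih =>
    intro z
    obtain ⟨h0, h1, -⟩ := ih z
    refine ⟨fun z' => Finset.sum_nonneg fun y _ => mul_nonneg (h0 y)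
      (C.low_pos.le.trans ((transNoisy_props C eta _ u y).1 z')), ?_, fun _ z' => ?_⟩
    · simp only [winNoisy]
      rw [Finset.sum_comm]
      simp only [← Finset.mul_sum, fun y => (transNoisy_props C eta (t + k) u y).2, mul_one, h1]
    · calc C.low = ∑ y, winNoisy C eta t k u z y * C.low := by rw [← Finset.sum_mul, h1, one_mul]
        _ ≤ _ := Finset.sum_le_sum fun y _ =>
            mul_le_mul_of_nonneg_left ((transNoisy_props C eta _ u y).1 z') (h0 y)

lemma measurable_trans {K : S → Euc (n + 1) × ℝ → S → ℝ}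
    (hm : ∀ z w, Measurable fun p => K z p w) (y z' : S) :
    Measurable fun u : Par n => trans K (chart n u) y z' := by
  have hc := continuous_chart (n := n)
  exact ((hm y z').comp (f := fun q : Par n × Euc (n + 1) => (q.2, ⟪q.2, chart n q.1⟫))
    (Continuous.measurable (by fun_prop))).stronglyMeasurable.integral_prod_right'.measurable

lemma measurable_winExact (C : Chan (n + 1) S) (t : ℕ) : ∀ (k : ℕ) (z z' : S),
    Measurable fun u : Par n => winExact C t k u z z' := by
  intro k
  induction k with
  | zero => intro z z'; exact measurable_const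
  | succ k ih =>
    intro z z'
    exact Finset.measurable_sum _ fun y _ => (ih z y).mul (measurable_trans (C.K_meas _) y z')

lemma measurable_winNoisy (C : Chan (n + 1) S) (eta : ℝ) (t : ℕ) : ∀ (k : ℕ) (z z' : S),
    Measurable fun u : Par n => winNoisy C eta t k u z z' := by
  intro k
  induction k with
  | zero => intro z z'; exact measurable_const
  | succ k ih =>
    intro z z'
    refine Finset.measurable_sum _ fun y _ => (ih z y).mul ?_
    have hc := continuous_chart (n := n)
    have h1 : Measurable fun q : (Par n × Euc (n + 1)) × ℝ =>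
        C.K (t + k) y (q.1.2, ⟪q.1.2, chart n q.1.1⟫ + eta * q.2) z' :=
      (C.K_meas (t + k) y z').comp (Continuous.measurable (by fun_prop))
    exact h1.stronglyMeasurable.integral_prod_right'.integral_prod_right'.measurable

/-- The noisy transition is an integral against the row density. -/
lemma transNoisy_eq {K : S → Euc (n + 1) × ℝ → S → ℝ} (hm : ∀ z w, Measurable fun p => K z p w)
    (hb : ∀ z p w, |K z p w| ≤ 1) {eta : ℝ} (h : 0 < eta) (u : Par n) (y z' : S) :
    transNoisy K eta (chart n u) y z' =
      ∫ p, gden eta (resid (chart n u) p) * K y p z' ∂(rowBase (n + 1)) := by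
  have hint : Integrable (fun p => gden eta (resid (chart n u) p) * K y p z') (rowBase (n + 1)) :=
    (row_one h (chart n u)).1.mul_bdd (c := 1) (hm y z').aestronglyMeasurable
      (.of_forall fun p => by rw [Real.norm_eq_abs]; exact hb _ _ _)
  rw [rowBase] at hint ⊢
  rw [integral_prod _ hint, transNoisy]
  refine integral_congr_ae (.of_forall fun x => ?_)
  set a := ⟪x, chart n u⟫
  have hmap : gaussianReal a (Real.toNNReal (eta ^ 2)) =
      (gaussianReal 0 1).map (fun g => a + eta * g) := by
    have e : (fun g => a + eta * g) = (fun g => a + g) ∘ fun g => eta * g := rfl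
    rw [e, ← Measure.map_map (by fun_prop) (by fun_prop), gaussianReal_map_const_mul,
      gaussianReal_map_const_add]
    congr 1
    · simp
    · ext; simp [Real.coe_toNNReal _ (sq_nonneg eta)]
  have hv : Real.toNNReal (eta ^ 2) ≠ 0 := (Real.toNNReal_pos.2 (by positivity)).ne'
  calc ∫ g, K y (x, a + eta * g) z' ∂(gaussianReal 0 1)
      = ∫ v, K y (x, v) z' ∂(gaussianReal a (Real.toNNReal (eta ^ 2))) := by
        rw [hmap, integral_map (by fun_prop)]
        exact ((hm y z').comp measurable_prodMk_left).aestronglyMeasurable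
    _ = _ := by
        rw [integral_gaussianReal_eq_integral_smul hv]
        refine integral_congr_ae (.of_forall fun v => ?_)
        simp only [smul_eq_mul, resid, ← gden_eq h, a]

/-- The noisy composite is the window integral of the composite kernel. -/
lemma gfun_winK (C : Chan (n + 1) S) {eta : ℝ} (h : 0 < eta) (t : ℕ) : ∀ (k : ℕ) (u : Par n)
    (z z' : S), Wgt.gfun (k := k) eta (fun W => winK C t k W z z') u = winNoisy C eta t k u z z' := by
  intro k
  induction k with
  | zero =>
    intro u z z'
    simp only [Wgt.gfun, winK, winNoisy, integral_mul_const, (Wgt.psi_int h u).2, one_mul]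
  | succ k ih =>
    intro u z z'
    have mp := measurePreserving_piFinSuccAbove (fun _ : Fin (k + 1) => rowBase (n + 1)) (Fin.last k)
    set G : (Fin (k + 1) → Row (n + 1)) → ℝ :=
      fun W => Wgt.psi eta u W * winK C t (k + 1) W z z' with hG
    have hK1 : ∀ (j : ℕ) (W : Fin j → Row (n + 1)) (a b : S), |winK C t j W a b| ≤ 1 := by
      intro j W a b
      obtain ⟨-, h0, h1, -⟩ := winK_props C t j a
      rw [abs_of_nonneg (h0 W b), ← h1 W]
      exact Finset.single_le_sum (fun y _ => h0 W y) (Finset.mem_univ b)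
    have hC1 : ∀ (a : S) (p : Row (n + 1)) (b : S), |C.K (t + k) a p b| ≤ 1 := fun a p b => by
      rw [abs_of_pos (C.low_pos.trans_le (C.K_low _ _ _ _))]; exact chan_le_one C _ _ _ _
    have e : ∫ W, G W ∂(wBase (n + 1) (k + 1)) =
        ∫ p : Row (n + 1) × (Fin k → Row (n + 1)),
          G (Fin.snoc p.2 p.1) ∂((rowBase (n + 1)).prod (wBase (n + 1) k)) := by
      refine ((mp.symm _).integral_comp' G).symm.trans (integral_congr_ae (.of_forall fun p => ?_))
      simp [MeasurableEquiv.piFinSuccAbove_symm_apply, Fin.insertNth_last', Fin.insertNthEquiv]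
    show ∫ W, G W ∂(wBase (n + 1) (k + 1)) = _
    rw [e]
    have hs : ∀ p : Row (n + 1) × (Fin k → Row (n + 1)), G (Fin.snoc p.2 p.1) =
        ∑ y, (gden eta (resid (chart n u) p.1) * C.K (t + k) y p.1 z') *
          (Wgt.psi eta u p.2 * winK C t k p.2 z y) := by
      intro p
      have hp : Wgt.psi eta u (Fin.snoc p.2 p.1) =
          Wgt.psi eta u p.2 * gden eta (resid (chart n u) p.1) := by
        simp only [Wgt.psi, Fin.prod_univ_castSucc, Fin.snoc_castSucc, Fin.snoc_last]
      simp only [hG, hp, winK, Finset.mul_sum, Fin.snoc_castSucc, Fin.snoc_last]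
      exact Finset.sum_congr rfl fun y _ => by ring
    simp only [hs]
    have hi1 : ∀ y, Integrable (fun q => gden eta (resid (chart n u) q) * C.K (t + k) y q z')
        (rowBase (n + 1)) := fun y =>
      (row_one h (chart n u)).1.mul_bdd (c := 1) (C.K_meas _ _ _).aestronglyMeasurable
        (.of_forall fun q => by rw [Real.norm_eq_abs]; exact hC1 _ _ _)
    have hi2 : ∀ y, Integrable (fun W => Wgt.psi eta u W * winK C t k W z y) (wBase (n + 1) k) :=
      fun y => (Wgt.psi_int h u).1.mul_bdd (c := 1) ((winK_props C t k z).1 y).aestronglyMeasurable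
        (.of_forall fun q => by rw [Real.norm_eq_abs]; exact hK1 _ _ _ _)
    rw [integral_finsetSum _ fun y _ => (hi1 y).mul_prod (hi2 y), winNoisy]
    refine Finset.sum_congr rfl fun y _ => ?_
    rw [integral_prod_mul (fun q => gden eta (resid (chart n u) q) * C.K (t + k) y q z')
      (fun W => Wgt.psi eta u W * winK C t k W z y), ← transNoisy_eq (C.K_meas _) hC1 h u y z',
      ← ih u z y, mul_comm]
    rfl

omit [DecidableEq S] in
lemma lk_props (C : Chan (n + 1) S) (u : Par n) : ∀ t,
    (∀ z, 0 ≤ C.lk (chart n u) t z) ∧ ∑ z, C.lk (chart n u) t z = 1 := by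
  intro t
  induction t with
  | zero => exact ⟨fun z => (C.init_pos z).le, C.init_sum⟩
  | succ t ih =>
    refine ⟨fun z => Finset.sum_nonneg fun y _ => mul_nonneg (ih.1 y)
      (C.low_pos.le.trans ((trans_props C t u y).1 z)), ?_⟩
    simp only [Chan.lk]
    rw [Finset.sum_comm]
    simp only [← Finset.mul_sum, fun y => (trans_props C t u y).2, mul_one, ih.2]

lemma lk_window (C : Chan (n + 1) S) (u : Par n) (t : ℕ) : ∀ (k : ℕ) (z' : S),
    C.lk (chart n u) (t + k) z' = ∑ z, C.lk (chart n u) t z * winExact C t k u z z' := by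
  intro k
  induction k with
  | zero => intro z'; simp [winExact]
  | succ k ih =>
    intro z'
    show ∑ y, C.lk (chart n u) (t + k) y * trans (C.K (t + k)) (chart n u) y z' = _
    simp only [ih, winExact, Finset.sum_mul, Finset.mul_sum]
    rw [Finset.sum_comm]
    exact Finset.sum_congr rfl fun a _ => Finset.sum_congr rfl fun b _ => by ring

/-- The noise can be switched off. -/
lemma tendsto_winNoisy (C : Chan (n + 1) S)
    (hN : ∀ (t : ℕ) (z z' : S), Tendsto (fun eta => ∫ u, |transNoisy (C.K t) eta (chart n u) z z' -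
      trans (C.K t) (chart n u) z z'| ∂(cubeMeas n)) (nhdsWithin 0 (Set.Ioi 0)) (nhds 0))
    (t : ℕ) : ∀ (k : ℕ) (z z' : S), Tendsto (fun eta => ∫ u, |winNoisy C eta t k u z z' -
      winExact C t k u z z'| ∂(cubeMeas n)) (nhdsWithin 0 (Set.Ioi 0)) (nhds 0) := by
  intro k
  induction k with
  | zero => intro z z'; simp [winNoisy, winExact]
  | succ k ih =>
    intro z z'
    have hu : ∀ (f : S → ℝ), (∀ y, 0 ≤ f y) → ∑ y, f y = 1 → ∀ y, f y ≤ 1 := fun f h0 h1 y =>
      h1 ▸ Finset.single_le_sum (fun x _ => h0 x) (Finset.mem_univ y)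
    have htm : ∀ eta y, Measurable fun u : Par n =>
        transNoisy (C.K (t + k)) eta (chart n u) y z' := by
      intro eta y
      have hc := continuous_chart (n := n)
      have h1 : Measurable fun q : (Par n × Euc (n + 1)) × ℝ =>
          C.K (t + k) y (q.1.2, ⟪q.1.2, chart n q.1.1⟫ + eta * q.2) z' :=
        (C.K_meas (t + k) y z').comp (Continuous.measurable (by fun_prop))
      exact h1.stronglyMeasurable.integral_prod_right'.integral_prod_right'.measurable
    have hb : ∀ {f g : Par n → ℝ}, Measurable f → Measurable g → (∀ u, 0 ≤ f u ∧ f u ≤ 1) →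
        (∀ u, 0 ≤ g u ∧ g u ≤ 1) → Integrable (fun u => |f u - g u|) (cubeMeas n) := by
      intro f g hf hg hf1 hg1
      refine Integrable.of_bound ((hf.sub hg).abs).aestronglyMeasurable 1 (.of_forall fun u => ?_)
      rw [Real.norm_eq_abs, abs_abs, abs_sub_le_iff]
      obtain ⟨a, b⟩ := hf1 u
      obtain ⟨c, d⟩ := hg1 u
      constructor <;> linarith
    have hNb : ∀ eta y (u : Par n), 0 ≤ transNoisy (C.K (t + k)) eta (chart n u) y z' ∧
        transNoisy (C.K (t + k)) eta (chart n u) y z' ≤ 1 := fun eta y u => by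
      obtain ⟨h1, h2⟩ := transNoisy_props C eta (t + k) u y
      exact ⟨C.low_pos.le.trans (h1 z'), hu _ (fun x => C.low_pos.le.trans (h1 x)) h2 z'⟩
    have hEb : ∀ y (u : Par n), 0 ≤ trans (C.K (t + k)) (chart n u) y z' ∧
        trans (C.K (t + k)) (chart n u) y z' ≤ 1 := fun y u => by
      obtain ⟨h1, h2⟩ := trans_props C (t + k) u y
      exact ⟨C.low_pos.le.trans (h1 z'), hu _ (fun x => C.low_pos.le.trans (h1 x)) h2 z'⟩
    have hwN : ∀ eta y (u : Par n),
        0 ≤ winNoisy C eta t k u z y ∧ winNoisy C eta t k u z y ≤ 1 := fun eta y u => by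
      obtain ⟨h1, h2, -⟩ := winNoisy_props C eta t u k z; exact ⟨h1 y, hu _ h1 h2 y⟩
    have hwE : ∀ y (u : Par n), 0 ≤ winExact C t k u z y ∧ winExact C t k u z y ≤ 1 := fun y u => by
      obtain ⟨h1, h2, -⟩ := winExact_props C t u k z; exact ⟨h1 y, hu _ h1 h2 y⟩
    have hi1 : ∀ eta y, Integrable (fun u => |winNoisy C eta t k u z y - winExact C t k u z y|)
        (cubeMeas n) := fun eta y => hb (measurable_winNoisy C eta t k z y)
      (measurable_winExact C t k z y) (hwN eta y) (hwE y)
    have hi2 : ∀ eta y, Integrable (fun u => |transNoisy (C.K (t + k)) eta (chart n u) y z' -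
        trans (C.K (t + k)) (chart n u) y z'|) (cubeMeas n) := fun eta y =>
      hb (htm eta y) (measurable_trans (C.K_meas _) y z') (hNb eta y) (hEb y)
    refine squeeze_zero (fun eta => integral_nonneg fun u => abs_nonneg _) (fun eta => ?_)
      (g := fun eta => ∑ y, ((∫ u, |winNoisy C eta t k u z y - winExact C t k u z y| ∂(cubeMeas n)) +
        ∫ u, |transNoisy (C.K (t + k)) eta (chart n u) y z' -
          trans (C.K (t + k)) (chart n u) y z'| ∂(cubeMeas n))) ?_
    · simp only [← fun y => integral_add (hi1 eta y) (hi2 eta y)]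
      rw [← integral_finsetSum]
      · refine integral_mono_of_nonneg (.of_forall fun u => abs_nonneg _)
          (integrable_finsetSum _ fun y _ => (hi1 eta y).add (hi2 eta y)) (.of_forall fun u => ?_)
        simp only [winNoisy, winExact, ← Finset.sum_sub_distrib]
        refine (Finset.abs_sum_le_sum_abs _ _).trans (Finset.sum_le_sum fun y _ => ?_)
        set a := winNoisy C eta t k u z y
        set a' := winExact C t k u z y
        set b := transNoisy (C.K (t + k)) eta (chart n u) y z'
        set b' := trans (C.K (t + k)) (chart n u) y z'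
        calc |a * b - a' * b'| = |(a - a') * b + a' * (b - b')| := by congr 1; ring
          _ ≤ |(a - a') * b| + |a' * (b - b')| := abs_add_le _ _
          _ ≤ _ := by
            rw [abs_mul, abs_mul, abs_of_nonneg (hNb eta y u).1, abs_of_nonneg (hwE y u).1]
            exact add_le_add (mul_le_of_le_one_right (abs_nonneg _) (hNb eta y u).2)
              (mul_le_of_le_one_left (abs_nonneg _) (hwE y u).2)
      · exact fun y _ => (hi1 eta y).add (hi2 eta y)
    · simpa using tendsto_finsetSum Finset.univ fun y _ => (ih z y).add (hN (t + k) y z')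

end Vale.Agent.P309
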