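import Vale.Agent.P309.Rows

/-!
Copies of the signal that share one window of noisy rows.
-/

namespace Vale.Agent.P309

open MeasureTheory ProbabilityTheory Real
open scoped RealInnerProductSpace

/-- A probability weight on a dyadic cell with a Frostman bound. -/
structure Wgt (n : ℕ) where
  l : ℕ
  c : Fin n → ℤ
  hc : c ∈ idxSet n l
  f : Par n → ℝ
  meas : Measurable f
  nonneg : ∀ u, 0 ≤ f u
  B : ℝ
  le_B : ∀ u, f u ≤ B
  one : ∫ u in cellOf l c, f u = 1
  Q : ℝ
  one_le_Q : 1 ≤ Q
  frost : ∀ u ∈ cellOf l c, f u ≠ 0 → ∀ i, mass (l + i) f u ≤ Q * (1 / 2) ^ (cof n * i)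

variable {n k m : ℕ}

/-- The reference measure on windows. -/
noncomputable def wBase (d k : ℕ) : Measure (Fin k → Row d) := Measure.pi fun _ => rowBase d

instance {d k : ℕ} : SigmaFinite (wBase d k) := by unfold wBase; infer_instance

namespace Wgt

variable (w : Wgt n)

/-- Lebesgue measure on the cell. -/
noncomputable def cm1 : Measure (Par n) := volume.restrict (cellOf w.l w.c)

instance : IsFiniteMeasure w.cm1 :=
  isFiniteMeasure_restrict.2 (volume_cellOf_ne_top _ _)

/-- Lebesgue measure on tuples of copies. -/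
noncomputable def cm (m : ℕ) : Measure (Fin (m + 1) → Par n) := Measure.pi fun _ => w.cm1

instance (m : ℕ) : IsFiniteMeasure (w.cm m) := by unfold cm; infer_instance

lemma ae_cell : ∀ᵐ u ∂w.cm1, u ∈ cellOf w.l w.c :=
  ae_restrict_mem (measurableSet_cellOf _ _)

lemma ae_cell_all (m : ℕ) : ∀ᵐ us ∂w.cm m, ∀ j, us j ∈ cellOf w.l w.c := by
  rw [Filter.eventually_all]
  exact fun j =>
    (Measure.quasiMeasurePreserving_eval (fun _ : Fin (m + 1) => w.cm1) j).ae w.ae_cell

/-- The density of a window given the parameter. -/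
noncomputable def psi (eta : ℝ) (u : Par n) (W : Fin k → Row (n + 1)) : ℝ :=
  ∏ i, gden eta (resid (chart n u) (W i))

lemma psi_pos {eta : ℝ} (h : 0 < eta) (u : Par n) (W : Fin k → Row (n + 1)) : 0 < psi eta u W :=
  Finset.prod_pos fun _ _ => gden_pos h _

lemma measurable_resid_chart (i : Fin k) :
    Measurable fun p : Par n × (Fin k → Row (n + 1)) => resid (chart n p.1) (p.2 i) := by
  have := continuous_chart (n := n)
  exact Continuous.measurable (by unfold resid; fun_prop)

lemma measurable_psi (eta : ℝ) :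
    Measurable fun p : Par n × (Fin k → Row (n + 1)) => psi eta p.1 p.2 :=
  Finset.measurable_prod _ fun i _ => (measurable_gden eta).comp (measurable_resid_chart i)

lemma psi_le {eta : ℝ} (h : 0 < eta) (u : Par n) (W : Fin k → Row (n + 1)) :
    psi eta u W ≤ ((√(2 * π) * eta)⁻¹) ^ k := by
  calc psi eta u W ≤ ∏ _i : Fin k, (√(2 * π) * eta)⁻¹ :=
        Finset.prod_le_prod (fun i _ => (gden_pos h _).le) fun i _ => gden_le h _
    _ = _ := by simp

lemma psi_int {eta : ℝ} (h : 0 < eta) (u : Par n) :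
    Integrable (psi eta u) (wBase (n + 1) k) ∧ ∫ W, psi eta u W ∂(wBase (n + 1) k) = 1 := by
  constructor
  · exact Integrable.fintype_prod fun i => (row_one h (chart n u)).1
  · rw [wBase]
    unfold psi
    rw [integral_fintype_prod_eq_prod (fun (_ : Fin k) p => gden eta (resid (chart n u) p))]
    simp [(row_one h (chart n u)).2]

lemma psi_row {eta : ℝ} (h : 0 < eta) (u : Par n) (i : Fin k) {g : Row (n + 1) → ℝ}
    (hg : Integrable (fun p => gden eta (resid (chart n u) p) * g p) (rowBase (n + 1))) :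
    Integrable (fun W => psi eta u W * g (W i)) (wBase (n + 1) k) ∧
      ∫ W, psi eta u W * g (W i) ∂(wBase (n + 1) k) =
        ∫ p, gden eta (resid (chart n u) p) * g p ∂(rowBase (n + 1)) := by
  have e : (fun W : Fin k → Row (n + 1) => psi eta u W * g (W i)) =
      fun W => ∏ j, (gden eta (resid (chart n u) (W j)) * if j = i then g (W j) else 1) := by
    funext W; rw [Finset.prod_mul_distrib, Finset.prod_ite_eq' Finset.univ i (fun j => g (W j))]
    simp [psi]
  rw [e]
  refine ⟨Integrable.fintype_prod (f := fun (j : Fin k) p =>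
    gden eta (resid (chart n u) p) * if j = i then g p else 1) fun j => ?_, ?_⟩
  · by_cases hj : j = i
    · simpa [hj] using hg
    · simpa [hj] using (row_one h (chart n u)).1
  · rw [wBase, integral_fintype_prod_eq_prod (fun (j : Fin k) p =>
      gden eta (resid (chart n u) p) * if j = i then g p else 1),
      Finset.prod_eq_single i]
    · simp
    · intro j _ hj; simp [hj, (row_one h (chart n u)).2]
    · simp

/-- The joint weight of a parameter and a window. -/
noncomputable def fpsi (eta : ℝ) (u : Par n) (W : Fin k → Row (n + 1)) : ℝ := w.f u * psi eta u W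

lemma fpsi_nonneg {eta : ℝ} (h : 0 < eta) (u : Par n) (W : Fin k → Row (n + 1)) :
    0 ≤ w.fpsi eta u W := mul_nonneg (w.nonneg u) (psi_pos h u W).le

lemma measurable_fpsi (eta : ℝ) :
    Measurable fun p : Par n × (Fin k → Row (n + 1)) => w.fpsi eta p.1 p.2 :=
  (w.meas.comp measurable_fst).mul (measurable_psi eta)

lemma int_f : Integrable w.f w.cm1 :=
  Integrable.of_bound w.meas.aestronglyMeasurable w.B
    (.of_forall fun u => by rw [Real.norm_eq_abs, abs_of_nonneg (w.nonneg u)]; exact w.le_B u)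

lemma integral_f : ∫ u, w.f u ∂w.cm1 = 1 := w.one

/-- A row functional against the joint weight. -/
lemma fpsi_row {eta : ℝ} (h : 0 < eta) (i : Fin k) (g : Par n → Row (n + 1) → ℝ)
    (hgm : Measurable fun p : Par n × Row (n + 1) => g p.1 p.2) (hg0 : ∀ u p, 0 ≤ g u p) {C : ℝ}
    (hg : ∀ u ∈ cellOf w.l w.c,
      Integrable (fun p => gden eta (resid (chart n u) p) * g u p) (rowBase (n + 1)) ∧
        ∫ p, gden eta (resid (chart n u) p) * g u p ∂(rowBase (n + 1)) ≤ C) :
    Integrable (fun p : Par n × (Fin k → Row (n + 1)) => w.fpsi eta p.1 p.2 * g p.1 (p.2 i))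
        (w.cm1.prod (wBase (n + 1) k)) ∧
      ∫ p, w.fpsi eta p.1 p.2 * g p.1 (p.2 i) ∂(w.cm1.prod (wBase (n + 1) k)) ≤ C := by
  have hm : Measurable fun p : Par n × (Fin k → Row (n + 1)) =>
      w.fpsi eta p.1 p.2 * g p.1 (p.2 i) :=
    (w.measurable_fpsi eta).mul
      (hgm.comp (measurable_fst.prodMk ((measurable_pi_apply i).comp measurable_snd)))
  have hsec : ∀ u ∈ cellOf w.l w.c,
      Integrable (fun W => w.fpsi eta u W * g u (W i)) (wBase (n + 1) k) ∧
        ∫ W, w.fpsi eta u W * g u (W i) ∂(wBase (n + 1) k) ≤ w.f u * C := by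
    intro u hu
    obtain ⟨h1, h2⟩ := psi_row h u i (hg u hu).1
    simp only [fpsi, mul_assoc]
    exact ⟨h1.const_mul _, by
      rw [integral_const_mul, h2]; exact mul_le_mul_of_nonneg_left (hg u hu).2 (w.nonneg u)⟩
  have hint : Integrable (fun p : Par n × (Fin k → Row (n + 1)) =>
      w.fpsi eta p.1 p.2 * g p.1 (p.2 i)) (w.cm1.prod (wBase (n + 1) k)) := by
    rw [integrable_prod_iff hm.aestronglyMeasurable]
    refine ⟨w.ae_cell.mono fun u hu => (hsec u hu).1, (w.int_f.mul_const C).mono'
      hm.norm.stronglyMeasurable.integral_prod_right'.aestronglyMeasurable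
      (w.ae_cell.mono fun u hu => ?_)⟩
    rw [Real.norm_eq_abs, abs_of_nonneg (integral_nonneg fun W => norm_nonneg _)]
    refine le_trans (le_of_eq (integral_congr_ae (.of_forall fun W => ?_))) (hsec u hu).2
    exact norm_of_nonneg (mul_nonneg (w.fpsi_nonneg h _ _) (hg0 _ _))
  refine ⟨hint, ?_⟩
  rw [integral_prod _ hint]
  calc _ ≤ ∫ u, w.f u * C ∂w.cm1 :=
        integral_mono_ae hint.integral_prod_left (w.int_f.mul_const C)
          (w.ae_cell.mono fun u hu => (hsec u hu).2)
    _ = C := by rw [integral_mul_const, w.integral_f, one_mul]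

lemma int_fpsi {eta : ℝ} (h : 0 < eta) :
    Integrable (fun p : Par n × (Fin k → Row (n + 1)) => w.fpsi eta p.1 p.2)
        (w.cm1.prod (wBase (n + 1) k)) ∧
      ∫ p, w.fpsi eta p.1 p.2 ∂(w.cm1.prod (wBase (n + 1) k)) = 1 := by
  have hsec : ∀ u : Par n, ∫ W, w.fpsi eta u W ∂(wBase (n + 1) k) = w.f u := fun u => by
    simp only [fpsi]; rw [integral_const_mul, (psi_int h u).2, mul_one]
  have hint : Integrable (fun p : Par n × (Fin k → Row (n + 1)) => w.fpsi eta p.1 p.2)
      (w.cm1.prod (wBase (n + 1) k)) := by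
    rw [integrable_prod_iff (w.measurable_fpsi eta).aestronglyMeasurable]
    refine ⟨.of_forall fun u => ((psi_int (k := k) h u).1.const_mul (w.f u)).congr
        (.of_forall fun W => rfl),
      w.int_f.congr (.of_forall fun u => ?_)⟩
    dsimp only
    rw [← hsec u]
    exact integral_congr_ae (.of_forall fun W => (norm_of_nonneg (w.fpsi_nonneg h _ _)).symm)
  exact ⟨hint, by rw [integral_prod _ hint]; simp only [hsec, w.integral_f]⟩

lemma int_fpsi_bdd {eta : ℝ} (h : 0 < eta) {g : Par n × (Fin k → Row (n + 1)) → ℝ}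
    (hg : Measurable g) {C : ℝ} (hC : ∀ p, |g p| ≤ C) :
    Integrable (fun p : Par n × (Fin k → Row (n + 1)) => w.fpsi eta p.1 p.2 * g p)
      (w.cm1.prod (wBase (n + 1) k)) :=
  (w.int_fpsi h).1.mul_bdd (c := C) hg.aestronglyMeasurable
    (.of_forall fun p => by rw [Real.norm_eq_abs]; exact hC p)

/-- The marginal density of a window. -/
noncomputable def rden (eta : ℝ) (W : Fin k → Row (n + 1)) : ℝ := ∫ u, w.fpsi eta u W ∂w.cm1

lemma measurable_rden (eta : ℝ) : Measurable (fun W : Fin k → Row (n + 1) => w.rden eta W) :=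
  (w.measurable_fpsi eta).stronglyMeasurable.integral_prod_left'.measurable

lemma int_fpsi_left {eta : ℝ} (h : 0 < eta) (W : Fin k → Row (n + 1)) :
    Integrable (fun u => w.fpsi eta u W) w.cm1 :=
  w.int_f.mul_bdd (c := ((√(2 * π) * eta)⁻¹) ^ k)
    ((measurable_psi eta).comp measurable_prodMk_right).aestronglyMeasurable
    (.of_forall fun u => by rw [Real.norm_eq_abs, abs_of_pos (psi_pos h u W)]; exact psi_le h u W)

lemma rden_ge {eta : ℝ} (h : 0 < eta) (W : Fin k → Row (n + 1)) :
    ((√(2 * π) * eta)⁻¹) ^ k * exp (-(∑ i, ((W i).2 ^ 2 + ‖(W i).1‖ ^ 2)) / eta ^ 2) ≤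
      w.rden eta W := by
  set b := ((√(2 * π) * eta)⁻¹) ^ k * exp (-(∑ i, ((W i).2 ^ 2 + ‖(W i).1‖ ^ 2)) / eta ^ 2)
  calc b = ∫ u, w.f u * b ∂w.cm1 := by rw [integral_mul_const, w.integral_f, one_mul]
    _ ≤ _ := by
      refine integral_mono_ae (w.int_f.mul_const b) (w.int_fpsi_left h W) (w.ae_cell.mono fun u hu => ?_)
      refine mul_le_mul_of_nonneg_left ?_ (w.nonneg u)
      simp only [b, psi, gden]
      rw [Finset.prod_mul_distrib, Finset.prod_const, Finset.card_univ, Fintype.card_fin, ← exp_sum]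
      refine mul_le_mul_of_nonneg_left (exp_le_exp.2 ?_) (by positivity)
      rw [← Finset.sum_neg_distrib, Finset.sum_div]
      refine Finset.sum_le_sum fun i _ => ?_
      rw [div_le_div_iff₀ (by positivity) (by positivity)]
      have h1 : resid (chart n u) (W i) ^ 2 ≤ 2 * ((W i).2 ^ 2 + ‖(W i).1‖ ^ 2) := by
        have h2 := abs_real_inner_le_norm (W i).1 (chart n u)
        rw [norm_chart hu.1, mul_one] at h2
        have h3 : ⟪(W i).1, chart n u⟫ ^ 2 ≤ ‖(W i).1‖ ^ 2 := by
          rw [← sq_abs]; exact pow_le_pow_left₀ (abs_nonneg _) h2 2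
        unfold resid
        nlinarith [sq_nonneg ((W i).2 + ⟪(W i).1, chart n u⟫)]
      nlinarith [sq_nonneg eta]

lemma rden_pos {eta : ℝ} (h : 0 < eta) (W : Fin k → Row (n + 1)) : 0 < w.rden eta W :=
  lt_of_lt_of_le (by positivity) (w.rden_ge h W)

lemma rden_le {eta : ℝ} (h : 0 < eta) (W : Fin k → Row (n + 1)) :
    w.rden eta W ≤ ((√(2 * π) * eta)⁻¹) ^ k := by
  calc w.rden eta W ≤ ∫ u, w.f u * ((√(2 * π) * eta)⁻¹) ^ k ∂w.cm1 :=
        integral_mono (w.int_fpsi_left h W) (w.int_f.mul_const _)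
          fun u => mul_le_mul_of_nonneg_left (psi_le h u W) (w.nonneg u)
    _ = _ := by rw [integral_mul_const, w.integral_f, one_mul]

/-- The joint density of `m + 1` copies that share a window. -/
noncomputable def pid (eta : ℝ) (p : (Fin (m + 1) → Par n) × (Fin k → Row (n + 1))) : ℝ :=
  (∏ j, w.fpsi eta (p.1 j) p.2) / w.rden eta p.2 ^ m

lemma pid_nonneg {eta : ℝ} (h : 0 < eta) (p : (Fin (m + 1) → Par n) × (Fin k → Row (n + 1))) :
    0 ≤ w.pid eta p :=
  div_nonneg (Finset.prod_nonneg fun _ _ => w.fpsi_nonneg h _ _) (pow_nonneg (w.rden_pos h _).le _)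

lemma measurable_pid (eta : ℝ) :
    Measurable fun p : (Fin (m + 1) → Par n) × (Fin k → Row (n + 1)) => w.pid eta p :=
  (Finset.measurable_prod _ fun j _ => (w.measurable_fpsi eta).comp
      (((measurable_pi_apply j).comp measurable_fst).prodMk measurable_snd)).div
    (((w.measurable_rden eta).comp measurable_snd).pow_const m)

/-- Each copy with the window has the joint law of the signal and the window. -/
lemma pid_marginal {eta : ℝ} (h : 0 < eta) (j : Fin (m + 1))
    {g : Par n → (Fin k → Row (n + 1)) → ℝ}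
    (hgm : Measurable fun p : Par n × (Fin k → Row (n + 1)) => g p.1 p.2)
    (hg : Integrable (fun p : Par n × (Fin k → Row (n + 1)) => w.fpsi eta p.1 p.2 * g p.1 p.2)
      (w.cm1.prod (wBase (n + 1) k))) :
    Integrable (fun p => w.pid eta p * g (p.1 j) p.2) ((w.cm m).prod (wBase (n + 1) k)) ∧
      ∫ p, w.pid eta p * g (p.1 j) p.2 ∂((w.cm m).prod (wBase (n + 1) k)) =
        ∫ p, w.fpsi eta p.1 p.2 * g p.1 p.2 ∂(w.cm1.prod (wBase (n + 1) k)) := by
  have hrw : ∀ (W : Fin k → Row (n + 1)) (us : Fin (m + 1) → Par n),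
      w.pid eta (us, W) * g (us j) W = (w.rden eta W ^ m)⁻¹ *
        ∏ i, (w.fpsi eta (us i) W * if i = j then g (us i) W else 1) := by
    intro W us
    rw [Finset.prod_mul_distrib, Finset.prod_ite_eq' Finset.univ j (fun i => g (us i) W)]
    simp only [pid, Finset.mem_univ, if_true]
    ring
  have hm : Measurable fun p : (Fin (m + 1) → Par n) × (Fin k → Row (n + 1)) =>
      w.pid eta p * g (p.1 j) p.2 :=
    (w.measurable_pid eta).mul
      (hgm.comp (g := fun p : Par n × (Fin k → Row (n + 1)) => g p.1 p.2)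
        (f := fun p : (Fin (m + 1) → Par n) × (Fin k → Row (n + 1)) => (p.1 j, p.2))
        (((measurable_pi_apply j).comp measurable_fst).prodMk measurable_snd))
  have hsw := (integrable_prod_iff' ((w.measurable_fpsi eta).mul hgm).aestronglyMeasurable).1 hg
  have hprod : ∀ W : Fin k → Row (n + 1),
      Integrable (fun u => w.fpsi eta u W * g u W) w.cm1 →
      Integrable (fun us => w.pid eta (us, W) * g (us j) W) (w.cm m) ∧
      ∫ us, w.pid eta (us, W) * g (us j) W ∂(w.cm m) = ∫ u, w.fpsi eta u W * g u W ∂w.cm1 ∧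
      ∫ us, ‖w.pid eta (us, W) * g (us j) W‖ ∂(w.cm m) =
        ∫ u, ‖w.fpsi eta u W * g u W‖ ∂w.cm1 := by
    intro W hW
    have hi : ∀ i : Fin (m + 1),
        Integrable (fun u => w.fpsi eta u W * if i = j then g u W else 1) w.cm1 := by
      intro i; by_cases hi : i = j
      · simpa [hi] using hW
      · simpa [hi] using w.int_fpsi_left h W
    have hr := (w.rden_pos h W).ne'
    have hothers : ∏ i ∈ Finset.univ.erase j, w.rden eta W = w.rden eta W ^ m := by
      rw [Finset.prod_const, Finset.card_erase_of_mem (Finset.mem_univ _)]; simp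
    simp only [hrw]
    refine ⟨(Integrable.fintype_prod hi).const_mul _, ?_, ?_⟩
    · rw [integral_const_mul, cm, integral_fintype_prod_eq_prod (fun (i : Fin (m + 1)) u =>
        w.fpsi eta u W * if i = j then g u W else 1), ← Finset.mul_prod_erase _ _ (Finset.mem_univ j)]
      have : ∀ i ∈ Finset.univ.erase j,
          ∫ u, (w.fpsi eta u W * if i = j then g u W else 1) ∂w.cm1 = w.rden eta W := by
        intro i hi; simp [Finset.ne_of_mem_erase hi, rden]
      rw [Finset.prod_congr rfl this, hothers]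
      simp only [if_true]
      field_simp
    · simp only [norm_mul, norm_prod]
      rw [integral_const_mul, cm, integral_fintype_prod_eq_prod (fun (i : Fin (m + 1)) u =>
        ‖w.fpsi eta u W‖ * ‖if i = j then g u W else 1‖),
        ← Finset.mul_prod_erase _ _ (Finset.mem_univ j)]
      have : ∀ i ∈ Finset.univ.erase j,
          ∫ u, (‖w.fpsi eta u W‖ * ‖if i = j then g u W else 1‖) ∂w.cm1 = w.rden eta W := by
        intro i hi
        simp only [Finset.ne_of_mem_erase hi, if_false, norm_one, mul_one]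
        exact integral_congr_ae (.of_forall fun u => norm_of_nonneg (w.fpsi_nonneg h _ _))
      rw [Finset.prod_congr rfl this, hothers,
        norm_of_nonneg (inv_nonneg.2 (pow_nonneg (w.rden_pos h W).le _))]
      simp only [if_true]
      field_simp
  have hint : Integrable (fun p => w.pid eta p * g (p.1 j) p.2)
      ((w.cm m).prod (wBase (n + 1) k)) := by
    rw [integrable_prod_iff' hm.aestronglyMeasurable]
    exact ⟨hsw.1.mono fun W hW => (hprod W hW).1,
      hsw.2.congr (hsw.1.mono fun W hW => ((hprod W hW).2.2).symm)⟩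
  refine ⟨hint, ?_⟩
  rw [integral_prod_symm _ hint, integral_prod_symm _ hg]
  exact integral_congr_ae (hsw.1.mono fun W hW => (hprod W hW).2.1)

lemma pid_int {eta : ℝ} (h : 0 < eta) :
    Integrable (fun p => w.pid eta p) ((w.cm m).prod (wBase (n + 1) k)) ∧
      ∫ p, w.pid eta p ∂((w.cm m).prod (wBase (n + 1) k)) = 1 := by
  have := w.pid_marginal (m := m) h 0 (g := fun _ (_ : Fin k → Row (n + 1)) => (1 : ℝ))
    measurable_const (by simpa using (w.int_fpsi h).1)
  simpa [(w.int_fpsi (k := k) h).2] using this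

end Wgt

end Vale.Agent.P309
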