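import Mathlib.Probability.Distributions.Gaussian.Multivariate
import Mathlib.MeasureTheory.Constructions.HaarToSphere
import Mathlib.Analysis.SpecialFunctions.Trigonometric.Inverse
import Mathlib.MeasureTheory.Measure.Lebesgue.EqHaar

/-!
Memory-bounded learners for noiseless Gaussian linear regression.
-/

namespace Vale.Agent.P309

open MeasureTheory ProbabilityTheory Metric
open scoped ENNReal RealInnerProductSpace

/-- The Euclidean space of dimension `d`. -/
abbrev Euc (d : ℕ) : Type := EuclideanSpace ℝ (Fin d)

/-- The unit sphere of the Euclidean space of dimension `d`. -/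
abbrev Sph (d : ℕ) : Type := sphere (0 : Euc d) 1

/-- The uniform probability measure on the unit sphere. -/
noncomputable def uniformSphere (d : ℕ) : Measure (Sph d) :=
  ((volume : Measure (Euc d)).toSphere Set.univ)⁻¹ • (volume : Measure (Euc d)).toSphere

/-- A randomized streaming learner with `N` states. At index `t`, in state `z`, reading the pair
`(x, y)`, it moves to state `z'` and either stops (`b = true`) or continues (`b = false`), with
probability `step t z (x, y) (z', b)`. Its output is drawn from `out z` for the final state `z`. -/
structure Learner (d N : ℕ) where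
  init : Fin N → ℝ≥0∞
  init_sum : ∑ z, init z = 1
  step : ℕ → Fin N → Euc d × ℝ → Fin N × Bool → ℝ≥0∞
  step_meas : ∀ t z w, Measurable fun p => step t z p w
  step_sum : ∀ t z p, ∑ w, step t z p w = 1
  out : Fin N → Measure (Sph d)
  out_prob : ∀ z, IsProbabilityMeasure (out z)

/-- The law of (state, has the learner stopped) after at most `t` samples, when the signal is `s`:
the rows are independent standard Gaussian vectors, the labels are exactly `⟪x, s⟫`, and the
learner's randomness is fresh at every index. -/
noncomputable def Learner.law {d N : ℕ} (L : Learner d N) (s : Euc d) :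
    ℕ → Fin N × Bool → ℝ≥0∞
  | 0, (z, b) => if b then 0 else L.init z
  | t + 1, (z', b') => (if b' then L.law s t (z', true) else 0) +
      ∑ z, L.law s t (z, false) * ∫⁻ x, L.step t z (x, ⟪x, s⟫) (z', b') ∂(stdGaussian (Euc d))

/-- The probability that, with horizon `T`, the output of the learner is within angle `eps` of a
uniformly random signal. -/
noncomputable def Learner.success {d N : ℕ} (L : Learner d N) (T : ℕ) (eps : ℝ) : ℝ≥0∞ :=
  ∫⁻ s, ∑ w : Fin N × Bool, L.law (s : Euc d) T w *
    L.out w.1 {v | Real.arccos ⟪(v : Euc d), (s : Euc d)⟫ ≤ eps} ∂(uniformSphere d)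

end Vale.Agent.P309
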