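import Vale.Agent.P309.Cells

/-!
Entropy of a sub-density relative to its mass in dyadic cells.
-/

namespace Vale.Agent.P309

open MeasureTheory Real

variable {n : ℕ}

/-- `∫ a log (a / mass of the cell)` at level `l`. -/
noncomputable def ent (l : ℕ) (a : Par n → ℝ) : ℝ :=
  ∫ u, a u * log (a u / mass l a u) ∂(cubeMeas n)

/-- A measurable sub-density with values in `[0, 1]`. -/
structure Sub01 (a : Par n → ℝ) : Prop where
  meas : Measurable a
  nonneg : ∀ u ∈ cube n, 0 ≤ a u
  le_one : ∀ u ∈ cube n, a u ≤ 1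

lemma ae_mem_cube : ∀ᵐ u ∂(cubeMeas n), u ∈ cube n := ae_restrict_mem measurableSet_cube

lemma Sub01.integrable {a : Par n → ℝ} (ha : Sub01 a) : Integrable a (cubeMeas n) :=
  Integrable.of_bound ha.meas.aestronglyMeasurable 1 (ae_mem_cube.mono fun u hu => by
    rw [Real.norm_eq_abs, abs_of_nonneg (ha.nonneg u hu)]; exact ha.le_one u hu)

lemma integrableOn_cell {f : Par n → ℝ} (hf : Integrable f (cubeMeas n)) (l : ℕ) (c : Fin n → ℤ) :
    IntegrableOn f (cellOf l c) :=
  IntegrableOn.mono_set hf Set.inter_subset_left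

lemma Sub01.mass_nonneg {a : Par n → ℝ} (ha : Sub01 a) (l : ℕ) (u : Par n) : 0 ≤ mass l a u :=
  setIntegral_nonneg (measurableSet_cellOf _ _) fun v hv => ha.nonneg v hv.1

lemma Sub01.mass_le_vol {a : Par n → ℝ} (ha : Sub01 a) (l : ℕ) {u : Par n} (hu : u ∈ cube n) :
    mass l a u ≤ (1 / 2 : ℝ) ^ (l * n) := by
  calc mass l a u ≤ ∫ _v in cellOf l (idx l u), (1 : ℝ) :=
        setIntegral_mono_on (integrableOn_cell ha.integrable _ _)
          (integrableOn_const (volume_cellOf_ne_top _ _)) (measurableSet_cellOf _ _)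
          fun v hv => ha.le_one v hv.1
    _ = _ := by rw [setIntegral_const, smul_eq_mul, mul_one, volume_real_cellOf (idx_mem hu)]

lemma mass_mono {f g : Par n → ℝ} (hf : Integrable f (cubeMeas n)) (hg : Integrable g (cubeMeas n))
    (h : ∀ u ∈ cube n, f u ≤ g u) (l : ℕ) (u : Par n) : mass l f u ≤ mass l g u :=
  setIntegral_mono_on (integrableOn_cell hf _ _) (integrableOn_cell hg _ _)
    (measurableSet_cellOf _ _) fun v hv => h v hv.1

/-- Cells with zero mass carry nothing. -/
lemma Sub01.ae_mass_pos {a : Par n → ℝ} (ha : Sub01 a) (l : ℕ) :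
    ∀ᵐ u ∂(cubeMeas n), a u ≠ 0 → 0 < mass l a u := by
  have hm : MeasurableSet {u | mass l a u = 0} := measurable_mass l a (measurableSet_singleton 0)
  have hint : Integrable ({u | mass l a u = 0}.indicator a) (cubeMeas n) := ha.integrable.indicator hm
  have h0 : ∫ u, {u | mass l a u = 0}.indicator a u ∂(cubeMeas n) = 0 := by
    rw [integral_cube_eq_sum hint l]
    refine Finset.sum_eq_zero fun c _ => ?_
    by_cases hc : (∫ v in cellOf l c, a v) = 0
    · rw [setIntegral_congr_fun (measurableSet_cellOf l c) (g := a) (fun v hv => ?_), hc]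
      rw [Set.indicator_of_mem]
      show mass l a v = 0
      rw [mass, hv.2, hc]
    · rw [setIntegral_congr_fun (measurableSet_cellOf l c) (g := fun _ => (0 : ℝ)) (fun v hv => ?_)]
      · simp
      · rw [Set.indicator_of_notMem]
        show ¬ mass l a v = 0
        rw [mass, hv.2]; exact hc
  have hnn : 0 ≤ᵐ[cubeMeas n] {u | mass l a u = 0}.indicator a := ae_mem_cube.mono fun u hu =>
    Set.indicator_apply_nonneg fun _ => ha.nonneg u hu
  filter_upwards [(integral_eq_zero_iff_of_nonneg_ae hnn hint).1 h0] with u hu hau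
  refine lt_of_le_of_ne (ha.mass_nonneg l u) fun h => hau ?_
  simpa [Set.indicator_of_mem (show u ∈ {u | mass l a u = 0} from h.symm)] using hu

/-- A function of the cell index is bounded on the cube. -/
lemma exists_idx_bound (l : ℕ) (G : (Fin n → ℤ) → ℝ) :
    ∃ C, ∀ u ∈ cube n, |G (idx l u)| ≤ C :=
  ⟨∑ c ∈ idxSet n l, |G c|, fun u hu =>
    Finset.single_le_sum (f := fun c => |G c|) (fun c _ => abs_nonneg _) (idx_mem hu)⟩

lemma abs_mul_log_le_one {x : ℝ} (h0 : 0 ≤ x) (h1 : x ≤ 1) : |x * log x| ≤ 1 := by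
  rcases h0.eq_or_lt with rfl | h
  · simp
  · rw [abs_mul, abs_of_pos h, abs_of_nonpos (log_nonpos h.le h1)]
    have := log_le_sub_one_of_pos (inv_pos.2 h)
    rw [log_inv] at this
    calc x * -log x ≤ x * (x⁻¹ - 1) := mul_le_mul_of_nonneg_left this h.le
      _ ≤ 1 := by rw [mul_sub, mul_inv_cancel₀ h.ne']; linarith

/-- Against a function of the cell index. -/
lemma Sub01.integrable_mul_idx {a : Par n → ℝ} (ha : Sub01 a) (l : ℕ) (G : (Fin n → ℤ) → ℝ) :
    Integrable (fun u => a u * G (idx l u)) (cubeMeas n) := by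
  obtain ⟨C, hC⟩ := exists_idx_bound l G
  exact ha.integrable.mul_bdd (c := C)
    ((Measurable.of_discrete (f := G)).comp (measurable_idx l)).aestronglyMeasurable
    (ae_mem_cube.mono fun u hu => by rw [Real.norm_eq_abs]; exact hC u hu)

lemma Sub01.ent_integrable {a : Par n → ℝ} (ha : Sub01 a) (l : ℕ) :
    Integrable (fun u => a u * log (a u / mass l a u)) (cubeMeas n) := by
  have h1 : Integrable (fun u => a u * log (a u)) (cubeMeas n) :=
    Integrable.of_bound (ha.meas.mul (measurable_log.comp ha.meas)).aestronglyMeasurable 1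
      (ae_mem_cube.mono fun u hu => abs_mul_log_le_one (ha.nonneg u hu) (ha.le_one u hu))
  have h2 : Integrable (fun u => a u * log (mass l a u)) (cubeMeas n) :=
    ha.integrable_mul_idx l fun c => log (∫ v in cellOf l c, a v)
  refine (h1.sub h2).congr ((ha.ae_mass_pos l).mono fun u hu => ?_)
  simp only [Pi.sub_apply]
  by_cases h : a u = 0
  · simp [h]
  · rw [log_div h (hu h).ne', mul_sub]

/-- The integral of a cell function times the cell volume. -/
lemma integral_mass_div_vol (l : ℕ) {a : Par n → ℝ} (ha : Sub01 a) :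
    Integrable (fun u => mass l a u / (1 / 2 : ℝ) ^ (l * n)) (cubeMeas n) ∧
      ∫ u, mass l a u / (1 / 2 : ℝ) ^ (l * n) ∂(cubeMeas n) = ∫ u, a u ∂(cubeMeas n) := by
  have hint : Integrable (fun u => mass l a u / (1 / 2 : ℝ) ^ (l * n)) (cubeMeas n) :=
    Integrable.of_bound ((measurable_mass l a).div_const _).aestronglyMeasurable 1
      (ae_mem_cube.mono fun u hu => by
        rw [Real.norm_eq_abs, abs_of_nonneg (div_nonneg (ha.mass_nonneg l u) (by positivity)),
          div_le_one (by positivity)]
        exact ha.mass_le_vol l hu)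
  refine ⟨hint, ?_⟩
  rw [integral_cube_eq_sum hint l, integral_cube_eq_sum ha.integrable l]
  refine Finset.sum_congr rfl fun c hc => ?_
  rw [setIntegral_congr_fun (measurableSet_cellOf l c)
    (g := fun _ => (∫ v in cellOf l c, a v) / (1 / 2 : ℝ) ^ (l * n))
    (fun v hv => by simp only [mass, idx_eq_of_mem hv]), setIntegral_const, smul_eq_mul, volume_real_cellOf hc,
    mul_div_cancel₀ _ (by positivity)]

/-- Entropy in a cell is at least that of the uniform density. -/
lemma Sub01.ent_ge {a : Par n → ℝ} (ha : Sub01 a) (l : ℕ) :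
    (l * n : ℕ) * log 2 * ∫ u, a u ∂(cubeMeas n) ≤ ent l a := by
  obtain ⟨hq, hq'⟩ := integral_mass_div_vol l ha
  set c0 : ℝ := (l * n : ℕ) * log 2
  have hc0 : exp c0 = 1 / (1 / 2 : ℝ) ^ (l * n) := by
    rw [exp_nat_mul, exp_log (by norm_num : (0 : ℝ) < 2), one_div_pow]; field_simp
  have h : ∫ u, (a u * c0 - a u * log (a u / mass l a u)) ∂(cubeMeas n) ≤
      ∫ u, (mass l a u / (1 / 2 : ℝ) ^ (l * n) - a u) ∂(cubeMeas n) := by
    refine integral_mono_ae ((ha.integrable.mul_const c0).sub (ha.ent_integrable l))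
      (hq.sub ha.integrable) ?_
    filter_upwards [ae_mem_cube, ha.ae_mass_pos l] with u hu hM
    rcases (ha.nonneg u hu).eq_or_lt with h0 | h0
    · rw [← h0]
      simp only [zero_mul, sub_zero]
      exact div_nonneg (ha.mass_nonneg l u) (by positivity)
    · have hM' := hM h0.ne'
      have h1 := add_one_le_exp (c0 - log (a u / mass l a u))
      rw [exp_sub, hc0, exp_log (div_pos h0 hM')] at h1
      have h2 := mul_le_mul_of_nonneg_left h1 h0.le
      have e : a u * (1 / (1 / 2 : ℝ) ^ (l * n) / (a u / mass l a u)) =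
          mass l a u / (1 / 2 : ℝ) ^ (l * n) := by field_simp
      rw [e] at h2
      linarith
  rw [integral_sub (ha.integrable.mul_const c0) (ha.ent_integrable l),
    integral_sub hq ha.integrable, hq', integral_mul_const] at h
  show c0 * _ ≤ ent l a
  unfold ent
  linarith

/-- Coarser cells have smaller entropy. -/
lemma Sub01.ent_zero_le {a : Par n → ℝ} (ha : Sub01 a) (l : ℕ) : ent 0 a ≤ ent l a := by
  refine integral_mono_ae (ha.ent_integrable 0) (ha.ent_integrable l) ?_
  filter_upwards [ae_mem_cube, ha.ae_mass_pos l] with u hu hM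
  by_cases h : a u = 0
  · simp [h]
  · have hle : mass l a u ≤ mass 0 a u := by
      refine setIntegral_mono_set (integrableOn_cell ha.integrable _ _)
        (ae_restrict_of_forall_mem (measurableSet_cellOf _ _) fun v hv => ha.nonneg v hv.1)
        (Filter.Eventually.of_forall ?_)
      have := cellOf_subset (l := 0) (i := l) (u := u)
      rw [Nat.zero_add] at this
      exact this
    refine mul_le_mul_of_nonneg_left (log_le_log ?_ ?_) (ha.nonneg u hu)
    · exact div_pos (lt_of_le_of_ne (ha.nonneg u hu) (Ne.symm h)) ((hM h).trans_le hle)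
    · exact div_le_div_of_nonneg_left (ha.nonneg u hu) (hM h) hle

/-- Merging labels cannot increase entropy. -/
lemma ent_merge {ι : Type*} (s : Finset ι) (a : ι → Par n → ℝ) (ha : ∀ i ∈ s, Sub01 (a i))
    {A : Par n → ℝ} (hA : Sub01 A) (hsum : ∀ u ∈ cube n, A u = ∑ i ∈ s, a i u) (l : ℕ) :
    ent l A ≤ ∑ i ∈ s, ent l (a i) := by
  classical
  set M := mass l A
  have hq : ∀ i ∈ s, Integrable (fun u => A u * mass l (a i) u / M u) (cubeMeas n) := by
    intro i hi
    have := hA.integrable_mul_idx l fun c => (∫ v in cellOf l c, a i v) / ∫ v in cellOf l c, A v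
    refine this.congr (.of_forall fun u => ?_)
    simp only [M, mass]; ring
  have hqv : ∫ u, (∑ i ∈ s, A u * mass l (a i) u / M u) ∂(cubeMeas n) = ∫ u, A u ∂(cubeMeas n) := by
    refine integral_congr_ae ?_
    filter_upwards [ae_mem_cube, hA.ae_mass_pos l] with u hu hM
    have hMs : ∑ i ∈ s, mass l (a i) u = M u := by
      simp only [M, mass]
      rw [← integral_finsetSum _ fun i hi => integrableOn_cell (ha i hi).integrable _ _]
      exact setIntegral_congr_fun (measurableSet_cellOf _ _) fun v hv => (hsum v hv.1).symm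
    by_cases h : A u = 0
    · simp [h]
    · rw [← Finset.sum_div, ← Finset.mul_sum, hMs, mul_div_assoc, div_self (hM h).ne', mul_one]
  have h : ∫ u, (A u * log (A u / M u) - ∑ i ∈ s, a i u * log (a i u / mass l (a i) u)) ∂(cubeMeas n) ≤
      ∫ u, ((∑ i ∈ s, A u * mass l (a i) u / M u) - A u) ∂(cubeMeas n) := by
    refine integral_mono_ae
      ((hA.ent_integrable l).sub (integrable_finsetSum _ fun i hi => (ha i hi).ent_integrable l))
      ((integrable_finsetSum _ hq).sub hA.integrable) ?_
    filter_upwards [ae_mem_cube, hA.ae_mass_pos l,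
      (Filter.eventually_all_finset s).2 fun i hi => (ha i hi).ae_mass_pos l] with u hu hM hMi
    rw [show A u * log (A u / M u) = ∑ i ∈ s, a i u * log (A u / M u) by
          rw [← Finset.sum_mul, ← hsum u hu],
      show (∑ i ∈ s, A u * mass l (a i) u / M u) - A u =
          ∑ i ∈ s, (A u * mass l (a i) u / M u - a i u) by
        rw [Finset.sum_sub_distrib, ← hsum u hu],
      ← Finset.sum_sub_distrib]
    refine Finset.sum_le_sum fun i hi => ?_
    have hA0 := hA.nonneg u hu
    have hmi := (ha i hi).mass_nonneg l u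
    have hM0 := hA.mass_nonneg l u
    rcases ((ha i hi).nonneg u hu).eq_or_lt with h0 | h0
    · rw [← h0]; simp only [zero_mul, sub_zero]
      exact div_nonneg (mul_nonneg hA0 hmi) hM0
    · have hAu : 0 < A u := by
        rw [hsum u hu]
        exact h0.trans_le (Finset.single_le_sum (f := fun j => a j u)
          (fun j hj => (ha j hj).nonneg u hu) hi)
      have hMp := hM hAu.ne'
      have hmp := hMi i hi h0.ne'
      have h1 := add_one_le_exp (log (A u / M u) - log (a i u / mass l (a i) u))
      rw [exp_sub, exp_log (div_pos hAu hMp), exp_log (div_pos h0 hmp)] at h1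
      have h2 := mul_le_mul_of_nonneg_left h1 h0.le
      have e : a i u * (A u / M u / (a i u / mass l (a i) u)) = A u * mass l (a i) u / M u := by
        field_simp
      rw [e] at h2
      linarith
  rw [integral_sub (hA.ent_integrable l) (integrable_finsetSum _ fun i hi => (ha i hi).ent_integrable l),
    integral_sub (integrable_finsetSum _ hq) hA.integrable, hqv,
    integral_finsetSum _ fun i hi => (ha i hi).ent_integrable l] at h
  show ent l A ≤ _
  unfold ent
  linarith

end Vale.Agent.P309
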