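import Vale.Agent.P309.Window

/-!
The gain of a finite-state machine over one window, and the two-copy bound.
-/

namespace Vale.Agent.P309

open MeasureTheory ProbabilityTheory Real
open scoped RealInnerProductSpace

variable {n k m : ℕ}

namespace Wgt

variable (w : Wgt n)

lemma diffs_snoc (us : Fin (m + 1) → Par n) (u : Par n) :
    diffs (Fin.snoc us u : Fin (m + 2) → Par n) =
      Fin.snoc (diffs us) (chart n u - chart n (us 0)) := by
  funext j
  have h0 : (0 : Fin (m + 2)) = (0 : Fin (m + 1)).castSucc := rfl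
  induction j using Fin.lastCases with
  | last =>
      rw [Fin.snoc_last, diffs, Fin.succ_last, Fin.snoc_last, h0, Fin.snoc_castSucc]
  | cast i =>
      rw [Fin.snoc_castSucc, diffs, diffs, Fin.succ_castSucc, Fin.snoc_castSucc, h0,
        Fin.snoc_castSucc]

lemma tuple_integrable {eta : ℝ} (heta : 0 < eta) (m k : ℕ) :
    Integrable (fun us : Fin (m + 1) → Par n => (∏ j, w.f (us j)) *
      (((1 / 2 : ℝ) ^ w.l / eta) ^ m * tilt eta (diffs us)) ^ (4 * k)) (w.cm m) :=
  (Integrable.fintype_prod (f := fun _ => w.f) fun _ => w.int_f).mul_bdd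
    (c := ((((1 / 2 : ℝ) ^ w.l / eta) ^ m) ^ (4 * k)))
    (((measurable_tilt eta).const_mul _).pow_const _).aestronglyMeasurable
    (.of_forall fun us => by
      have ht := tilt_pos eta (diffs us)
      rw [Real.norm_eq_abs, abs_of_nonneg (by positivity)]
      exact pow_le_pow_left₀ (by positivity)
        (mul_le_of_le_one_right (by positivity) (tilt_le_one eta us)) _)

/-- The moment of the tilt under independent copies. -/
lemma tuple_moment (hn : 32 ≤ n) {k : ℕ} (hk : 32 * k ≤ n) {eta : ℝ} (heta : 0 < eta) :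
    ∀ {m : ℕ}, 32 * m ≤ n → ∫ us, (∏ j, w.f (us j)) *
      (((1 / 2 : ℝ) ^ w.l / eta) ^ m * tilt eta (diffs us)) ^ (4 * k) ∂(w.cm m) ≤
        (3 * (2 : ℝ) ^ (40 * k) * w.Q) ^ m := by
  intro m
  induction m with
  | zero =>
    intro _
    simp only [pow_zero, one_mul, tilt_nil, one_pow, mul_one, cm]
    rw [integral_fintype_prod_eq_prod (fun (_ : Fin (0 + 1)) u => w.f u)]
    simp [w.integral_f]
  | succ m ih =>
    intro hm
    set σ : ℝ := (1 / 2) ^ w.l with hσ
    set B : ℝ := 3 * (2 : ℝ) ^ (40 * k) * w.Q with hB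
    have hB0 : 0 ≤ B := by have := w.one_le_Q; positivity
    set G : (Fin (m + 2) → Par n) → ℝ := fun us =>
      (∏ j, w.f (us j)) * ((σ / eta) ^ (m + 1) * tilt eta (diffs us)) ^ (4 * k) with hG
    set G0 : (Fin (m + 1) → Par n) → ℝ := fun us =>
      (∏ j, w.f (us j)) * ((σ / eta) ^ m * tilt eta (diffs us)) ^ (4 * k) with hG0
    have mp := measurePreserving_piFinSuccAbove (fun _ : Fin (m + 2) => w.cm1) (Fin.last (m + 1))
    have hGi : Integrable G (w.cm (m + 1)) := w.tuple_integrable heta (m + 1) k
    have hGi' : Integrable (fun p : Par n × (Fin (m + 1) → Par n) => G (Fin.snoc p.2 p.1))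
        (w.cm1.prod (w.cm m)) := by
      have h := (mp.symm _).integrable_comp_emb (MeasurableEquiv.measurableEmbedding _) (g := G)
      refine (h.2 hGi).congr (.of_forall fun p => ?_)
      simp [MeasurableEquiv.piFinSuccAbove_symm_apply, Fin.insertNth_last', Fin.insertNthEquiv]
    have he : ∫ us, G us ∂(w.cm (m + 1)) =
        ∫ p : Par n × (Fin (m + 1) → Par n), G (Fin.snoc p.2 p.1) ∂(w.cm1.prod (w.cm m)) := by
      refine ((mp.symm _).integral_comp' G).symm.trans (integral_congr_ae (.of_forall fun p => ?_))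
      simp [MeasurableEquiv.piFinSuccAbove_symm_apply, Fin.insertNth_last', Fin.insertNthEquiv]
    have hstep : ∀ us : Fin (m + 1) → Par n,
        ∫ u, G (Fin.snoc us u) ∂w.cm1 ≤ G0 us * B := by
      intro us
      set V := Submodule.span ℝ (Set.range (diffs us))
      have hmom := moment_bound w.hc (w.int_f) w.nonneg w.one_le_Q
        (fun u hu hu' i => by rw [w.one, mul_one]; exact w.frost u hu hu' i)
        V (chart n (us 0)) (q := m) hn (by omega) hk
        ((finrank_range_le_card (R := ℝ) (diffs us)).trans_eq (Fintype.card_fin m)) heta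
      rw [w.one, mul_one, ← hB, ← hσ] at hmom
      have hpt : ∀ u, G (Fin.snoc us u) ≤
          G0 us * (w.f u * (σ / max eta (dsub V (chart n u - chart n (us 0)))) ^ (4 * k)) := by
        intro u
        have hprod : ∏ j, w.f ((Fin.snoc us u : Fin (m + 2) → Par n) j) =
            (∏ j, w.f (us j)) * w.f u := by
          rw [Fin.prod_univ_castSucc]; simp
        have hmax : 0 < max eta (dsub V (chart n u - chart n (us 0))) := lt_max_of_lt_left heta
        simp only [hG, hG0, hprod, diffs_snoc]
        have ht := tilt_snoc_le heta (diffs us) (chart n u - chart n (us 0))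
          (r := dsub V (chart n u - chart n (us 0))) le_rfl
        have h1 : (σ / eta) ^ (m + 1) * tilt eta (Fin.snoc (diffs us) (chart n u - chart n (us 0))) ≤
            ((σ / eta) ^ m * tilt eta (diffs us)) *
              (σ / max eta (dsub V (chart n u - chart n (us 0)))) := by
          calc _ ≤ (σ / eta) ^ (m + 1) * ((eta / max eta (dsub V (chart n u - chart n (us 0)))) *
                tilt eta (diffs us)) := mul_le_mul_of_nonneg_left ht (by positivity)
            _ = _ := by rw [pow_succ]; field_simp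
        have h2 := pow_le_pow_left₀ (mul_nonneg (by positivity)
          (tilt_pos eta (Fin.snoc (diffs us) (chart n u - chart n (us 0)))).le) h1 (4 * k)
        rw [mul_pow ((σ / eta) ^ m * tilt eta (diffs us))] at h2
        calc _ ≤ ((∏ j, w.f (us j)) * w.f u) * (((σ / eta) ^ m * tilt eta (diffs us)) ^ (4 * k) *
              (σ / max eta (dsub V (chart n u - chart n (us 0)))) ^ (4 * k)) :=
              mul_le_mul_of_nonneg_left h2
                (mul_nonneg (Finset.prod_nonneg fun _ _ => w.nonneg _) (w.nonneg u))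
          _ = _ := by ring
      have hdint : Integrable (fun u =>
          w.f u * (σ / max eta (dsub V (chart n u - chart n (us 0)))) ^ (4 * k)) w.cm1 := by
        refine w.int_f.mul_bdd (c := (σ / eta) ^ (4 * k)) ?_ (.of_forall fun u => ?_)
        · exact (((measurable_const.max (((continuous_dsub V).comp
            (continuous_chart.sub continuous_const)).measurable)).const_div σ).pow_const
              (4 * k)).aestronglyMeasurable
        · have h0 : 0 < max eta (dsub V (chart n u - chart n (us 0))) := lt_max_of_lt_left heta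
          rw [Real.norm_eq_abs, abs_of_nonneg (by positivity)]
          exact pow_le_pow_left₀ (by positivity)
            (div_le_div_of_nonneg_left (by positivity) heta (le_max_left _ _)) _
      have hG0n : 0 ≤ G0 us := mul_nonneg (Finset.prod_nonneg fun _ _ => w.nonneg _)
        (pow_nonneg (mul_nonneg (by positivity) (tilt_pos _ _).le) _)
      refine (integral_mono_of_nonneg (.of_forall fun u => ?_) (hdint.const_mul _)
        (.of_forall hpt)).trans ?_
      · exact mul_nonneg (Finset.prod_nonneg fun _ _ => w.nonneg _)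
          (pow_nonneg (mul_nonneg (by positivity) (tilt_pos _ _).le) _)
      · rw [integral_const_mul]
        exact mul_le_mul_of_nonneg_left hmom hG0n
    calc ∫ us, G us ∂(w.cm (m + 1))
        = ∫ us, ∫ u, G (Fin.snoc us u) ∂w.cm1 ∂(w.cm m) := by rw [he, integral_prod_symm _ hGi']
      _ ≤ ∫ us, G0 us * B ∂(w.cm m) :=
          integral_mono hGi'.integral_prod_right ((w.tuple_integrable heta m k).mul_const _) hstep
      _ ≤ _ := by
          rw [integral_mul_const, pow_succ]
          exact mul_le_mul_of_nonneg_right (ih (by omega)) hB0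

/-- The mean log ratio is at most linear in `k * m`. -/
theorem cost_bound (hn : 32 ≤ n) (hk : 32 * k ≤ n) (hm : 32 * m ≤ n) {eta : ℝ} (heta : 0 < eta)
    (hsig : eta ≤ (1 / 2 : ℝ) ^ w.l) :
    w.cost eta m k ≤ 6 * k * m + (m : ℝ) * log (3 * (2 : ℝ) ^ (40 * k) * w.Q) / 3 := by
  classical
  set σ : ℝ := (1 / 2) ^ w.l with hσ
  set S : Set (Fin (m + 1) → Par n) := {us | ∀ j, us j ∈ cellOf w.l w.c}
  have hS : MeasurableSet S := by
    rw [show S = ⋂ j, (fun us : Fin (m + 1) → Par n => us j) ⁻¹' cellOf w.l w.c by ext; simp [S]]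
    exact MeasurableSet.iInter fun j => measurable_pi_apply j (measurableSet_cellOf _ _)
  set ell : (Fin (m + 1) → Par n) → ℝ := fun us => (m : ℝ) * log (σ / eta) + ltilt eta us with hell
  set φ : (Fin (m + 1) → Par n) → ℝ := S.indicator fun us => 4 * (k : ℝ) * ell us with hφ
  have hφm : Measurable φ :=
    (((measurable_log.comp (measurable_tilt eta)).const_add _).const_mul _).indicator hS
  have hφb : ∀ us, |φ us| ≤ 4 * (k : ℝ) * (|(m : ℝ) * log (σ / eta)| + 2 * m / eta ^ 2) := by
    intro us
    by_cases hu : us ∈ S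
    · rw [hφ, Set.indicator_of_mem hu, abs_mul, abs_of_nonneg (by positivity : (0 : ℝ) ≤ 4 * k)]
      exact mul_le_mul_of_nonneg_left
        ((abs_add_le _ _).trans (add_le_add le_rfl (w.abs_ltilt_le heta hu))) (by positivity)
    · rw [hφ, Set.indicator_of_notMem hu, abs_zero]; positivity
  have h1 := w.mean_le_cost (k := k) heta hφm hφb
  have h2 := w.cost_le (by omega) heta hsig m k
  have h3 : ∫ p, w.pid eta p * φ p.1 ∂(w.big m k) =
      4 * (k : ℝ) * ∫ p, w.pid eta p * ell p.1 ∂(w.big m k) := by
    rw [← integral_const_mul]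
    refine integral_congr_ae ((w.ae_big m k).mono fun p hp => ?_)
    dsimp only
    rw [hφ, Set.indicator_of_mem (show p.1 ∈ S from hp)]
    ring
  have hQ := w.one_le_Q
  have hB1 : (0 : ℝ) < 3 * (2 : ℝ) ^ (40 * k) * w.Q := by positivity
  have h4 : log (∫ us, (∏ j, w.f (us j)) * exp (φ us) ∂(w.cm m)) ≤
      (m : ℝ) * log (3 * (2 : ℝ) ^ (40 * k) * w.Q) := by
    rw [← log_pow]
    have hI : ∫ us, (∏ j, w.f (us j)) * exp (φ us) ∂(w.cm m) =
        ∫ us, (∏ j, w.f (us j)) * ((σ / eta) ^ m * tilt eta (diffs us)) ^ (4 * k) ∂(w.cm m) := by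
      refine integral_congr_ae ((w.ae_cell_all m).mono fun us hu => ?_)
      dsimp only
      rw [hφ, Set.indicator_of_mem (show us ∈ S from hu)]
      congr 1
      have hpos : 0 < (σ / eta) ^ m * tilt eta (diffs us) := by
        have := tilt_pos eta (diffs us); positivity
      rw [hell, ← exp_log (pow_pos hpos (4 * k)), log_pow, log_mul (by positivity) (tilt_pos _ _).ne',
        log_pow]
      simp only [ltilt]; push_cast; ring_nf
    rw [hI]
    rcases lt_or_ge 0
      (∫ us, (∏ j, w.f (us j)) * ((σ / eta) ^ m * tilt eta (diffs us)) ^ (4 * k) ∂(w.cm m)) with h0 | h0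
    · exact log_le_log h0 (w.tuple_moment hn hk heta hm)
    · have : log (∫ us, (∏ j, w.f (us j)) *
          ((σ / eta) ^ m * tilt eta (diffs us)) ^ (4 * k) ∂(w.cm m)) = 0 := by
        have e := le_antisymm h0 (integral_nonneg fun us => mul_nonneg
          (Finset.prod_nonneg fun _ _ => w.nonneg _)
          (pow_nonneg (mul_nonneg (by positivity) (tilt_pos _ _).le) _))
        rw [e, log_zero]
      rw [this]
      refine log_nonneg (one_le_pow₀ ?_)
      nlinarith [one_le_pow₀ (M₀ := ℝ) (a := 2) (by norm_num) (n := 40 * k)]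
  rw [h3] at h1
  nlinarith

lemma log_B_le (k : ℕ) :
    log (3 * (2 : ℝ) ^ (40 * k) * w.Q) ≤ 2 + 28 * k + log w.Q := by
  have hQ := w.one_le_Q
  rw [log_mul (by positivity) (by positivity), log_mul (by norm_num) (by positivity), log_pow]
  have h2 : log (2 : ℝ) ≤ 0.7 := by linarith [log_two_lt_d9]
  have h3 : log (3 : ℝ) ≤ 2 := by linarith [log_le_sub_one_of_pos (show (0 : ℝ) < 3 by norm_num)]
  push_cast
  nlinarith [(Nat.cast_nonneg k : (0 : ℝ) ≤ k)]

/-- The chance of a state after the window, given the parameter. -/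
noncomputable def gfun (eta : ℝ) (K : (Fin k → Row (n + 1)) → ℝ) (u : Par n) : ℝ :=
  ∫ W, psi eta u W * K W ∂(wBase (n + 1) k)

/-- What a window of `k` rows can add to the information of a machine. -/
theorem gain_le (hn : 32 ≤ n) (hk : 32 * k ≤ n) {eta : ℝ} (heta : 0 < eta)
    (hsig : eta ≤ (1 / 2 : ℝ) ^ w.l) {S : Type} [Fintype S] (K : (Fin k → Row (n + 1)) → S → ℝ)
    (hKm : ∀ z, Measurable fun W => K W z) {low : ℝ} (hlow : 0 < low) (hKl : ∀ W z, low ≤ K W z)
    (hK1 : ∀ W, ∑ z, K W z = 1) :
    ∑ z, ((∫ u, w.f u * (gfun eta (fun W => K W z) u * log (gfun eta (fun W => K W z) u)) ∂w.cm1) -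
        (∫ u, w.f u * gfun eta (fun W => K W z) u ∂w.cm1) *
          log (∫ u, w.f u * gfun eta (fun W => K W z) u ∂w.cm1)) ≤
      log (Fintype.card S) / (k + 1) + 16 * k + 1 + log w.Q := by
  classical
  have hKu : ∀ W z, K W z ≤ 1 := fun W z => by
    rw [← hK1 W]
    exact Finset.single_le_sum (fun y _ => hlow.le.trans (hKl W y)) (Finset.mem_univ z)
  set g : S → Par n → ℝ := fun z => gfun eta (fun W => K W z) with hg
  set gb : S → ℝ := fun z => ∫ u, w.f u * g z u ∂w.cm1 with hgb
  have hKi : ∀ z u, Integrable (fun W => psi eta u W * K W z) (wBase (n + 1) k) := fun z u =>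
    (psi_int heta u).1.mul_bdd (c := 1) (hKm z).aestronglyMeasurable (.of_forall fun W => by
      rw [Real.norm_eq_abs, abs_of_pos (hlow.trans_le (hKl W z))]; exact hKu W z)
  have hgl : ∀ z u, low ≤ g z u := fun z u => by
    calc low = ∫ W, psi eta u W * low ∂(wBase (n + 1) k) := by
          rw [integral_mul_const, (psi_int heta u).2, one_mul]
      _ ≤ _ := integral_mono ((psi_int heta u).1.mul_const _) (hKi z u)
          fun W => mul_le_mul_of_nonneg_left (hKl W z) (psi_pos heta u W).le
  have hgu : ∀ z u, g z u ≤ 1 := fun z u => by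
    calc _ ≤ ∫ W, psi eta u W * 1 ∂(wBase (n + 1) k) :=
          integral_mono (hKi z u) ((psi_int heta u).1.mul_const _)
            fun W => mul_le_mul_of_nonneg_left (hKu W z) (psi_pos heta u W).le
      _ = 1 := by rw [integral_mul_const, (psi_int heta u).2, one_mul]
  have hgm : ∀ z, Measurable (g z) := fun z =>
    ((measurable_psi eta).mul
      ((hKm z).comp measurable_snd)).stronglyMeasurable.integral_prod_right'.measurable
  have hlow1 : ∀ x, low ≤ x → x ≤ 1 → |log x| ≤ |log low| := fun x h1 h2 => by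
    rw [abs_of_nonpos (log_nonpos (hlow.le.trans h1) h2)]
    exact (neg_le_neg (log_le_log hlow h1)).trans (neg_le_abs _)
  have hfg : ∀ z, Integrable (fun u => w.f u * g z u) w.cm1 := fun z =>
    w.int_f.mul_bdd (c := 1) (hgm z).aestronglyMeasurable (.of_forall fun u => by
      rw [Real.norm_eq_abs, abs_of_pos (hlow.trans_le (hgl z u))]; exact hgu z u)
  have hbl : ∀ z, low ≤ gb z := fun z => by
    calc low = ∫ u, w.f u * low ∂w.cm1 := by rw [integral_mul_const, w.integral_f, one_mul]
      _ ≤ _ := integral_mono (w.int_f.mul_const _) (hfg z)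
          fun u => mul_le_mul_of_nonneg_left (hgl z u) (w.nonneg u)
  have hbu : ∀ z, gb z ≤ 1 := fun z => by
    calc _ ≤ ∫ u, w.f u * 1 ∂w.cm1 := integral_mono (hfg z) (w.int_f.mul_const _)
          fun u => mul_le_mul_of_nonneg_left (hgu z u) (w.nonneg u)
      _ = 1 := by rw [integral_mul_const, w.integral_f, one_mul]
  -- marginals against the kernel
  have hmarg : ∀ (z : S) (j : Fin (k + 1)) (φ : Par n → ℝ), Measurable φ → (∀ C, (∀ u, |φ u| ≤ C) →
      Integrable (fun p => w.pid eta p * (K p.2 z * φ (p.1 j))) (w.big k k) ∧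
      ∫ p, w.pid eta p * (K p.2 z * φ (p.1 j)) ∂(w.big k k) =
        ∫ u, w.f u * (g z u * φ u) ∂w.cm1) := by
    intro z j φ hφ C hC
    have hm2 : Measurable fun p : Par n × (Fin k → Row (n + 1)) => K p.2 z * φ p.1 :=
      ((hKm z).comp measurable_snd).mul (hφ.comp measurable_fst)
    have h0 : Integrable (fun p : Par n × (Fin k → Row (n + 1)) =>
        w.fpsi eta p.1 p.2 * (K p.2 z * φ p.1)) (w.cm1.prod (wBase (n + 1) k)) :=
      w.int_fpsi_bdd heta hm2 (C := C) (fun p => by
        rw [abs_mul, abs_of_pos (hlow.trans_le (hKl _ z))]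
        exact (mul_le_of_le_one_left (abs_nonneg _) (hKu _ z)).trans (hC _))
    obtain ⟨h1, h2⟩ := w.pid_marginal (m := k) heta j (g := fun u W => K W z * φ u) hm2 h0
    refine ⟨h1, h2.trans ?_⟩
    rw [integral_prod _ h0]
    refine integral_congr_ae (.of_forall fun u => ?_)
    simp only [fpsi, hg, gfun]
    rw [← integral_mul_const, ← integral_const_mul]
    exact integral_congr_ae (.of_forall fun W => by ring)
  have hpi := w.pid_int (m := k) (k := k) heta
  have hKlam : ∀ z, Integrable (fun p => w.pid eta p * K p.2 z * w.lam eta p) (w.big k k) := fun z =>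
    w.pid_lam heta (g := fun p => K p.2 z) ((hKm z).comp measurable_snd)
      (fun p => by rw [abs_of_pos (hlow.trans_le (hKl _ z))]; exact hKu _ z)
  have hz : ∀ z, ((k : ℝ) + 1) * (∫ u, w.f u * (g z u * log (g z u)) ∂w.cm1) -
      (k : ℝ) * (gb z * log (gb z)) ≤ ∫ p, w.pid eta p * K p.2 z * w.lam eta p ∂(w.big k k) := by
    intro z
    set L : (Fin (k + 1) → Par n) × (Fin k → Row (n + 1)) → ℝ := fun p =>
      (∑ j, log (g z (p.1 j))) - (k : ℝ) * log (gb z) - log (K p.2 z) - w.lam eta p with hL
    have hlogg : Measurable fun u => log (g z u) := measurable_log.comp (hgm z)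
    have hA : ∀ j : Fin (k + 1),
        Integrable (fun p => w.pid eta p * (K p.2 z * log (g z (p.1 j)))) (w.big k k) ∧
        ∫ p, w.pid eta p * (K p.2 z * log (g z (p.1 j))) ∂(w.big k k) =
          ∫ u, w.f u * (g z u * log (g z u)) ∂w.cm1 := fun j =>
      hmarg z j (fun u => log (g z u)) hlogg |log low| (fun u => hlow1 _ (hgl z u) (hgu z u))
    obtain ⟨hK0, hK0'⟩ := hmarg z 0 (fun _ => 1) measurable_const 1 (fun _ => by simp)
    simp only [mul_one] at hK0 hK0'
    have hKlog : Integrable (fun p => w.pid eta p * (K p.2 z * log (K p.2 z))) (w.big k k) :=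
      w.pid_bdd heta (((hKm z).comp measurable_snd).mul
        (measurable_log.comp ((hKm z).comp measurable_snd))) (C := |log low|) (.of_forall fun p => by
          show |K p.2 z * log (K p.2 z)| ≤ _
          rw [abs_mul, abs_of_pos (hlow.trans_le (hKl _ z))]
          exact (mul_le_of_le_one_left (abs_nonneg _) (hKu _ z)).trans (hlow1 _ (hKl _ z) (hKu _ z)))
    obtain ⟨hq, hq'⟩ := w.qq_int (m := k) (k := k) heta
      (φ := fun us => (∏ j, g z (us j)) / gb z ^ k)
      ((Finset.measurable_prod _ fun j _ => (hgm z).comp (measurable_pi_apply j)).div_const _)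
      (C := 1 / low ^ k) (fun us => by
        have h0 : 0 ≤ ∏ j, g z (us j) := Finset.prod_nonneg fun j _ => hlow.le.trans (hgl z _)
        have h0' : 0 < gb z ^ k := pow_pos (hlow.trans_le (hbl z)) k
        rw [abs_of_nonneg (div_nonneg h0 h0'.le)]
        exact div_le_div₀ zero_le_one
          (Finset.prod_le_one (fun j _ => hlow.le.trans (hgl z _)) fun j _ => hgu z _)
          (by positivity) (pow_le_pow_left₀ hlow.le (hbl z) k))
    have hq1 : ∫ us, (∏ j, w.f (us j)) * ((∏ j, g z (us j)) / gb z ^ k) ∂(w.cm k) = gb z := by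
      simp only [← mul_div_assoc, ← Finset.prod_mul_distrib]
      rw [integral_div, cm, integral_fintype_prod_eq_prod (fun (_ : Fin (k + 1)) u => w.f u * g z u)]
      simp only [Finset.prod_const, Finset.card_univ, Fintype.card_fin]
      show gb z ^ (k + 1) / gb z ^ k = gb z
      rw [pow_succ, mul_div_cancel_left₀ _ (pow_ne_zero _ (hlow.trans_le (hbl z)).ne')]
    set a : (Fin (k + 1) → Par n) × (Fin k → Row (n + 1)) → ℝ :=
      fun p => ∑ j, w.pid eta p * (K p.2 z * log (g z (p.1 j))) with ha
    have hai : Integrable a (w.big k k) := integrable_finsetSum _ fun j _ => (hA j).1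
    have hpK : Integrable (fun p => w.pid eta p * K p.2 z) (w.big k k) := hK0
    have hab : Integrable (fun p => a p - w.pid eta p * K p.2 z * ((k : ℝ) * log (gb z)))
        (w.big k k) := hai.sub (hpK.mul_const _)
    have habc : Integrable (fun p => a p - w.pid eta p * K p.2 z * ((k : ℝ) * log (gb z)) -
        w.pid eta p * (K p.2 z * log (K p.2 z))) (w.big k k) := hab.sub hKlog
    have e : ∀ p, w.pid eta p * K p.2 z * L p = a p - w.pid eta p * K p.2 z * ((k : ℝ) * log (gb z)) -
        w.pid eta p * (K p.2 z * log (K p.2 z)) - w.pid eta p * K p.2 z * w.lam eta p := by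
      intro p
      simp only [hL, ha, mul_sub, Finset.mul_sum, mul_assoc]
    have hG := gibbs (μ := w.big k k) (p := fun p => w.pid eta p * K p.2 z)
      (q := fun p => w.qq eta p * ((∏ j, g z (p.1 j)) / gb z ^ k)) (L := L)
      (fun p => mul_nonneg (w.pid_nonneg heta p) (hlow.le.trans (hKl _ z))) hpK hq
      ((habc.sub (hKlam z)).congr (.of_forall fun p => (e p).symm))
      (fun p => le_of_eq (by
        have e2 : exp (L p) = (∏ j, g z (p.1 j)) / gb z ^ k / K p.2 z * exp (-w.lam eta p) := by
          simp only [hL]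
          rw [sub_eq_add_neg _ (w.lam eta p), exp_add, exp_sub, exp_sub, exp_sum, exp_nat_mul,
            exp_log (hlow.trans_le (hbl z)), exp_log (hlow.trans_le (hKl _ z)),
            Finset.prod_congr rfl fun j _ => exp_log (hlow.trans_le (hgl z (p.1 j)))]
        rw [e2, ← w.pid_exp_lam heta p]
        field_simp [(hlow.trans_le (hKl p.2 z)).ne']))
    rw [hq', hq1] at hG
    simp only [e] at hG
    rw [integral_sub habc (hKlam z), integral_sub hab hKlog, integral_sub hai (hpK.mul_const _),
      integral_mul_const] at hG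
    have hav : ∫ p, a p ∂(w.big k k) = ((k : ℝ) + 1) * ∫ u, w.f u * (g z u * log (g z u)) ∂w.cm1 := by
      simp only [ha]
      rw [integral_finsetSum _ fun j _ => (hA j).1]
      simp only [fun j => (hA j).2, Finset.sum_const, Finset.card_univ, Fintype.card_fin, nsmul_eq_mul]
      push_cast; ring
    have hKneg : ∫ p, w.pid eta p * (K p.2 z * log (K p.2 z)) ∂(w.big k k) ≤ 0 :=
      integral_nonpos fun p => mul_nonpos_of_nonneg_of_nonpos (w.pid_nonneg heta p)
        (mul_nonpos_of_nonneg_of_nonpos (hlow.le.trans (hKl _ z)) (log_nonpos (hlow.le.trans (hKl _ z))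
          (hKu _ z)))
    have hpKv : ∫ p, w.pid eta p * K p.2 z ∂(w.big k k) = gb z := hK0'
    rw [hav, hpKv] at hG
    have : gb z * ((k : ℝ) * log (gb z)) = (k : ℝ) * (gb z * log (gb z)) := by ring
    linarith
  have hsum : ∑ z, ∫ p, w.pid eta p * K p.2 z * w.lam eta p ∂(w.big k k) = w.cost eta k k := by
    rw [← integral_finsetSum _ fun z _ => hKlam z, cost]
    refine integral_congr_ae (.of_forall fun p => ?_)
    simp only [← Finset.sum_mul, ← Finset.mul_sum, hK1, mul_one]
  have hgb1 : ∑ z, gb z = 1 := by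
    simp only [hgb]
    rw [← integral_finsetSum _ fun z _ => hfg z, ← w.integral_f]
    refine integral_congr_ae (.of_forall fun u => ?_)
    simp only [← Finset.mul_sum]
    simp only [hg, gfun]
    rw [← integral_finsetSum _ fun z _ => hKi z u]
    simp only [← Finset.mul_sum, hK1, mul_one, (psi_int heta u).2]
  have hcardN : 0 < Fintype.card S := by
    rcases Nat.eq_zero_or_pos (Fintype.card S) with h | h
    · exfalso
      haveI := Fintype.card_eq_zero_iff.1 h
      simp at hgb1
    · exact h
  have hcardR : (0 : ℝ) < Fintype.card S := by exact_mod_cast hcardN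
  have hent : ∑ z, -(gb z * log (gb z)) ≤ log (Fintype.card S) := by
    have h1 : ∀ z, -(gb z * log (gb z)) - gb z * log (Fintype.card S) ≤
        1 / (Fintype.card S : ℝ) - gb z := by
      intro z
      have hpos := hlow.trans_le (hbl z)
      have h2 := log_le_sub_one_of_pos (show 0 < 1 / ((Fintype.card S : ℝ) * gb z) by positivity)
      rw [one_div, log_inv, log_mul hcardR.ne' hpos.ne'] at h2
      have h3 := mul_le_mul_of_nonneg_left h2 hpos.le
      have e : gb z * (((Fintype.card S : ℝ) * gb z)⁻¹ - 1) =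
          1 / (Fintype.card S : ℝ) - gb z := by field_simp
      linarith [e]
    have h2 := Finset.sum_le_sum (s := Finset.univ) fun z _ => h1 z
    simp only [Finset.sum_sub_distrib, ← Finset.sum_mul, hgb1, one_mul, Finset.sum_const,
      Finset.card_univ, nsmul_eq_mul] at h2
    rw [mul_one_div, div_self hcardR.ne'] at h2
    linarith
  have htot := Finset.sum_le_sum (s := Finset.univ) fun z _ => hz z
  simp only [Finset.sum_sub_distrib, ← Finset.mul_sum, hsum] at htot
  have hc := w.cost_bound hn hk hk heta hsig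
  have hB := w.log_B_le k
  show ∑ z, ((∫ u, w.f u * (g z u * log (g z u)) ∂w.cm1) - gb z * log (gb z)) ≤ _
  rw [Finset.sum_sub_distrib]
  rw [Finset.sum_neg_distrib] at hent
  set A := ∑ z, ∫ u, w.f u * (g z u * log (g z u)) ∂w.cm1
  set H := ∑ z, gb z * log (gb z)
  have hQ0 : 0 ≤ log w.Q := log_nonneg w.one_le_Q
  have hk0 : (0 : ℝ) ≤ k := Nat.cast_nonneg k
  have hmul : (k : ℝ) * log (3 * (2 : ℝ) ^ (40 * k) * w.Q) ≤ (k : ℝ) * (2 + 28 * k + log w.Q) :=
    mul_le_mul_of_nonneg_left hB hk0
  have e : log (Fintype.card S) / ((k : ℝ) + 1) * ((k : ℝ) + 1) = log (Fintype.card S) :=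
    div_mul_cancel₀ _ (by positivity)
  have hk1 : (0 : ℝ) < (k : ℝ) + 1 := by positivity
  refine le_of_mul_le_mul_right ?_ hk1
  nlinarith [mul_nonneg hk0 hQ0, mul_nonneg hk0 hk0]

/-- Two copies of the signal are rarely near each other. -/
theorem two_copies (hn : 32 ≤ n) (hk : 32 * k ≤ n) {eta : ℝ} (heta : 0 < eta)
    (hsig : eta ≤ (1 / 2 : ℝ) ^ w.l) {P : Set (Par n × Par n)} (hP : MeasurableSet P) {β : ℝ}
    (hβ : ∀ u, ∫ v, w.f v * P.indicator (fun _ => (1 : ℝ)) (u, v) ∂w.cm1 ≤ β) {t : ℝ} (ht : 0 ≤ t)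
    (htb : exp t * β ≤ 1) :
    t * ∫ p, w.pid eta p * P.indicator (fun _ => (1 : ℝ)) (p.1 0, p.1 1) ∂(w.big 1 k) ≤
      16 * k + 2 + log w.Q := by
  classical
  set X : (Fin 2 → Par n) → ℝ := fun us => P.indicator (fun _ => (1 : ℝ)) (us 0, us 1) with hX
  have hXm : Measurable X :=
    (measurable_const.indicator hP).comp
      ((measurable_pi_apply 0).prodMk (measurable_pi_apply 1))
  have hX01 : ∀ us, X us = 0 ∨ X us = 1 := fun us => Set.indicator_eq_zero_or_self P (fun _ => (1 : ℝ)) _
  have hXb : ∀ us, |t * X us| ≤ t := fun us => by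
    rcases hX01 us with h | h <;> simp [h, abs_of_nonneg ht, ht]
  have h1 := w.mean_le_cost (m := 1) (k := k) heta (φ := fun us => t * X us) (hXm.const_mul t) hXb
  have h2 := w.cost_bound (m := 1) hn hk (by omega) heta hsig
  have hF : Integrable (fun us : Fin 2 → Par n => ∏ j, w.f (us j)) (w.cm 1) :=
    Integrable.fintype_prod (f := fun _ => w.f) fun _ => w.int_f
  have hFX : Integrable (fun us : Fin 2 → Par n => (∏ j, w.f (us j)) * X us) (w.cm 1) :=
    hF.mul_bdd (c := 1) hXm.aestronglyMeasurable (.of_forall fun us => by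
      rcases hX01 us with h | h <;> simp [h])
  have hI : ∫ us, (∏ j, w.f (us j)) * exp (t * X us) ∂(w.cm 1) ≤ 2 := by
    have hFX1 : ∫ us, (∏ j, w.f (us j)) * X us ∂(w.cm 1) ≤ β := by
      have mp := measurePreserving_piFinTwo (fun _ : Fin 2 => w.cm1)
      set G : Par n × Par n → ℝ := fun q => w.f q.1 * (w.f q.2 * P.indicator (fun _ => (1 : ℝ)) q)
      have he : ∫ us, (∏ j, w.f (us j)) * X us ∂(w.cm 1) = ∫ q, G q ∂(w.cm1.prod w.cm1) := by
        rw [← mp.integral_comp' G]
        refine integral_congr_ae (.of_forall fun us => ?_)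
        simp [G, hX, Fin.prod_univ_two, mul_assoc]
      have hGi : Integrable G (w.cm1.prod w.cm1) := by
        have h0 : Integrable (fun q : Par n × Par n => w.f q.1 * w.f q.2) (w.cm1.prod w.cm1) :=
          w.int_f.mul_prod w.int_f
        refine (h0.mul_bdd (c := 1) (measurable_const.indicator hP).aestronglyMeasurable
          (g := P.indicator fun _ => (1 : ℝ)) (.of_forall fun q => ?_)).congr
            (.of_forall fun q => by simp only [G, Pi.mul_apply]; ring)
        rcases Set.indicator_eq_zero_or_self P (fun _ => (1 : ℝ)) q with h | h <;> simp [h]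
      rw [he, integral_prod _ hGi]
      calc ∫ u, ∫ v, G (u, v) ∂w.cm1 ∂w.cm1 ≤ ∫ u, w.f u * β ∂w.cm1 := by
            refine integral_mono hGi.integral_prod_left (w.int_f.mul_const β) fun u => ?_
            simp only [G, integral_const_mul]
            exact mul_le_mul_of_nonneg_left (hβ u) (w.nonneg u)
        _ = β := by rw [integral_mul_const, w.integral_f, one_mul]
    calc ∫ us, (∏ j, w.f (us j)) * exp (t * X us) ∂(w.cm 1)
        ≤ ∫ us, ((∏ j, w.f (us j)) + exp t * ((∏ j, w.f (us j)) * X us)) ∂(w.cm 1) := by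
          refine integral_mono_of_nonneg (.of_forall fun us => ?_) (hF.add (hFX.const_mul _))
            (.of_forall fun us => ?_)
          · exact mul_nonneg (Finset.prod_nonneg fun _ _ => w.nonneg _) (exp_pos _).le
          · have hp : 0 ≤ ∏ j, w.f (us j) := Finset.prod_nonneg fun _ _ => w.nonneg _
            rcases hX01 us with h | h <;> simp only [h, mul_zero, mul_one, exp_zero, add_zero]
            · exact le_rfl
            · nlinarith
      _ ≤ 2 := by
          rw [integral_add hF (hFX.const_mul _), integral_const_mul, cm,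
            integral_fintype_prod_eq_prod (fun (_ : Fin 2) u => w.f u)]
          simp only [w.integral_f, Finset.prod_const_one]
          rw [← cm]
          nlinarith [mul_le_mul_of_nonneg_left hFX1 (exp_pos t).le]
  have hlog : log (∫ us, (∏ j, w.f (us j)) * exp (t * X us) ∂(w.cm 1)) ≤ 1 := by
    rcases lt_or_ge 0 (∫ us, (∏ j, w.f (us j)) * exp (t * X us) ∂(w.cm 1)) with h | h
    · exact (log_le_log h hI).trans (by linarith [log_two_lt_d9])
    · have e : ∫ us, (∏ j, w.f (us j)) * exp (t * X us) ∂(w.cm 1) = 0 := le_antisymm h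
        (integral_nonneg fun us =>
          mul_nonneg (Finset.prod_nonneg fun _ _ => w.nonneg _) (exp_pos _).le)
      rw [e, log_zero]; norm_num
  have e : ∫ p, w.pid eta p * (t * X p.1) ∂(w.big 1 k) =
      t * ∫ p, w.pid eta p * X p.1 ∂(w.big 1 k) := by
    rw [← integral_const_mul]; exact integral_congr_ae (.of_forall fun p => by ring)
  rw [e] at h1
  have hB := w.log_B_le k
  have hQ0 : 0 ≤ log w.Q := log_nonneg w.one_le_Q
  have hk0 : (0 : ℝ) ≤ k := Nat.cast_nonneg k
  simp only [Nat.cast_one, mul_one, one_mul] at h2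
  show t * ∫ p, w.pid eta p * X p.1 ∂(w.big 1 k) ≤ _
  linarith

end Wgt

end Vale.Agent.P309
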