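import Vale.Agent.P309.Base
import Mathlib.Analysis.InnerProductSpace.Projection.Basic
import Mathlib.Analysis.SpecialFunctions.Gaussian.GaussianIntegral
import Mathlib.MeasureTheory.Measure.CharacteristicFunction.Basic

/-!
Gaussian small-ball bounds by splitting off one coordinate.
-/

namespace Vale.Agent.P309

open MeasureTheory ProbabilityTheory Real
open scoped RealInnerProductSpace ENNReal

variable {E : Type*} [NormedAddCommGroup E] [InnerProductSpace ℝ E] [FiniteDimensional ℝ E]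
  [MeasurableSpace E] [BorelSpace E]

/-- Replacing the coordinate along a unit vector by an independent one preserves the Gaussian. -/
lemma stdGaussian_split {e : E} (he : ‖e‖ = 1) :
    ((stdGaussian E).prod (gaussianReal 0 1)).map (fun p => p.1 + (p.2 - ⟪p.1, e⟫) • e) =
      stdGaussian E := by
  have hm : Measurable fun p : E × ℝ => p.1 + (p.2 - ⟪p.1, e⟫) • e :=
    Continuous.measurable (by fun_prop)
  haveI : IsProbabilityMeasure (((stdGaussian E).prod (gaussianReal 0 1)).map
      (fun p => p.1 + (p.2 - ⟪p.1, e⟫) • e)) := Measure.isProbabilityMeasure_map hm.aemeasurable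
  apply Measure.ext_of_charFun
  ext t
  rw [charFun_apply, integral_map hm.aemeasurable (Continuous.aestronglyMeasurable (by fun_prop))]
  have h1 : ∀ p : E × ℝ, Complex.exp (((⟪p.1 + (p.2 - ⟪p.1, e⟫) • e, t⟫ : ℝ) : ℂ) * Complex.I) =
      Complex.exp (((⟪p.1, t - ⟪e, t⟫ • e⟫ : ℝ) : ℂ) * Complex.I) *
        Complex.exp (((⟪e, t⟫ : ℝ) : ℂ) * (p.2 : ℂ) * Complex.I) := by
    intro p
    rw [← Complex.exp_add]
    congr 1
    simp only [inner_add_left, inner_sub_right, real_inner_smul_left, real_inner_smul_right]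
    push_cast
    ring
  simp_rw [h1]
  rw [integral_prod_mul (fun x : E => Complex.exp (((⟪x, t - ⟪e, t⟫ • e⟫ : ℝ) : ℂ) * Complex.I))
    (fun g : ℝ => Complex.exp (((⟪e, t⟫ : ℝ) : ℂ) * (g : ℂ) * Complex.I)), ← charFun_apply,
    ← charFun_apply_real, charFun_stdGaussian, charFun_gaussianReal, charFun_stdGaussian,
    ← Complex.exp_add]
  have h2 : ‖t - ⟪e, t⟫ • e‖ ^ 2 + ⟪e, t⟫ ^ 2 = ‖t‖ ^ 2 := by
    rw [norm_sub_sq_real, norm_smul, he, mul_one, Real.norm_eq_abs, sq_abs, real_inner_smul_right,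
      real_inner_comm e t]
    ring
  congr 1
  rw [← Complex.ofReal_pow ‖t‖, ← h2]
  push_cast
  ring

lemma gauss_one {a b eta : ℝ} (ha : 0 < a) (heta : 0 < eta) :
    ∫ g, exp (-(a * g + b) ^ 2 / (2 * eta ^ 2)) ∂(gaussianReal 0 1) ≤ eta / a := by
  rw [integral_gaussianReal_eq_integral_smul one_ne_zero]
  have hc : 0 < a ^ 2 / (2 * eta ^ 2) := by positivity
  have hrw : ∀ g : ℝ, exp (-(a * g + b) ^ 2 / (2 * eta ^ 2)) =
      exp (-(a ^ 2 / (2 * eta ^ 2)) * (g + b / a) ^ 2) := by
    intro g; congr 1; field_simp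
  have hint : Integrable fun g : ℝ => exp (-(a * g + b) ^ 2 / (2 * eta ^ 2)) := by
    simp_rw [hrw]
    exact (integrable_exp_neg_mul_sq hc).comp_add_right (b / a)
  calc ∫ g, gaussianPDFReal 0 1 g • exp (-(a * g + b) ^ 2 / (2 * eta ^ 2))
      ≤ ∫ g, (√(2 * π))⁻¹ * exp (-(a * g + b) ^ 2 / (2 * eta ^ 2)) := by
        refine integral_mono_of_nonneg (.of_forall fun g => ?_) (hint.const_mul _)
          (.of_forall fun g => ?_)
        · exact mul_nonneg (gaussianPDFReal_nonneg 0 1 g) (exp_pos _).le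
        · simp only [smul_eq_mul]
          refine mul_le_mul_of_nonneg_right ?_ (exp_pos _).le
          rw [gaussianPDFReal_def]
          simp only [NNReal.coe_one, mul_one, sub_zero]
          refine mul_le_of_le_one_right (by positivity) (exp_le_one_iff.2 ?_)
          nlinarith [sq_nonneg g]
    _ = eta / a := by
        rw [integral_const_mul]
        simp_rw [hrw]
        rw [integral_add_right_eq_self (fun g => exp (-(a ^ 2 / (2 * eta ^ 2)) * g ^ 2)) (b / a),
          integral_gaussian]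
        have hpi : (√(2 * π)) ≠ 0 := by positivity
        have : π / (a ^ 2 / (2 * eta ^ 2)) = (2 * π) * (eta / a) ^ 2 := by field_simp
        rw [this, sqrt_mul (by positivity : (0:ℝ) ≤ 2 * π) ((eta / a) ^ 2),
          sqrt_sq (by positivity : (0:ℝ) ≤ eta / a), ← mul_assoc]
        rw [inv_mul_cancel₀ hpi, one_mul]

lemma gauss_step {e : E} (he : ‖e‖ = 1) {a eta : ℝ} (ha : 0 < a) (heta : 0 < eta) {f b : E → ℝ}
    (hf : Continuous f) (hf0 : ∀ x, 0 ≤ f x) (hf1 : ∀ x, f x ≤ 1) (hb : Continuous b)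
    (hfe : ∀ x (t : ℝ), f (x + t • e) = f x) (hbe : ∀ x (t : ℝ), b (x + t • e) = b x) :
    ∫ x, f x * exp (-(a * ⟪x, e⟫ + b x) ^ 2 / (2 * eta ^ 2)) ∂(stdGaussian E) ≤
      (eta / a) * ∫ x, f x ∂(stdGaussian E) := by
  have he1 : ⟪e, e⟫ = 1 := by rw [real_inner_self_eq_norm_sq, he, one_pow]
  have key : ∀ (x : E) (t : ℝ), f (x + (t - ⟪x, e⟫) • e) *
      exp (-(a * ⟪x + (t - ⟪x, e⟫) • e, e⟫ + b (x + (t - ⟪x, e⟫) • e)) ^ 2 / (2 * eta ^ 2)) =
      f x * exp (-(a * t + b x) ^ 2 / (2 * eta ^ 2)) := by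
    intro x t
    rw [hfe, hbe, inner_add_left, real_inner_smul_left, he1]
    congr 3; ring
  have hint : Integrable (fun p : E × ℝ => f p.1 * exp (-(a * p.2 + b p.1) ^ 2 / (2 * eta ^ 2)))
      ((stdGaussian E).prod (gaussianReal 0 1)) := by
    refine Integrable.of_bound (Continuous.aestronglyMeasurable (by fun_prop)) 1
      (.of_forall fun p => ?_)
    rw [Real.norm_eq_abs, abs_mul, abs_of_nonneg (hf0 _), abs_of_pos (exp_pos _)]
    refine mul_le_one₀ (hf1 _) (exp_pos _).le (exp_le_one_iff.2 ?_)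
    exact div_nonpos_of_nonpos_of_nonneg (by nlinarith [sq_nonneg (a * p.2 + b p.1)])
      (by positivity)
  conv_lhs => rw [← stdGaussian_split he]
  rw [integral_map (Continuous.aemeasurable (by fun_prop))
    (Continuous.aestronglyMeasurable (by fun_prop))]
  simp only [key]
  rw [integral_prod _ hint, ← integral_const_mul]
  refine integral_mono hint.integral_prod_left ?_ fun x => ?_
  · refine (Integrable.of_bound hf.aestronglyMeasurable 1 (.of_forall fun x => ?_)).const_mul _
    rw [Real.norm_eq_abs, abs_of_nonneg (hf0 x)]; exact hf1 x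
  · simp only
    rw [integral_const_mul, mul_comm (eta / a)]
    exact mul_le_mul_of_nonneg_left (gauss_one ha heta) (hf0 x)

/-- The normalising constant of the tilted Gaussian. -/
noncomputable def tilt {m : ℕ} (eta : ℝ) (v : Fin m → E) : ℝ :=
  ∫ x, exp (-(∑ i, ⟪x, v i⟫ ^ 2) / (2 * eta ^ 2)) ∂(stdGaussian E)

lemma tilt_exp_le_one {m : ℕ} (eta : ℝ) (v : Fin m → E) (x : E) :
    exp (-(∑ i, ⟪x, v i⟫ ^ 2) / (2 * eta ^ 2)) ≤ 1 := by
  refine exp_le_one_iff.2 (div_nonpos_of_nonpos_of_nonneg ?_ (by positivity))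
  have := Finset.sum_nonneg (s := Finset.univ) fun i _ => sq_nonneg ⟪x, v i⟫
  linarith

lemma integrable_tilt {m : ℕ} (eta : ℝ) (v : Fin m → E) :
    Integrable (fun x => exp (-(∑ i, ⟪x, v i⟫ ^ 2) / (2 * eta ^ 2))) (stdGaussian E) :=
  Integrable.of_bound (Continuous.aestronglyMeasurable (by fun_prop)) 1 (.of_forall fun x => by
    rw [Real.norm_eq_abs, abs_of_pos (exp_pos _)]; exact tilt_exp_le_one eta v x)

lemma tilt_pos {m : ℕ} (eta : ℝ) (v : Fin m → E) : 0 < tilt eta v := by
  exact integral_exp_pos (integrable_tilt eta v)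

lemma tilt_nil (eta : ℝ) (v : Fin 0 → E) : tilt eta v = 1 := by
  simp [tilt]

/-- Adding a vector multiplies `tilt` by at most `eta / max eta r`, if `r` is at most the distance
to the span of the previous vectors. -/
lemma tilt_snoc_le {m : ℕ} {eta : ℝ} (heta : 0 < eta) (v : Fin m → E) (w : E) {r : ℝ}
    (hr : r ≤ ‖w - (Submodule.span ℝ (Set.range v)).starProjection w‖) :
    tilt eta (Fin.snoc v w) ≤ (eta / max eta r) * tilt eta v := by
  by_cases hre : r ≤ eta
  · rw [max_eq_left hre, div_self heta.ne', one_mul]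
    refine integral_mono (integrable_tilt _ _) (integrable_tilt _ _) fun x => exp_le_exp.2 ?_
    rw [Fin.sum_univ_castSucc]
    simp only [Fin.snoc_castSucc, Fin.snoc_last]
    exact div_le_div_of_nonneg_right (by nlinarith [sq_nonneg ⟪x, w⟫]) (by positivity)
  rw [max_eq_right (le_of_not_ge hre)]
  set V := Submodule.span ℝ (Set.range v) with hV
  set a := ‖w - V.starProjection w‖ with hadef
  have hr0 : 0 < r := lt_of_lt_of_le heta (le_of_not_ge hre)
  have ha : 0 < a := lt_of_lt_of_le hr0 hr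
  set e := a⁻¹ • (w - V.starProjection w) with hedef
  have he : ‖e‖ = 1 := by
    rw [hedef, norm_smul, norm_inv, Real.norm_eq_abs, abs_of_pos ha]
    exact inv_mul_cancel₀ ha.ne'
  have heV : ∀ p ∈ V, ⟪e, p⟫ = 0 := by
    intro p hp
    rw [hedef, real_inner_smul_left, Submodule.starProjection_inner_eq_zero w p hp, mul_zero]
  have hev : ∀ i, ⟪e, v i⟫ = 0 := fun i => heV _ (Submodule.subset_span (Set.mem_range_self i))
  have hw : ∀ x : E, ⟪x, w⟫ = a * ⟪x, e⟫ + ⟪x, V.starProjection w⟫ := by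
    intro x
    rw [hedef, real_inner_smul_right, ← mul_assoc, mul_inv_cancel₀ ha.ne', one_mul,
      inner_sub_right]
    ring
  have h := gauss_step (E := E) he ha heta
    (f := fun x => exp (-(∑ i, ⟪x, v i⟫ ^ 2) / (2 * eta ^ 2)))
    (b := fun x => ⟪x, V.starProjection w⟫) (by fun_prop) (fun x => (exp_pos _).le)
    (tilt_exp_le_one eta v) (by fun_prop)
    (fun x t => by simp [inner_add_left, real_inner_smul_left, hev])
    (fun x t => by
      simp [inner_add_left, real_inner_smul_left, heV _ (V.starProjection_apply_mem w)])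
  calc tilt eta (Fin.snoc v w)
      = ∫ x, exp (-(∑ i, ⟪x, v i⟫ ^ 2) / (2 * eta ^ 2)) *
          exp (-(a * ⟪x, e⟫ + ⟪x, V.starProjection w⟫) ^ 2 / (2 * eta ^ 2)) ∂(stdGaussian E) := by
        refine integral_congr_ae (.of_forall fun x => ?_)
        simp only [← exp_add, ← hw x, Fin.sum_univ_castSucc, Fin.snoc_castSucc, Fin.snoc_last]
        congr 1; ring
    _ ≤ (eta / a) * tilt eta v := h
    _ ≤ (eta / r) * tilt eta v :=
        mul_le_mul_of_nonneg_right (div_le_div_of_nonneg_left heta.le hr0 hr) (tilt_pos _ _).le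

lemma gauss_orthonormal {eta : ℝ} (heta : 0 < eta) :
    ∀ {m : ℕ} (e : Fin m → E) (b : Fin m → ℝ), Orthonormal ℝ e →
      ∫ x, exp (-(∑ i, (⟪x, e i⟫ + b i) ^ 2) / (2 * eta ^ 2)) ∂(stdGaussian E) ≤ eta ^ m := by
  intro m
  induction m with
  | zero => intro e b _; simp
  | succ m ih =>
    intro e b ho
    have hcs : Orthonormal ℝ (fun i : Fin m => e i.castSucc) :=
      ho.comp _ (Fin.castSucc_injective m)
    have hne : ∀ i : Fin m, ⟪e (Fin.last m), e i.castSucc⟫ = 0 := fun i =>
      ho.2 (Fin.castSucc_lt_last i).ne'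
    have hexp : ∀ x : E, exp (-(∑ i : Fin m, (⟪x, e i.castSucc⟫ + b i.castSucc) ^ 2) /
        (2 * eta ^ 2)) ≤ 1 := fun x => by
      refine exp_le_one_iff.2 (div_nonpos_of_nonpos_of_nonneg ?_ (by positivity))
      have := Finset.sum_nonneg (s := Finset.univ) fun (i : Fin m) _ =>
        sq_nonneg (⟪x, e i.castSucc⟫ + b i.castSucc)
      linarith
    have h := gauss_step (E := E) (ho.1 (Fin.last m)) one_pos heta
      (f := fun x => exp (-(∑ i : Fin m, (⟪x, e i.castSucc⟫ + b i.castSucc) ^ 2) / (2 * eta ^ 2)))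
      (b := fun _ => b (Fin.last m)) (by fun_prop) (fun x => (exp_pos _).le) hexp (by fun_prop)
      (fun x t => by simp [inner_add_left, real_inner_smul_left, hne])
      (fun x t => rfl)
    refine le_trans (le_of_eq ?_) (h.trans ?_)
    · refine integral_congr_ae (.of_forall fun x => ?_)
      simp only [← exp_add, Fin.sum_univ_castSucc, one_mul]
      congr 1; ring
    · rw [div_one]
      refine le_of_le_of_eq ?_ (pow_succ' eta m).symm
      exact mul_le_mul_of_nonneg_left (ih _ _ hcs) heta.le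

/-- Gaussian mass of the neighbourhood of an affine subspace. -/
lemma gauss_nbhd (V : Submodule ℝ E) (a : E) {r : ℝ} (hr : 0 < r)
    (hq : Module.finrank ℝ Vᗮ ≠ 0) :
    (stdGaussian E).real {x | ‖(x - a) - V.starProjection (x - a)‖ ≤ r} ≤
      (exp (1 / 2) * r / √(Module.finrank ℝ Vᗮ : ℝ)) ^ Module.finrank ℝ Vᗮ := by
  set p := Module.finrank ℝ Vᗮ with hp
  have hpR : (0 : ℝ) < p := by exact_mod_cast Nat.pos_of_ne_zero hq
  set eta := r / √(p : ℝ) with heta_def
  have heta : 0 < eta := by positivity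
  let e := stdOrthonormalBasis ℝ Vᗮ
  have ho : Orthonormal ℝ (fun i => (e i : E)) := e.orthonormal.comp_linearIsometry Vᗮ.subtypeₗᵢ
  have hsum : ∀ y : E, ∑ i, ⟪y, (e i : E)⟫ ^ 2 = ‖y - V.starProjection y‖ ^ 2 := by
    intro y
    set z : Vᗮ := ⟨y - V.starProjection y, V.sub_starProjection_mem_orthogonal y⟩
    have h1 : ∀ i, ⟪y, (e i : E)⟫ = ⟪z, e i⟫ := by
      intro i
      rw [Submodule.coe_inner]
      simp only [z, inner_sub_left]
      rw [Submodule.inner_right_of_mem_orthogonal (V.starProjection_apply_mem y) (e i).2, sub_zero]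
    simp_rw [h1]
    rw [e.sum_sq_inner_left z]
    rfl
  have hb := gauss_orthonormal heta (fun i => (e i : E)) (fun i => -⟪a, (e i : E)⟫) ho
  have hset : MeasurableSet {x : E | ‖(x - a) - V.starProjection (x - a)‖ ≤ r} :=
    (isClosed_le (by fun_prop) continuous_const).measurableSet
  have hle : ∀ x : E, Set.indicator {x : E | ‖(x - a) - V.starProjection (x - a)‖ ≤ r}
      (fun _ => (1 : ℝ)) x ≤ exp ((p : ℝ) / 2) *
        exp (-(∑ i, (⟪x, (e i : E)⟫ + -⟪a, (e i : E)⟫) ^ 2) / (2 * eta ^ 2)) := by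
    intro x
    by_cases hx : x ∈ {x : E | ‖(x - a) - V.starProjection (x - a)‖ ≤ r}
    · rw [Set.indicator_of_mem hx, ← exp_add]
      refine one_le_exp ?_
      have h2 : ∑ i, (⟪x, (e i : E)⟫ + -⟪a, (e i : E)⟫) ^ 2 ≤ r ^ 2 := by
        simp_rw [← sub_eq_add_neg, ← inner_sub_left]
        rw [hsum]
        exact pow_le_pow_left₀ (norm_nonneg _) hx 2
      have h3 : eta ^ 2 = r ^ 2 / p := by rw [heta_def, div_pow, sq_sqrt hpR.le]
      rw [h3]
      have h4 : (∑ i, (⟪x, (e i : E)⟫ + -⟪a, (e i : E)⟫) ^ 2) / (2 * (r ^ 2 / p)) ≤ (p : ℝ) / 2 := by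
        rw [div_le_iff₀ (by positivity)]
        calc _ ≤ r ^ 2 := h2
          _ = (p : ℝ) / 2 * (2 * (r ^ 2 / p)) := by field_simp
      rw [neg_div]; linarith
    · rw [Set.indicator_of_notMem hx]; positivity
  have hint : Integrable (fun x : E => exp ((p : ℝ) / 2) *
      exp (-(∑ i, (⟪x, (e i : E)⟫ + -⟪a, (e i : E)⟫) ^ 2) / (2 * eta ^ 2))) (stdGaussian E) :=
    (Integrable.of_bound (Continuous.aestronglyMeasurable (by fun_prop)) 1
      (.of_forall fun x => by
        rw [Real.norm_eq_abs, abs_of_pos (exp_pos _)]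
        refine exp_le_one_iff.2 (div_nonpos_of_nonpos_of_nonneg ?_ (by positivity))
        have := Finset.sum_nonneg (s := Finset.univ) fun i _ =>
          sq_nonneg (⟪x, (e i : E)⟫ + -⟪a, (e i : E)⟫)
        linarith)).const_mul _
  calc (stdGaussian E).real {x | ‖(x - a) - V.starProjection (x - a)‖ ≤ r}
      = ∫ x, Set.indicator {x : E | ‖(x - a) - V.starProjection (x - a)‖ ≤ r}
          (fun _ => (1 : ℝ)) x ∂(stdGaussian E) := by
        rw [integral_indicator_const _ hset, smul_eq_mul, mul_one]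
    _ ≤ _ := integral_mono ((integrable_const _).indicator hset) hint hle
    _ ≤ exp ((p : ℝ) / 2) * eta ^ p := by
        rw [integral_const_mul]; exact mul_le_mul_of_nonneg_left hb (exp_pos _).le
    _ = _ := by
        rw [heta_def, mul_div_assoc, mul_pow, ← exp_nat_mul]
        congr 2; ring

end Vale.Agent.P309
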