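import Vale.Agent.P309.Step

/-!
The potential over all windows, the information bound, and Fano's inequality.
-/

namespace Vale.Agent.P309

open MeasureTheory Real
open scoped RealInnerProductSpace

variable {n : ℕ} {S : Type} [Fintype S] [DecidableEq S]

lemma measurable_lk (C : Chan (n + 1) S) :
    ∀ (t : ℕ) (z : S), Measurable fun u : Par n => C.lk (chart n u) t z := by
  intro t
  induction t with
  | zero => exact fun _ => measurable_const
  | succ t ih => exact fun z => Finset.measurable_sum _ fun y _ => (ih y).mul (measurable_trans (C.K_meas t) y z)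

lemma sub01_lk (C : Chan (n + 1) S) (t : ℕ) (z : S) :
    Sub01 fun u : Par n => C.lk (chart n u) t z :=
  ⟨measurable_lk C t z, fun u _ => (lk_props C u t).1 z, fun u _ =>
    (lk_props C u t).2 ▸ Finset.single_le_sum (fun y _ => (lk_props C u t).1 y) (Finset.mem_univ z)⟩

lemma sub01_zero : Sub01 (fun _ : Par n => (0 : ℝ)) :=
  ⟨measurable_const, fun _ _ => le_rfl, fun _ _ => zero_le_one⟩

lemma cellOf_zero {u : Par n} (hu : u ∈ cube n) : cellOf 0 (idx 0 u) = cube n := by
  refine Set.Subset.antisymm Set.inter_subset_left fun v hv => ⟨hv, funext fun i => ?_⟩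
  simp only [idx, pow_zero, one_mul]
  obtain ⟨a, b⟩ := mem_cube.1 hu i
  obtain ⟨c, d⟩ := mem_cube.1 hv i
  rw [Int.floor_eq_zero_iff.2 ⟨a, b⟩, Int.floor_eq_zero_iff.2 ⟨c, d⟩]

lemma mass_zero (a : Par n → ℝ) {u : Par n} (hu : u ∈ cube n) :
    mass 0 a u = ∫ v, a v ∂(cubeMeas n) := by
  rw [mass, cellOf_zero hu]; rfl

/-- The potential after `j` windows. -/
theorem pot_iterate (C : Chan (n + 1) S) (hN : NoiseVanishes C) (hn : 32 ≤ n) {k : ℕ} (hk1 : 1 ≤ k)
    (hk : 32 * k ≤ n) : ∀ j, ∃ (L : ℕ) (A : S → ℕ → Par n → ℝ), (∀ z l, Sub01 (A z l)) ∧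
      (∀ z, ∀ u ∈ cube n, ∑ l ∈ Finset.range L, A z l u = C.lk (chart n u) (j * k) z) ∧
      ∑ z, ∑ l ∈ Finset.range L, pot l (A z l) ≤
        j * (log (Fintype.card S) / (k + 1) + 16 * k + 3) := by
  intro j
  induction j with
  | zero =>
    refine ⟨1, fun z _ _ => C.init z, fun z l => ⟨measurable_const, fun u _ => (C.init_pos z).le,
      fun u _ => C.init_sum ▸ Finset.single_le_sum (fun y _ => (C.init_pos y).le) (Finset.mem_univ z)⟩,
      fun z u _ => by simp [Chan.lk], le_of_eq ?_⟩
    rw [Nat.cast_zero, zero_mul]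
    refine Finset.sum_eq_zero fun z _ => ?_
    rw [Finset.sum_range_one, pot, ent]
    have : ∫ u, C.init z * log (C.init z / mass 0 (fun _ => C.init z) u) ∂(cubeMeas n) = 0 := by
      refine integral_eq_zero_of_ae (ae_mem_cube.mono fun u hu => ?_)
      simp [mass_zero _ hu, div_self (C.init_pos z).ne']
    simp [this]
  | succ j ih =>
    obtain ⟨L, A, hA, hAs, hpot⟩ := ih
    choose R0 hR0 using fun z l => step_label C hN hn hk1 hk (j * k) z (hA z l) l
    set Rm := Finset.univ.sup fun z => (Finset.range L).sup fun l => R0 z l with hRm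
    have hle : ∀ z l, l < L → R0 z l ≤ Rm := fun z l hl =>
      (Finset.le_sup (f := fun l => R0 z l) (Finset.mem_range.2 hl)).trans
        (Finset.le_sup (f := fun z => (Finset.range L).sup fun l => R0 z l) (Finset.mem_univ z))
    have hp : ∀ z l, ∃ p : ℕ → Par n → ℝ, (∀ r, Sub01 (p r)) ∧ (l < L →
        (∀ u ∈ cube n, ∑ r ∈ Finset.range (Rm + 1), p r u = A z l u) ∧
        ∑ r ∈ Finset.range (Rm + 1),
          ∑ z', pot (l + r) (fun u => p r u * winExact C (j * k) k u z z') ≤
          pot l (A z l) + (log (Fintype.card S) / (k + 1) + 16 * k + 3) *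
            ∫ u, A z l u ∂(cubeMeas n)) := by
      intro z l
      by_cases hl : l < L
      · obtain ⟨p, h1, h2⟩ := hR0 z l Rm (hle z l hl)
        exact ⟨p, h1, fun _ => h2⟩
      · exact ⟨fun _ _ => 0, fun _ => sub01_zero, fun h => absurd h hl⟩
    choose p hp01 hp' using hp
    have hg : ∀ z z' u, 0 ≤ winExact C (j * k) k u z z' ∧ winExact C (j * k) k u z z' ≤ 1 := by
      intro z z' u
      obtain ⟨h0, h1, -⟩ := winExact_props C (j * k) u k z
      exact ⟨h0 z', h1 ▸ Finset.single_le_sum (fun y _ => h0 y) (Finset.mem_univ z')⟩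
    set B : S → S × ℕ × ℕ → Par n → ℝ := fun z' i u =>
      p i.1 i.2.1 i.2.2 u * winExact C (j * k) k u i.1 z' with hBdef
    have hB01 : ∀ z' i, Sub01 (B z' i) := fun z' i =>
      ⟨(hp01 i.1 i.2.1 i.2.2).meas.mul (measurable_winExact C (j * k) k i.1 z'),
        fun u hu => mul_nonneg ((hp01 i.1 i.2.1 i.2.2).nonneg u hu) (hg _ _ u).1,
        fun u hu => mul_le_one₀ ((hp01 i.1 i.2.1 i.2.2).le_one u hu) (hg _ _ u).1 (hg _ _ u).2⟩
    set F : Finset (S × ℕ × ℕ) :=
      Finset.univ ×ˢ Finset.range L ×ˢ Finset.range (Rm + 1) with hF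
    have hFsum : ∀ z', ∀ u ∈ cube n, ∑ i ∈ F, B z' i u = C.lk (chart n u) ((j + 1) * k) z' := by
      intro z' u hu
      rw [Nat.succ_mul, lk_window C u (j * k) k z', hF, Finset.sum_product]
      refine Finset.sum_congr rfl fun z _ => ?_
      rw [Finset.sum_product, ← hAs z u hu, Finset.sum_mul]
      refine Finset.sum_congr rfl fun l hl => ?_
      rw [← ((hp' z l (Finset.mem_range.1 hl)).1 u hu), Finset.sum_mul]
    set A' : S → ℕ → Par n → ℝ := fun z' L' u => ∑ i ∈ F with i.2.1 + i.2.2 = L', B z' i u with hA'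
    have hA'01 : ∀ z' L', Sub01 (A' z' L') := fun z' L' =>
      ⟨Finset.measurable_sum _ fun i _ => (hB01 z' i).meas,
        fun u hu => Finset.sum_nonneg fun i _ => (hB01 z' i).nonneg u hu,
        fun u hu => (Finset.sum_le_sum_of_subset_of_nonneg (Finset.filter_subset _ F)
          fun i _ _ => (hB01 z' i).nonneg u hu).trans
            ((hFsum z' u hu).le.trans ((sub01_lk C _ z').le_one u hu))⟩
    have hmaps : ∀ i ∈ F, i.2.1 + i.2.2 ∈ Finset.range (L + Rm) := fun i hi => by
      simp only [hF, Finset.mem_product, Finset.mem_range] at hi ⊢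
      omega
    refine ⟨L + Rm, A', hA'01, fun z' u hu => ?_, ?_⟩
    · rw [← hFsum z' u hu]
      exact Finset.sum_fiberwise_of_maps_to hmaps fun i => B z' i u
    · have hmerge : ∀ z', ∑ L' ∈ Finset.range (L + Rm), pot L' (A' z' L') ≤
          ∑ i ∈ F, pot (i.2.1 + i.2.2) (B z' i) := by
        intro z'
        rw [← Finset.sum_fiberwise_of_maps_to hmaps fun i => pot (i.2.1 + i.2.2) (B z' i)]
        refine Finset.sum_le_sum fun L' _ => ?_
        rw [Finset.sum_congr rfl fun i hi => by rw [(Finset.mem_filter.1 hi).2]]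
        have h1 := ent_merge {i ∈ F | i.2.1 + i.2.2 = L'} (fun i => B z' i) (fun i _ => hB01 z' i)
          (hA'01 z' L') (fun u _ => rfl) L'
        have h2 : ∫ u, A' z' L' u ∂(cubeMeas n) =
            ∑ i ∈ F with i.2.1 + i.2.2 = L', ∫ u, B z' i u ∂(cubeMeas n) :=
          integral_finsetSum _ fun i _ => (hB01 z' i).integrable
        simp only [pot, Finset.sum_sub_distrib, ← Finset.mul_sum, h2]
        linarith
      refine (Finset.sum_le_sum fun z' _ => hmerge z').trans ?_
      rw [Finset.sum_comm, hF, Finset.sum_product]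
      have hstep : ∀ z, ∑ lr ∈ Finset.range L ×ˢ Finset.range (Rm + 1),
          ∑ z', pot (lr.1 + lr.2) (B z' (z, lr)) ≤ ∑ l ∈ Finset.range L, (pot l (A z l) +
            (log (Fintype.card S) / (k + 1) + 16 * k + 3) * ∫ u, A z l u ∂(cubeMeas n)) := by
        intro z
        rw [Finset.sum_product]
        exact Finset.sum_le_sum fun l hl => (hp' z l (Finset.mem_range.1 hl)).2
      refine (Finset.sum_le_sum fun z _ => hstep z).trans ?_
      simp only [Finset.sum_add_distrib, ← Finset.mul_sum]
      have htot : ∑ z, ∑ l ∈ Finset.range L, ∫ u, A z l u ∂(cubeMeas n) = 1 := by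
        have e : ∀ z, ∑ l ∈ Finset.range L, ∫ u, A z l u ∂(cubeMeas n) =
            ∫ u, C.lk (chart n u) (j * k) z ∂(cubeMeas n) := fun z => by
          rw [← integral_finsetSum _ fun l _ => (hA z l).integrable]
          exact integral_congr_ae (ae_mem_cube.mono fun u hu => hAs z u hu)
        simp only [e]
        rw [← integral_finsetSum _ fun z _ => (sub01_lk C (j * k) z).integrable]
        simp [(fun u => (lk_props C u (j * k)).2)]
      rw [htot, mul_one]
      push_cast
      linarith

/-- The information of the state about the parameter after `j` windows. -/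
theorem info_le (C : Chan (n + 1) S) (hN : NoiseVanishes C) (hn : 32 ≤ n) {k : ℕ} (hk1 : 1 ≤ k)
    (hk : 32 * k ≤ n) (j : ℕ) :
    ∑ z, ent 0 (fun u : Par n => C.lk (chart n u) (j * k) z) ≤
      8 * (j * (log (Fintype.card S) / (k + 1) + 16 * k + 3)) := by
  obtain ⟨L, A, hA, hAs, hpot⟩ := pot_iterate C hN hn hk1 hk j
  refine le_trans ?_ (mul_le_mul_of_nonneg_left hpot (by norm_num : (0 : ℝ) ≤ 8))
  rw [Finset.mul_sum]
  refine Finset.sum_le_sum fun z _ => ?_
  rw [Finset.mul_sum]
  refine (ent_merge (Finset.range L) (A z) (fun l _ => hA z l) (sub01_lk C _ z)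
    (fun u hu => (hAs z u hu).symm) 0).trans (Finset.sum_le_sum fun l _ => ?_)
  have h1 := (hA z l).ent_zero_le l
  have h2 := (hA z l).ent_ge l
  push_cast at h2
  have h3 : 7 / 8 * n * log 2 * l * ∫ u, A z l u ∂(cubeMeas n) =
      7 / 8 * (l * n * log 2 * ∫ u, A z l u ∂(cubeMeas n)) := by ring
  rw [pot, h3]
  linarith

/-- Fano's inequality. -/
theorem fano {a o : S → Par n → ℝ} (ha : ∀ z, Sub01 (a z))
    (hsum : ∀ u ∈ cube n, ∑ z, a z u = 1) (ho : ∀ z, Sub01 (o z)) {β t : ℝ}
    (hβ : ∀ z, ∫ u, o z u ∂(cubeMeas n) ≤ β) (ht : 0 ≤ t) (htb : exp t * β ≤ 1) :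
    t * ∑ z, ∫ u, a z u * o z u ∂(cubeMeas n) ≤ (∑ z, ent 0 (a z)) + log 2 := by
  have key : ∀ z, t * ∫ u, a z u * o z u ∂(cubeMeas n) ≤
      ent 0 (a z) + log 2 * ∫ u, a z u ∂(cubeMeas n) := by
    intro z
    set A := ∫ u, a z u ∂(cubeMeas n)
    have hA : 0 ≤ A := integral_nonneg_of_ae (ae_mem_cube.mono fun u hu => (ha z).nonneg u hu)
    have hao : Integrable (fun u => a z u * o z u) (cubeMeas n) :=
      Integrable.of_bound ((ha z).meas.mul (ho z).meas).aestronglyMeasurable 1
        (ae_mem_cube.mono fun u hu => by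
          rw [Real.norm_eq_abs, abs_of_nonneg (mul_nonneg ((ha z).nonneg u hu) ((ho z).nonneg u hu))]
          exact mul_le_one₀ ((ha z).le_one u hu) ((ho z).nonneg u hu) ((ho z).le_one u hu))
    have hconv : ∀ u ∈ cube n, exp (t * o z u) ≤ 1 + (exp t - 1) * o z u := by
      intro u hu
      have h := convexOn_exp.2 (Set.mem_univ (0 : ℝ)) (Set.mem_univ t)
        (by linarith [(ho z).le_one u hu] : 0 ≤ 1 - o z u) ((ho z).nonneg u hu) (by ring)
      simp only [smul_eq_mul, mul_zero, zero_add, exp_zero, mul_one] at h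
      rw [mul_comm (o z u) t] at h
      linarith
    have iR : Integrable (fun u => A / 2 * (1 + (exp t - 1) * o z u)) (cubeMeas n) :=
      ((integrable_const (1 : ℝ)).add ((ho z).integrable.const_mul (exp t - 1))).const_mul (A / 2)
    have hR : ∫ u, A / 2 * (1 + (exp t - 1) * o z u) ∂(cubeMeas n) ≤ A := by
      rw [integral_const_mul, integral_add (integrable_const _) ((ho z).integrable.const_mul _),
        integral_const_mul]
      have h1 := mul_le_mul_of_nonneg_left (hβ z) (by linarith [add_one_le_exp t] : 0 ≤ exp t - 1)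
      have h2 : 0 ≤ β := (integral_nonneg_of_ae (ae_mem_cube.mono fun u hu => (ho z).nonneg u hu)).trans (hβ z)
      simp only [integral_const, smul_eq_mul, probReal_univ, one_mul]
      have := mul_le_mul_of_nonneg_left (by linarith : 1 + (exp t - 1) *
        ∫ u, o z u ∂(cubeMeas n) ≤ 2) (by positivity : 0 ≤ A / 2)
      linarith
    have h : ∫ u, (t * (a z u * o z u) - a z u * log (a z u / mass 0 (a z) u) - log 2 * a z u)
        ∂(cubeMeas n) ≤ ∫ u, (A / 2 * (1 + (exp t - 1) * o z u) - a z u) ∂(cubeMeas n) := by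
      refine integral_mono_ae (((hao.const_mul t).sub ((ha z).ent_integrable 0)).sub
        ((ha z).integrable.const_mul _)) (iR.sub (ha z).integrable) ?_
      filter_upwards [ae_mem_cube, (ha z).ae_mass_pos 0] with u hu hM
      have hR0 := mul_le_mul_of_nonneg_left (hconv u hu) (by positivity : 0 ≤ A / 2)
      rcases ((ha z).nonneg u hu).eq_or_lt with h0 | h0
      · rw [← h0]
        simp only [zero_mul, mul_zero, sub_zero]
        exact le_trans (by positivity) hR0
      have hM' := hM h0.ne'
      rw [mass_zero _ hu] at hM' ⊢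
      change 0 < A at hM'
      change t * (a z u * o z u) - a z u * log (a z u / A) - log 2 * a z u ≤ _
      have h1 := add_one_le_exp (t * o z u - log (a z u / A) - log 2)
      rw [exp_sub, exp_sub, exp_log two_pos, exp_log (div_pos h0 hM')] at h1
      have h2 := mul_le_mul_of_nonneg_left h1 h0.le
      have e : a z u * (exp (t * o z u) / (a z u / A) / 2) = A / 2 * exp (t * o z u) := by
        field_simp
      rw [e] at h2
      linarith
    have i12 : Integrable (fun u => t * (a z u * o z u) - a z u * log (a z u / mass 0 (a z) u))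
        (cubeMeas n) := (hao.const_mul t).sub ((ha z).ent_integrable 0)
    rw [integral_sub i12 ((ha z).integrable.const_mul _),
      integral_sub (hao.const_mul t) ((ha z).ent_integrable 0), integral_const_mul, integral_const_mul,
      integral_sub iR (ha z).integrable] at h
    show _ ≤ ent 0 (a z) + _
    rw [ent]
    linarith
  rw [Finset.mul_sum]
  refine (Finset.sum_le_sum fun z _ => key z).trans_eq ?_
  rw [Finset.sum_add_distrib, ← Finset.mul_sum, ← integral_finsetSum _ fun z _ => (ha z).integrable,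
    integral_congr_ae (ae_mem_cube.mono fun u hu => hsum u hu)]
  simp

/-- The points of the cube whose chart is close to a given point fill little volume. -/
theorem cap_le (hn : 1 ≤ n) (v : Euc (n + 1)) (hv : ‖v‖ = 1) {ε : ℝ} (hε : 0 < ε) (hε1 : ε ≤ 1) :
    (cubeMeas n).real {u | arccos ⟪v, chart n u⟫ ≤ ε} ≤ (9 * ε) ^ n := by
  have hm : MeasurableSet {u : Par n | arccos ⟪v, chart n u⟫ ≤ ε} :=
    measurableSet_le (continuous_arccos.measurable.comp
      ((continuous_const.inner continuous_chart).measurable)) measurable_const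
  rw [cubeMeas, measureReal_restrict_apply hm]
  have hidx : (0 : Fin n → ℤ) ∈ idxSet n 0 := by simp [idxSet]
  have h := volume_nbhd hn (⊥ : Submodule ℝ (Euc n)) (by simp) (dropLast n v) hε (l := 0)
    (by simpa using hε1) hidx (q := 0) (by simp)
  simp only [pow_zero, Nat.zero_mul, one_mul, Nat.sub_zero] at h
  rw [mul_pow]
  refine le_trans (measureReal_mono ?_ ?_) h
  · rintro u ⟨hu, hc⟩
    refine ⟨⟨hc, funext fun i => ?_⟩, ?_⟩
    · obtain ⟨a, b⟩ := mem_cube.1 hc i
      simp [idx, Int.floor_eq_zero_iff, a, b]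
    · show ‖_‖ ≤ ε
      rw [Submodule.starProjection_bot]
      simp only [_root_.zero_apply, sub_zero]
      rw [← dropLast_chart, ← map_sub]
      refine (norm_dropLast_le _).trans ?_
      have hcos : cos ε ≤ ⟪v, chart n u⟫ := by
        have hi := abs_le.1 ((abs_real_inner_le_norm v (chart n u)).trans_eq
          (by rw [hv, norm_chart hc, one_mul]))
        rw [← cos_arccos hi.1 hi.2]
        exact cos_le_cos_of_nonneg_of_le_pi (arccos_nonneg _) (by linarith [pi_gt_three]) hu
      refine (sq_le_sq₀ (norm_nonneg _) hε.le).1 ?_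
      rw [norm_sub_sq_real, norm_chart hc, hv, real_inner_comm]
      linarith [one_sub_sq_div_two_le_cos (x := ε)]
  · exact (lt_of_le_of_lt (measure_mono (Set.inter_subset_left.trans Set.inter_subset_left))
      (by simp [volume_cube])).ne

end Vale.Agent.P309
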