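import Vale.Agent.P309.Moment
import Mathlib.Analysis.InnerProductSpace.Adjoint
import Mathlib.Analysis.InnerProductSpace.Projection.Reflection
import Mathlib.MeasureTheory.Measure.Haar.Basic
import Mathlib.MeasureTheory.Measure.Haar.Unique
import Mathlib.MeasureTheory.Integral.Average

/-!
From a learner to a smoothed channel that succeeds on the chart: averaging over the orthogonal
group and mixing in a small uniform transition.
-/

namespace Vale.Agent.P309

open MeasureTheory ProbabilityTheory
open scoped RealInnerProductSpace ENNReal Pointwise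

noncomputable section

/-- The orthogonal group, as unitary continuous linear maps. -/
abbrev Rot (d : ℕ) : Type := unitary (Euc d →L[ℝ] Euc d)

/-- The isometric equivalence of an orthogonal map. -/
def Rot.iso {d : ℕ} (g : Rot d) : Euc d ≃ₗᵢ[ℝ] Euc d := Unitary.linearIsometryEquiv g

lemma Rot.iso_apply {d : ℕ} (g : Rot d) (x : Euc d) :
    g.iso x = (g : Euc d →L[ℝ] Euc d) x := rfl

lemma Rot.norm_apply {d : ℕ} (g : Rot d) (x : Euc d) :
    ‖(g : Euc d →L[ℝ] Euc d) x‖ = ‖x‖ := by
  rw [← g.iso_apply, LinearIsometryEquiv.norm_map]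

instance instCompactSpaceRot (d : ℕ) : CompactSpace (Rot d) := by
  refine isCompact_iff_compactSpace.1
    ((isCompact_closedBall (0 : Euc d →L[ℝ] Euc d) 1).of_isClosed_subset ?_ ?_)
  · have hc : Continuous (star : (Euc d →L[ℝ] Euc d) → (Euc d →L[ℝ] Euc d)) :=
      ContinuousLinearMap.adjoint.continuous
    have : (unitary (Euc d →L[ℝ] Euc d) : Set (Euc d →L[ℝ] Euc d))
        = {u | star u * u = 1} ∩ {u | u * star u = 1} := by
      ext u; exact Unitary.mem_iff
    rw [this]
    exact (isClosed_eq (hc.mul continuous_id) continuous_const).inter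
      (isClosed_eq (continuous_id.mul hc) continuous_const)
  · intro u hu
    rw [mem_closedBall_zero_iff]
    refine ContinuousLinearMap.opNorm_le_bound _ zero_le_one fun x => ?_
    rw [one_mul]
    exact (Rot.norm_apply ⟨u, hu⟩ x).le

lemma isTopologicalGroup_rot (d : ℕ) : IsTopologicalGroup (Rot d) :=
  { continuous_inv := Continuous.subtype_mk
      (ContinuousLinearMap.adjoint.continuous.comp continuous_subtype_val) _ }

lemma continuous_rot_apply (d : ℕ) :
    Continuous fun q : Rot d × Euc d => (q.1 : Euc d →L[ℝ] Euc d) q.2 :=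
  (continuous_subtype_val.comp continuous_fst).clm_apply continuous_snd

lemma exists_rot (d : ℕ) {a b : Euc d} (h : ‖a‖ = ‖b‖) :
    ∃ g : Rot d, (g : Euc d →L[ℝ] Euc d) a = b :=
  ⟨Unitary.linearIsometryEquiv.symm ((Submodule.span ℝ {a - b})ᗮ).reflection, by
    simpa using Submodule.reflection_sub h⟩

/-- The map of the sphere induced by an isometry. -/
def sphereMap {d : ℕ} (e : Euc d ≃ₗᵢ[ℝ] Euc d) (v : Sph d) : Sph d :=
  ⟨e v, by simp⟩

lemma continuous_sphereMap {d : ℕ} (e : Euc d ≃ₗᵢ[ℝ] Euc d) : Continuous (sphereMap e) :=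
  (e.continuous.comp continuous_subtype_val).subtype_mk _

lemma map_uniformSphere {d : ℕ} (e : Euc d ≃ₗᵢ[ℝ] Euc d) :
    (uniformSphere d).map (sphereMap e) = uniformSphere d := by
  rw [uniformSphere, Measure.map_smul]
  congr 1
  refine Measure.ext fun s hs => ?_
  rw [Measure.map_apply (continuous_sphereMap e).measurable hs,
    Measure.toSphere_apply' _ ((continuous_sphereMap e).measurable hs),
    Measure.toSphere_apply' _ hs]
  congr 1
  have himg : (Subtype.val '' (sphereMap e ⁻¹' s) : Set (Euc d)) = e.symm '' (Subtype.val '' s) := by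
    ext x
    constructor
    · rintro ⟨v, hv, rfl⟩
      exact ⟨e v, ⟨sphereMap e v, hv, rfl⟩, e.symm_apply_apply _⟩
    · rintro ⟨_, ⟨v, hv, rfl⟩, rfl⟩
      refine ⟨sphereMap e.symm v, ?_, rfl⟩
      have hvv : sphereMap e (sphereMap e.symm v) = v := Subtype.ext (e.apply_symm_apply _)
      rw [Set.mem_preimage, hvv]; exact hv
  have hsm : (Set.Ioo (0 : ℝ) 1 • (e.symm '' (Subtype.val '' s)) : Set (Euc d))
      = e ⁻¹' (Set.Ioo (0 : ℝ) 1 • (Subtype.val '' s)) := by
    ext x
    simp only [Set.mem_preimage, Set.mem_smul, Set.mem_image]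
    constructor
    · rintro ⟨r, hr, _, ⟨w, hw, rfl⟩, rfl⟩
      exact ⟨r, hr, w, hw, by simp⟩
    · rintro ⟨r, hr, w, hw, h⟩
      exact ⟨r, hr, _, ⟨w, hw, rfl⟩, by rw [← map_smul, h, e.symm_apply_apply]⟩
  rw [himg, hsm]
  exact e.measurePreserving.measure_preimage_emb e.toHomeomorph.measurableEmbedding _

lemma isProbabilityMeasure_uniformSphere (d : ℕ) [NeZero d] :
    IsProbabilityMeasure (uniformSphere d) := by
  refine ⟨?_⟩
  rw [uniformSphere, Measure.smul_apply, smul_eq_mul]
  refine ENNReal.inv_mul_cancel ?_ ?_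
  · rw [Measure.toSphere_apply_univ]
    exact mul_ne_zero (by simpa using (NeZero.ne d))
      (Metric.measure_ball_pos volume _ one_pos).ne'
  · exact measure_ne_top _ _

/-- Some rotation does at least as well as the average over the sphere. -/
lemma exists_rot_average {d : ℕ} [NeZero d] {α : Type} [MeasurableSpace α] {μ : Measure α}
    [IsProbabilityMeasure μ] {c : α → Euc d} (hc : Measurable c) (hc1 : ∀ᵐ a ∂μ, ‖c a‖ = 1)
    {F : Euc d → ℝ≥0∞} (hF : Measurable F) {B : ℝ≥0∞} (hB : B ≠ ∞) (hFB : ∀ x, F x ≤ B) :
    ∃ g : Rot d, ∫⁻ s, F (s : Euc d) ∂(uniformSphere d)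
      ≤ ∫⁻ a, F ((g : Euc d →L[ℝ] Euc d) (c a)) ∂μ := by
  have := isTopologicalGroup_rot d
  have := isProbabilityMeasure_uniformSphere d
  borelize (Rot d)
  let ν : Measure (Rot d) := Measure.haarMeasure ⊤
  have : IsProbabilityMeasure ν :=
    ⟨by simpa [ν] using Measure.haarMeasure_self (K₀ := (⊤ : TopologicalSpace.PositiveCompacts (Rot d)))⟩
  have hright : ∀ h : Rot d, ν.map (· * h) = ν := by
    intro h
    have : IsProbabilityMeasure (ν.map (· * h)) :=
      Measure.isProbabilityMeasure_map (continuous_mul_const h).measurable.aemeasurable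
    have h1 := Measure.isMulInvariant_eq_smul_of_compactSpace (ν.map (· * h)) ν
    have h2 : Measure.haarScalarFactor (ν.map (· * h)) ν = 1 := by
      simpa [measure_univ, eq_comm] using congrArg (fun m : Measure (Rot d) => m Set.univ) h1
    rw [h1, h2, one_smul]
  have hm : Measurable fun q : Rot d × Euc d => F ((q.1 : Euc d →L[ℝ] Euc d) q.2) :=
    hF.comp (continuous_rot_apply d).measurable
  set avg : Euc d → ℝ≥0∞ := fun x => ∫⁻ g, F ((g : Euc d →L[ℝ] Euc d) x) ∂ν with havg
  have hconst : ∀ x y : Euc d, ‖x‖ = ‖y‖ → avg x = avg y := by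
    intro x y h
    obtain ⟨k, hk⟩ := exists_rot d h
    simp only [havg]
    conv_lhs => rw [← hright k]
    rw [lintegral_map (f := fun g : Rot d => F ((g : Euc d →L[ℝ] Euc d) x))
      (hm.comp measurable_prodMk_right) (continuous_mul_const k).measurable]
    refine lintegral_congr fun g => ?_
    simp [← hk]
  have hswap : ∀ {β : Type} [MeasurableSpace β] (m : Measure β) [SFinite m] (f : β → Euc d),
      Measurable f → ∫⁻ a, avg (f a) ∂m
        = ∫⁻ g, ∫⁻ a, F ((g : Euc d →L[ℝ] Euc d) (f a)) ∂m ∂ν := by
    intro β _ m _ f hf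
    exact lintegral_lintegral_swap (hm.comp (measurable_snd.prodMk (hf.comp measurable_fst))).aemeasurable
  set e₀ : Euc d := EuclideanSpace.single (⟨0, Nat.pos_of_ne_zero (NeZero.ne d)⟩ : Fin d) 1
  have he₀ : ‖e₀‖ = 1 := by simp [e₀]
  have hsph : ∫⁻ s, F (s : Euc d) ∂(uniformSphere d) = avg e₀ := by
    have h1 : ∫⁻ s, avg (s : Euc d) ∂(uniformSphere d) = avg e₀ := by
      rw [lintegral_congr fun s : Sph d => hconst (s : Euc d) e₀ (by simp [he₀]),
        lintegral_const, measure_univ, mul_one]
    rw [← h1, hswap (uniformSphere d) _ measurable_subtype_coe]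
    have h2 : ∀ g : Rot d, ∫⁻ s : Sph d, F ((g : Euc d →L[ℝ] Euc d) (s : Euc d)) ∂(uniformSphere d)
        = ∫⁻ s : Sph d, F (s : Euc d) ∂(uniformSphere d) := by
      intro g
      conv_rhs => rw [← map_uniformSphere g.iso]
      rw [lintegral_map (f := fun s : Sph d => F (s : Euc d)) (hF.comp measurable_subtype_coe)
        (continuous_sphereMap g.iso).measurable]
      rfl
    rw [lintegral_congr h2, lintegral_const, measure_univ, mul_one]
  have hchart : ∫⁻ a, avg (c a) ∂μ = avg e₀ := by
    have h3 : (fun a => avg (c a)) =ᵐ[μ] fun _ => avg e₀ :=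
      hc1.mono fun a ha => hconst (c a) e₀ (ha.trans he₀.symm)
    rw [lintegral_congr_ae h3, lintegral_const, measure_univ, mul_one]
  rw [hswap μ c hc] at hchart
  obtain ⟨g, hg⟩ := exists_lintegral_le (μ := ν)
    (f := fun g => ∫⁻ a, F ((g : Euc d →L[ℝ] Euc d) (c a)) ∂μ) (by
      refine ne_top_of_le_ne_top hB ?_
      calc ∫⁻ g, ∫⁻ a, F ((g : Euc d →L[ℝ] Euc d) (c a)) ∂μ ∂ν ≤ ∫⁻ _, ∫⁻ _, B ∂μ ∂ν :=
            lintegral_mono fun g => lintegral_mono fun a => hFB _
        _ = B := by simp)
  exact ⟨g, by rw [hsph, ← hchart]; exact hg⟩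

lemma isProbabilityMeasure_cubeMeas (n : ℕ) : IsProbabilityMeasure (cubeMeas n) := by
  refine ⟨?_⟩
  rw [cubeMeas, Measure.restrict_apply_univ, cube, volume_pi_pi]
  simp

variable {d N : ℕ}

lemma step_le_one (L : Learner d N) (t : ℕ) (z : Fin N) (p : Euc d × ℝ) (w : Fin N × Bool) :
    L.step t z p w ≤ 1 :=
  L.step_sum t z p ▸ Finset.single_le_sum (fun _ _ => zero_le) (Finset.mem_univ w)

lemma init_le_one (L : Learner d N) (z : Fin N) : L.init z ≤ 1 :=
  L.init_sum ▸ Finset.single_le_sum (fun _ _ => zero_le) (Finset.mem_univ z)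

lemma measurable_law (L : Learner d N) :
    ∀ (t : ℕ) (w : Fin N × Bool), Measurable fun s : Euc d => L.law s t w
  | 0, (z, b) => by simp only [Learner.law]; exact measurable_const
  | t + 1, (z', b') => by
    simp only [Learner.law]
    refine Measurable.add ?_ (Finset.measurable_sum _ fun z _ =>
      (measurable_law L t _).mul ?_)
    · cases b'
      · simp
      · simpa using measurable_law L t (z', true)
    · exact Measurable.lintegral_prod_right'
        (f := fun q : Euc d × Euc d => L.step t z (q.2, ⟪q.2, q.1⟫) (z', b'))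
        ((L.step_meas t z _).comp
          (Continuous.measurable (by fun_prop : Continuous fun q : Euc d × Euc d => (q.2, ⟪q.2, q.1⟫))))

lemma measurableSet_close (d : ℕ) (eps : ℝ) :
    MeasurableSet {q : Euc d × Sph d | Real.arccos ⟪(q.2 : Euc d), q.1⟫ ≤ eps} :=
  measurableSet_le (Continuous.measurable (Real.continuous_arccos.comp
    ((continuous_subtype_val.comp continuous_snd).inner continuous_fst))) measurable_const

/-- The success probability at a given signal. -/
def successAt (L : Learner d N) (T : ℕ) (eps : ℝ) (s : Euc d) : ℝ≥0∞ :=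
  ∑ w : Fin N × Bool, L.law s T w * L.out w.1 {v | Real.arccos ⟪(v : Euc d), s⟫ ≤ eps}

lemma measurable_successAt (L : Learner d N) (T : ℕ) (eps : ℝ) :
    Measurable (successAt L T eps) :=
  Finset.measurable_sum _ fun w _ => (measurable_law L T w).mul (by
    have := L.out_prob w.1
    exact measurable_measure_prodMk_left (measurableSet_close d eps))

/-- One step of the smoothed machine, before smoothing, in rotated coordinates. -/
def baseStep (L : Learner d N) (g : Rot d) (t : ℕ) (w : Fin N × Bool) (p : Euc d × ℝ)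
    (w' : Fin N × Bool) : ℝ :=
  if w.2 then (if w' = w then 1 else 0)
  else (L.step t w.1 ((g : Euc d →L[ℝ] Euc d) p.1, p.2) w').toReal

lemma baseStep_nonneg (L : Learner d N) (g : Rot d) (t : ℕ) (w : Fin N × Bool) (p : Euc d × ℝ)
    (w' : Fin N × Bool) : 0 ≤ baseStep L g t w p w' := by
  unfold baseStep
  split_ifs <;> simp [ENNReal.toReal_nonneg]

lemma baseStep_sum (L : Learner d N) (g : Rot d) (t : ℕ) (w : Fin N × Bool) (p : Euc d × ℝ) :
    ∑ w', baseStep L g t w p w' = 1 := by
  unfold baseStep
  by_cases h : w.2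
  · simp [h]
  · simp only [h, Bool.false_eq_true, if_false]
    rw [← ENNReal.toReal_sum fun w' _ =>
      ne_top_of_le_ne_top ENNReal.one_ne_top (step_le_one L t w.1 _ w'), L.step_sum,
      ENNReal.toReal_one]

lemma baseStep_measurable (L : Learner d N) (g : Rot d) (t : ℕ) (w w' : Fin N × Bool) :
    Measurable fun p => baseStep L g t w p w' := by
  unfold baseStep
  cases w.2
  · simp only [Bool.false_eq_true, if_false]
    exact ENNReal.measurable_toReal.comp ((L.step_meas t w.1 w').comp
      (Continuous.measurable (by fun_prop :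
        Continuous fun p : Euc d × ℝ => ((g : Euc d →L[ℝ] Euc d) p.1, p.2))))
  · simp only [if_true]; exact measurable_const

lemma baseStep_le_one (L : Learner d N) (g : Rot d) (t : ℕ) (w : Fin N × Bool) (p : Euc d × ℝ)
    (w' : Fin N × Bool) : baseStep L g t w p w' ≤ 1 :=
  baseStep_sum L g t w p ▸ Finset.single_le_sum (fun i _ => baseStep_nonneg L g t w p i)
    (Finset.mem_univ w')

theorem exists_chan_of_learner {n N T : ℕ} (hn : 1 ≤ n) (L : Learner (n + 1) N) {eps : ℝ}
    (hs : (2 : ℝ≥0∞) / 3 ≤ L.success T eps) :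
    ∃ (C : Chan (n + 1) (Fin N × Bool)) (ν : Fin N × Bool → Measure (Sph (n + 1))),
      (∀ w, IsProbabilityMeasure (ν w)) ∧
      (∀ w, Measurable fun u : Par n =>
        (ν w).real {v | Real.arccos ⟪(v : Euc (n + 1)), chart n u⟫ ≤ eps}) ∧
      3 / 5 ≤ ∫ u, ∑ w, C.lk (chart n u) T w *
        (ν w).real {v | Real.arccos ⟪(v : Euc (n + 1)), chart n u⟫ ≤ eps} ∂(cubeMeas n) := by
  have := isProbabilityMeasure_cubeMeas n
  have hN : 0 < N := by
    rcases Nat.eq_zero_or_pos N with rfl | h
    · simpa using L.init_sum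
    · exact h
  -- the good rotation
  have hbdd : ∀ s, successAt L T eps s ≤ ∑ _w : Fin N × Bool, ((T + 1 : ℕ) : ℝ≥0∞) := by
    intro s
    refine Finset.sum_le_sum fun w _ => ?_
    have := L.out_prob w.1
    refine le_trans (mul_le_of_le_one_right' (prob_le_one (μ := L.out w.1))) ?_
    have hlaw : ∀ t, ∑ w : Fin N × Bool, L.law s t w ≤ 1 := by
      intro t
      induction t with
      | zero => simp [Fintype.sum_prod_type, Learner.law, L.init_sum]
      | succ t ih =>
        refine le_trans (le_of_eq ?_) ih
        have hint : ∀ z, ∑ w' : Fin N × Bool,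
            ∫⁻ x, L.step t z (x, ⟪x, s⟫) w' ∂(stdGaussian (Euc (n + 1))) = 1 := by
          intro z
          rw [← lintegral_finsetSum (f := fun (w' : Fin N × Bool) (x : Euc (n + 1)) =>
            L.step t z (x, ⟪x, s⟫) w') (Finset.univ) fun w' _ =>
            (L.step_meas t z w').comp (Continuous.measurable (by fun_prop :
              Continuous fun x : Euc (n + 1) => (x, ⟪x, s⟫)))]
          simp [L.step_sum]
        calc ∑ w' : Fin N × Bool, L.law s (t + 1) w'
            = (∑ w' : Fin N × Bool, if w'.2 then L.law s t (w'.1, true) else 0)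
              + ∑ z, L.law s t (z, false) * ∑ w' : Fin N × Bool,
                ∫⁻ x, L.step t z (x, ⟪x, s⟫) w' ∂(stdGaussian (Euc (n + 1))) := by
              simp only [Finset.mul_sum]
              rw [Finset.sum_comm (s := (Finset.univ : Finset (Fin N))), ← Finset.sum_add_distrib]
              rfl
          _ = ∑ w : Fin N × Bool, L.law s t w := by
              simp [hint, Fintype.sum_prod_type, Finset.sum_add_distrib]
    exact ((Finset.single_le_sum (fun _ _ => zero_le) (Finset.mem_univ w)).trans
      (hlaw T)).trans (by simp)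
  obtain ⟨g, hg⟩ := exists_rot_average (d := n + 1) (μ := cubeMeas n) (continuous_chart (n := n)).measurable
    ((ae_restrict_iff' (MeasurableSet.univ_pi fun _ => measurableSet_Ico)).2
      (Filter.Eventually.of_forall fun u hu => norm_chart hu))
    (measurable_successAt L T eps) (B := ∑ w : Fin N × Bool, ((T + 1 : ℕ) : ℝ≥0∞))
    (ENNReal.sum_ne_top.2 fun _ _ => ENNReal.natCast_ne_top _) hbdd
  -- smoothing
  set ζ : ℝ := 1 / (10 * ((T : ℝ) + 1)) with hζdef
  have hζ0 : 0 < ζ := by positivity
  have hζ1 : ζ ≤ 1 := by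
    rw [hζdef, div_le_one (by positivity)]; linarith [T.cast_nonneg (α := ℝ)]
  set Q : ℝ := ((Fintype.card (Fin N × Bool) : ℕ) : ℝ) with hQdef
  have hQ : 0 < Q := by simp [hQdef, hN]
  have hcard : ∑ _w : Fin N × Bool, ζ / Q = ζ := by
    rw [Finset.sum_const, Finset.card_univ, nsmul_eq_mul, ← hQdef]; field_simp
  let C : Chan (n + 1) (Fin N × Bool) :=
    { init := fun w => (1 - ζ) * (if w.2 then 0 else (L.init w.1).toReal) + ζ / Q
      init_pos := fun w => by
        have : 0 ≤ (1 - ζ) * (if w.2 then 0 else (L.init w.1).toReal) :=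
          mul_nonneg (by linarith) (by split_ifs <;> simp [ENNReal.toReal_nonneg])
        have : 0 < ζ / Q := by positivity
        linarith
      init_sum := by
        rw [Finset.sum_add_distrib, ← Finset.mul_sum, hcard]
        have : ∑ w : Fin N × Bool, (if w.2 then 0 else (L.init w.1).toReal) = 1 := by
          simp [Fintype.sum_prod_type,
            ← ENNReal.toReal_sum fun z _ => ne_top_of_le_ne_top ENNReal.one_ne_top (init_le_one L z),
            L.init_sum]
        rw [this]; ring
      K := fun t w p w' => (1 - ζ) * baseStep L g t w p w' + ζ / Q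
      K_meas := fun t w w' => ((baseStep_measurable L g t w w').const_mul _).add_const _
      low := ζ / Q
      low_pos := by positivity
      K_low := fun t w p w' => le_add_of_nonneg_left
        (mul_nonneg (by linarith) (baseStep_nonneg L g t w p w'))
      K_sum := fun t w p => by
        rw [Finset.sum_add_distrib, ← Finset.mul_sum, baseStep_sum, hcard]; ring }
  let R : Sph (n + 1) → Sph (n + 1) := sphereMap g.iso.symm
  have hR : Measurable R := (continuous_sphereMap _).measurable
  let ν : Fin N × Bool → Measure (Sph (n + 1)) := fun w => (L.out w.1).map R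
  have hνp : ∀ w, IsProbabilityMeasure (ν w) := fun w => by
    have := L.out_prob w.1
    exact Measure.isProbabilityMeasure_map hR.aemeasurable
  have hνset : ∀ (w : Fin N × Bool) (s : Euc (n + 1)),
      ν w {v | Real.arccos ⟪(v : Euc (n + 1)), s⟫ ≤ eps} =
      L.out w.1 {v | Real.arccos ⟪(v : Euc (n + 1)), (g : Euc (n + 1) →L[ℝ] Euc (n + 1)) s⟫ ≤ eps} := by
    intro w s
    have hset : MeasurableSet {v : Sph (n + 1) | Real.arccos ⟪(v : Euc (n + 1)), s⟫ ≤ eps} :=
      measurable_prodMk_left (measurableSet_close (n + 1) eps)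
    simp only [ν]
    rw [Measure.map_apply hR hset]
    congr 1
    ext v
    simp only [Set.mem_preimage, Set.mem_ofPred_eq, R, sphereMap]
    rw [← g.iso.inner_map_map (g.iso.symm (v : Euc (n + 1))) s, g.iso.apply_symm_apply,
      Rot.iso_apply]
  have hK0 : ∀ t z p w, 0 ≤ C.K t z p w := fun t z p w => C.low_pos.le.trans (C.K_low t z p w)
  have htr0 : ∀ t s z w, 0 ≤ trans (C.K t) s z w := fun t s z w =>
    integral_nonneg fun x => hK0 t z (x, ⟪x, s⟫) w
  have hlk0 : ∀ s t w, 0 ≤ C.lk s t w := by
    intro s t
    induction t with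
    | zero => exact fun w => (C.init_pos w).le
    | succ t ih =>
      exact fun w => Finset.sum_nonneg fun z _ => mul_nonneg (ih z) (htr0 t s z w)
  -- a step loses at most a factor `1 - ζ`
  have hstep : ∀ (s : Euc (n + 1)) t (w w' : Fin N × Bool),
      ENNReal.ofReal (1 - ζ) * (if w.2 then (if w' = w then 1 else 0) else
        ∫⁻ x, L.step t w.1 (x, ⟪x, (g : Euc (n + 1) →L[ℝ] Euc (n + 1)) s⟫) w'
          ∂(stdGaussian (Euc (n + 1))))
        ≤ ENNReal.ofReal (trans (C.K t) s w w') := by
    intro s t w w'
    have hm : Measurable fun x : Euc (n + 1) => baseStep L g t w (x, ⟪x, s⟫) w' :=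
      (baseStep_measurable L g t w w').comp (Continuous.measurable (by fun_prop :
        Continuous fun x : Euc (n + 1) => (x, ⟪x, s⟫)))
    have hi : Integrable (fun x => baseStep L g t w (x, ⟪x, s⟫) w')
        (stdGaussian (Euc (n + 1))) :=
      Integrable.of_bound hm.aestronglyMeasurable 1 (Filter.Eventually.of_forall fun x => by
        rw [Real.norm_eq_abs, abs_of_nonneg (baseStep_nonneg ..)]; exact baseStep_le_one ..)
    have hge : (1 - ζ) * ∫ x, baseStep L g t w (x, ⟪x, s⟫) w' ∂(stdGaussian (Euc (n + 1)))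
        ≤ trans (C.K t) s w w' := by
      rw [trans, ← integral_const_mul]
      exact integral_mono (hi.const_mul _) ((hi.const_mul _).add (integrable_const _))
        fun x => le_add_of_nonneg_right (by positivity)
    refine le_trans ?_ (ENNReal.ofReal_le_ofReal hge)
    rw [ENNReal.ofReal_mul (by linarith)]
    refine mul_le_mul_right (le_of_eq ?_) _
    unfold baseStep
    by_cases h : w.2
    · simp only [h, if_true]
      split_ifs <;> simp
    · simp only [h, Bool.false_eq_true, if_false]
      have hm' : ∀ y : Euc (n + 1), Measurable fun x => L.step t w.1 (x, ⟪x, y⟫) w' := fun y =>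
        (L.step_meas t w.1 w').comp (Continuous.measurable (by fun_prop))
      have hmg : Measurable fun x : Euc (n + 1) =>
          L.step t w.1 ((g : Euc (n + 1) →L[ℝ] Euc (n + 1)) x, ⟪x, s⟫) w' :=
        (L.step_meas t w.1 w').comp (Continuous.measurable (by fun_prop))
      rw [integral_toReal hmg.aemeasurable (Filter.Eventually.of_forall fun x =>
        lt_of_le_of_lt (step_le_one ..) ENNReal.one_lt_top),
        ENNReal.ofReal_toReal (ne_top_of_le_ne_top ENNReal.one_ne_top
          ((lintegral_mono fun x => step_le_one ..).trans (by simp)))]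
      conv_lhs => rw [← stdGaussian_map g.iso]
      rw [lintegral_map (hm' _) g.iso.continuous.measurable]
      refine lintegral_congr fun x => ?_
      rw [Rot.iso_apply, ← g.iso.inner_map_map x s, Rot.iso_apply, Rot.iso_apply]
  have hlk : ∀ (s : Euc (n + 1)) t (w : Fin N × Bool),
      ENNReal.ofReal (1 - ζ) ^ (t + 1) * L.law ((g : Euc (n + 1) →L[ℝ] Euc (n + 1)) s) t w
        ≤ ENNReal.ofReal (C.lk s t w) := by
    intro s t
    induction t with
    | zero =>
      rintro ⟨z, b⟩
      cases b
      · simp only [Learner.law, Bool.false_eq_true, if_false, zero_add, pow_one]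
        rw [← ENNReal.ofReal_toReal (ne_top_of_le_ne_top ENNReal.one_ne_top (init_le_one L z)),
          ← ENNReal.ofReal_mul (by linarith)]
        refine ENNReal.ofReal_le_ofReal ?_
        simp only [Chan.lk, C, Bool.false_eq_true, if_false]
        exact le_add_of_nonneg_right (by positivity)
      · simp [Learner.law]
    | succ t ih =>
      rintro ⟨z', b'⟩
      rw [Chan.lk, ENNReal.ofReal_sum_of_nonneg fun z _ => mul_nonneg (hlk0 s t z)
        (htr0 t s z (z', b'))]
      simp only [ENNReal.ofReal_mul (hlk0 s t _)]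
      refine le_trans ?_ (Finset.sum_le_sum fun w _ => mul_le_mul' (ih w) (hstep s t w (z', b')))
      rw [Fintype.sum_prod_type]
      simp only [Fintype.sum_bool, Learner.law, if_true, Bool.false_eq_true, if_false,
        mul_add, Finset.mul_sum]
      rw [Finset.sum_add_distrib]
      refine add_le_add (le_of_eq ?_) (le_of_eq (Finset.sum_congr rfl fun z _ => ?_))
      · cases b'
        · simp
        · rw [Finset.sum_eq_single z']
          · simp; ring
          · intro z _ hz
            simp [Prod.ext_iff, Ne.symm hz]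
          · simp
      · ring
  -- measurability
  have hνm : ∀ w, Measurable fun u : Par n =>
      (ν w).real {v | Real.arccos ⟪(v : Euc (n + 1)), chart n u⟫ ≤ eps} := fun w => by
    have := hνp w
    exact ENNReal.measurable_toReal.comp
      ((measurable_measure_prodMk_left (measurableSet_close (n + 1) eps)).comp
        (continuous_chart (n := n)).measurable)
  have hlkm : ∀ t w, Measurable fun u : Par n => C.lk (chart n u) t w := by
    intro t
    induction t with
    | zero => exact fun w => measurable_const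
    | succ t ih =>
      intro w
      refine Finset.measurable_sum _ fun z _ => (ih z).mul ?_
      exact (StronglyMeasurable.integral_prod_right'
        (f := fun q : Par n × Euc (n + 1) => C.K t z (q.2, ⟪q.2, chart n q.1⟫) w)
        ((C.K_meas t z w).comp (Continuous.measurable
          (continuous_snd.prodMk (continuous_snd.inner ((continuous_chart (n := n)).comp continuous_fst))))
          ).stronglyMeasurable).measurable
  have hlk1 : ∀ u t, ∑ w, C.lk (chart n u) t w = 1 := by
    intro u t
    induction t with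
    | zero => exact C.init_sum
    | succ t ih =>
      simp only [Chan.lk]
      rw [Finset.sum_comm]
      calc ∑ z, ∑ w, C.lk (chart n u) t z * trans (C.K t) (chart n u) z w
          = ∑ z, C.lk (chart n u) t z * 1 := by
            refine Finset.sum_congr rfl fun z _ => ?_
            rw [← Finset.mul_sum]
            congr 1
            unfold trans
            rw [← integral_finsetSum]
            · simp [C.K_sum]
            · intro w _
              refine Integrable.of_bound ((C.K_meas t z w).comp (Continuous.measurable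
                (by fun_prop : Continuous fun x : Euc (n + 1) =>
                  (x, ⟪x, chart n u⟫)))).aestronglyMeasurable 1
                (Filter.Eventually.of_forall fun x => ?_)
              rw [Real.norm_eq_abs, abs_of_nonneg (C.low_pos.le.trans (C.K_low _ _ _ _))]
              exact C.K_sum t z (x, ⟪x, chart n u⟫) ▸ Finset.single_le_sum
                (fun i _ => hK0 t z (x, ⟪x, chart n u⟫) i) (Finset.mem_univ w)
        _ = 1 := by simp [ih]
  refine ⟨C, ν, hνp, hνm, ?_⟩
  set f : Par n → ℝ := fun u => ∑ w, C.lk (chart n u) T w *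
    (ν w).real {v | Real.arccos ⟪(v : Euc (n + 1)), chart n u⟫ ≤ eps}
  have hf0 : ∀ u, 0 ≤ f u := fun u => Finset.sum_nonneg fun w _ =>
    mul_nonneg (hlk0 _ _ _) measureReal_nonneg
  have hfm : Measurable f := Finset.measurable_sum _ fun w _ => (hlkm T w).mul (hνm w)
  have hfi : Integrable f (cubeMeas n) := by
    refine Integrable.of_bound hfm.aestronglyMeasurable 1 (Filter.Eventually.of_forall fun u => ?_)
    rw [Real.norm_eq_abs, abs_of_nonneg (hf0 u), ← hlk1 u T]
    refine Finset.sum_le_sum fun w _ => mul_le_of_le_one_right (hlk0 _ _ _) ?_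
    have := hνp w
    exact measureReal_le_one
  have hge : ∀ u, ENNReal.ofReal (1 - ζ) ^ (T + 1) *
      successAt L T eps ((g : Euc (n + 1) →L[ℝ] Euc (n + 1)) (chart n u)) ≤ ENNReal.ofReal (f u) := by
    intro u
    rw [successAt, Finset.mul_sum,
      ENNReal.ofReal_sum_of_nonneg fun w _ => mul_nonneg (hlk0 _ _ _) measureReal_nonneg]
    refine Finset.sum_le_sum fun w _ => ?_
    have := hνp w
    rw [ENNReal.ofReal_mul (hlk0 _ _ _), measureReal_def,
      ENNReal.ofReal_toReal (measure_ne_top _ _), hνset, ← mul_assoc]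
    exact mul_le_mul_left (hlk _ T w) _
  have hpow : (9 : ℝ) / 10 ≤ (1 - ζ) ^ (T + 1) := by
    refine le_trans ?_ (one_add_mul_le_pow (a := -ζ) (by linarith) (T + 1))
    rw [hζdef]; push_cast
    have hT : (0 : ℝ) < (T : ℝ) + 1 := by positivity
    field_simp
    ring_nf
    linarith
  have h35 : ENNReal.ofReal (3 / 5) ≤ ∫⁻ u, ENNReal.ofReal (f u) ∂(cubeMeas n) := by
    have h1 : ENNReal.ofReal (3 / 5) ≤ ENNReal.ofReal (1 - ζ) ^ (T + 1) * ((2 : ℝ≥0∞) / 3) := by
      rw [← ENNReal.ofReal_pow (by linarith), show ((2 : ℝ≥0∞) / 3) = ENNReal.ofReal (2 / 3) by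
        rw [ENNReal.ofReal_div_of_pos (by norm_num), ENNReal.ofReal_ofNat, ENNReal.ofReal_ofNat],
        ← ENNReal.ofReal_mul (by positivity)]
      exact ENNReal.ofReal_le_ofReal (by linarith)
    refine h1.trans ((mul_le_mul_right (hs.trans hg) _).trans ?_)
    rw [← lintegral_const_mul _ (f := fun u => successAt L T eps
        ((g : Euc (n + 1) →L[ℝ] Euc (n + 1)) (chart n u)))
      ((measurable_successAt L T eps).comp
      ((g : Euc (n + 1) →L[ℝ] Euc (n + 1)).continuous.comp (continuous_chart (n := n))).measurable)]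
    exact lintegral_mono hge
  rw [← ofReal_integral_eq_lintegral_ofReal hfi (Filter.Eventually.of_forall hf0)] at h35
  exact (ENNReal.ofReal_le_ofReal_iff (integral_nonneg hf0)).1 h35

end

end Vale.Agent.P309
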