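import Vale.Agent.P309.Short
import Vale.Agent.P309.Reduce

/-!
The memory-sample lower bound.
-/

namespace Vale.Agent.P309

open MeasureTheory ProbabilityTheory Real Filter Topology
open scoped RealInnerProductSpace ENNReal

variable {n : ℕ} {S : Type} [Fintype S] [DecidableEq S]

/-- Information is at most the entropy of the state. -/
theorem info_le_card [Nonempty S] {a : S → Par n → ℝ} (ha : ∀ z, Sub01 (a z))
    (hsum : ∀ u ∈ cube n, ∑ z, a z u = 1) : ∑ z, ent 0 (a z) ≤ log (Fintype.card S) := by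
  set N : ℝ := (Fintype.card S : ℝ) with hNdef
  have hN : 0 < N := Nat.cast_pos.2 Fintype.card_pos
  have hs : ∑ z, ∫ u, a z u ∂(cubeMeas n) = 1 := by
    rw [← integral_finsetSum _ fun z _ => (ha z).integrable,
      integral_congr_ae (ae_mem_cube.mono fun u hu => hsum u hu)]
    simp
  have key : ∀ z, ent 0 (a z) ≤
      1 / N - ∫ u, a z u ∂(cubeMeas n) + log N * ∫ u, a z u ∂(cubeMeas n) := by
    intro z
    set A := ∫ u, a z u ∂(cubeMeas n) with hA
    have i1 : Integrable (fun u => a z u / A * (1 / N) - a z u + log N * a z u) (cubeMeas n) :=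
      (((ha z).integrable.div_const _).mul_const _ |>.sub (ha z).integrable).add
        ((ha z).integrable.const_mul _)
    have i2 : Integrable (fun u => a z u / A * (1 / N) - a z u) (cubeMeas n) :=
      ((ha z).integrable.div_const _).mul_const _ |>.sub (ha z).integrable
    have h : ent 0 (a z) ≤ ∫ u, (a z u / A * (1 / N) - a z u + log N * a z u) ∂(cubeMeas n) := by
      refine integral_mono_ae ((ha z).ent_integrable 0) i1 ?_
      filter_upwards [ae_mem_cube, (ha z).ae_mass_pos 0] with u hu hM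
      rcases ((ha z).nonneg u hu).eq_or_lt with h0 | h0
      · simp [← h0]
      have hM' := hM h0.ne'
      rw [mass_zero _ hu] at hM' ⊢
      change 0 < A at hM'
      change a z u * log (a z u / A) ≤ _
      have h1 := log_le_log (div_pos h0 hM') (div_le_div_of_nonneg_right ((ha z).le_one u hu) hM'.le)
      have h2 := log_le_sub_one_of_pos (show 0 < 1 / A * (1 / N) by positivity)
      rw [log_mul (by positivity) (by positivity), one_div N, log_inv] at h2
      have h3 := mul_le_mul_of_nonneg_left (h1.trans (by linarith :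
        log (1 / A) ≤ 1 / A * N⁻¹ - 1 + log N)) h0.le
      calc _ ≤ _ := h3
        _ = _ := by ring
    rw [integral_add i2 ((ha z).integrable.const_mul _),
      integral_sub (((ha z).integrable.div_const _).mul_const _) (ha z).integrable,
      integral_mul_const, integral_div, integral_const_mul, ← hA] at h
    refine h.trans ?_
    rcases eq_or_ne A 0 with h0 | h0
    · rw [h0]; simp only [div_zero, zero_mul, sub_zero, mul_zero, add_zero]; positivity
    · rw [div_self h0, one_mul]
  refine (Finset.sum_le_sum fun z _ => key z).trans_eq ?_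
  rw [Finset.sum_add_distrib, Finset.sum_sub_distrib, ← Finset.mul_sum, hs, Finset.sum_const,
    Finset.card_univ, nsmul_eq_mul, ← hNdef, mul_one_div_cancel hN.ne']
  ring

/-- Continue the machine after `T` rows by almost staying put. -/
noncomputable def padChan [Nonempty S] (C : Chan (n + 1) S) (T : ℕ) (ζ : ℝ) (h0 : 0 < ζ)
    (h1 : ζ ≤ 1) : Chan (n + 1) S where
  init := C.init
  init_pos := C.init_pos
  init_sum := C.init_sum
  K t z p w := if t < T then C.K t z p w
    else (1 - ζ) * (if z = w then 1 else 0) + ζ / (Fintype.card S : ℝ)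
  K_meas t z w := by
    by_cases h : t < T
    · simpa [h] using C.K_meas t z w
    · simp [h]
  low := min C.low (ζ / (Fintype.card S : ℝ))
  low_pos := lt_min C.low_pos (div_pos h0 (Nat.cast_pos.2 Fintype.card_pos))
  K_low t z p w := by
    by_cases h : t < T
    · rw [if_pos h]; exact (min_le_left _ _).trans (C.K_low t z p w)
    · rw [if_neg h]
      refine (min_le_right _ _).trans (le_add_of_nonneg_left (mul_nonneg (by linarith) ?_))
      split_ifs <;> norm_num
  K_sum t z p := by
    by_cases h : t < T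
    · simpa [h] using C.K_sum t z p
    · simp only [if_neg h, Finset.sum_add_distrib, ← Finset.mul_sum, Finset.sum_ite_eq,
        Finset.mem_univ, if_true, Finset.sum_const, Finset.card_univ, nsmul_eq_mul]
      rw [mul_div_cancel₀ _ (Nat.cast_ne_zero.2 Fintype.card_ne_zero)]
      ring

lemma padChan_eq [Nonempty S] (C : Chan (n + 1) S) (T : ℕ) {ζ : ℝ} (h0 : 0 < ζ) (h1 : ζ ≤ 1)
    (u : Par n) : ∀ t ≤ T, ∀ z, (padChan C T ζ h0 h1).lk (chart n u) t z = C.lk (chart n u) t z := by
  intro t
  induction t with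
  | zero => intros; rfl
  | succ t ih =>
    intro ht z
    simp only [Chan.lk, ih (by omega)]
    refine Finset.sum_congr rfl fun y _ => ?_
    congr 1
    have h : t < T := by omega
    simp [trans, padChan, h]

lemma padChan_ge [Nonempty S] (C : Chan (n + 1) S) (T : ℕ) {ζ : ℝ} (h0 : 0 < ζ) (h1 : ζ ≤ 1)
    (u : Par n) : ∀ j z, (1 - ζ) ^ j * C.lk (chart n u) T z ≤
      (padChan C T ζ h0 h1).lk (chart n u) (T + j) z := by
  intro j
  induction j with
  | zero => intro z; simp [padChan_eq C T h0 h1 u T le_rfl z]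
  | succ j ih =>
    intro z
    have hl := (lk_props (padChan C T ζ h0 h1) u (T + j)).1
    have htr : ∀ y, (1 - ζ) * (if y = z then 1 else 0) ≤
        trans ((padChan C T ζ h0 h1).K (T + j)) (chart n u) y z := fun y => by
      simp only [trans, padChan, if_neg (show ¬ T + j < T by omega), integral_const,
        probReal_univ, smul_eq_mul, one_mul]
      exact le_add_of_nonneg_right (div_nonneg h0.le (Nat.cast_nonneg _))
    calc (1 - ζ) ^ (j + 1) * C.lk (chart n u) T z
        = (1 - ζ) * ((1 - ζ) ^ j * C.lk (chart n u) T z) := by ring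
      _ ≤ (1 - ζ) * (padChan C T ζ h0 h1).lk (chart n u) (T + j) z :=
          mul_le_mul_of_nonneg_left (ih z) (by linarith)
      _ = ∑ y, (padChan C T ζ h0 h1).lk (chart n u) (T + j) y *
            ((1 - ζ) * if y = z then 1 else 0) := by simp [mul_comm]
      _ ≤ _ := Finset.sum_le_sum fun y _ => mul_le_mul_of_nonneg_left (htr y) (hl y)

/-- The decoder of a family of output laws. -/
noncomputable def decoderOf {ε : ℝ} (ν : S → Measure (Sph (n + 1)))
    (hν : ∀ w, IsProbabilityMeasure (ν w))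
    (hm : ∀ w, Measurable fun u : Par n =>
      (ν w).real {v | arccos ⟪(v : Euc (n + 1)), chart n u⟫ ≤ ε}) (hε : 0 ≤ ε) (hε1 : ε ≤ 1) :
    Decoder n S ε where
  o z u := (cube n).indicator
    (fun u => (ν z).real {v | arccos ⟪(v : Euc (n + 1)), chart n u⟫ ≤ ε}) u
  meas z := (hm z).indicator measurableSet_cube
  nonneg z u := Set.indicator_apply_nonneg fun _ => measureReal_nonneg
  le_one z u := by
    classical
    have := hν z
    rw [Set.indicator_apply]
    split_ifs
    · exact measureReal_le_one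
    · exact zero_le_one
  excl z u v huv := by
    classical
    have := hν z
    by_cases hu : u ∈ cube n
    swap
    · rw [Set.indicator_of_notMem hu, zero_add, Set.indicator_apply]
      split_ifs
      · exact measureReal_le_one
      · exact zero_le_one
    by_cases hv : v ∈ cube n
    swap
    · rw [Set.indicator_of_notMem hv, add_zero, Set.indicator_apply]
      split_ifs
      exact measureReal_le_one
    rw [Set.indicator_of_mem hu, Set.indicator_of_mem hv]
    have hclose : ∀ (x : Sph (n + 1)) (y : Par n), y ∈ cube n →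
        arccos ⟪(x : Euc (n + 1)), chart n y⟫ ≤ ε → ‖(x : Euc (n + 1)) - chart n y‖ ≤ ε := by
      intro x y hy hxy
      have hx : ‖(x : Euc (n + 1))‖ = 1 := by simpa using x.2
      have hi := abs_le.1 ((abs_real_inner_le_norm (x : Euc (n + 1)) (chart n y)).trans_eq
        (by rw [hx, norm_chart hy, one_mul]))
      have hcos : cos ε ≤ ⟪(x : Euc (n + 1)), chart n y⟫ := by
        rw [← cos_arccos hi.1 hi.2]
        exact cos_le_cos_of_nonneg_of_le_pi (arccos_nonneg _) (by linarith [pi_gt_three]) hxy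
      refine (sq_le_sq₀ (norm_nonneg _) hε).1 ?_
      rw [norm_sub_sq_real, norm_chart hy, hx]
      linarith [one_sub_sq_div_two_le_cos (x := ε)]
    have hd : Disjoint {x : Sph (n + 1) | arccos ⟪(x : Euc (n + 1)), chart n u⟫ ≤ ε}
        {x : Sph (n + 1) | arccos ⟪(x : Euc (n + 1)), chart n v⟫ ≤ ε} :=
      Set.disjoint_left.2 fun x h1 h2 => by
        have := norm_sub_le_norm_sub_add_norm_sub (chart n u) (x : Euc (n + 1)) (chart n v)
        rw [norm_sub_rev (chart n u) (x : Euc (n + 1))] at this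
        linarith [hclose x u hu h1, hclose x v hv h2]
    rw [← measureReal_union hd (measurableSet_le (continuous_arccos.measurable.comp
      ((continuous_subtype_val.inner continuous_const).measurable)) measurable_const)]
    exact measureReal_le_one

/-- A fixed output law is rarely close to the signal. -/
lemma decoderOf_mass (hn : 1 ≤ n) (ν : Measure (Sph (n + 1))) [IsProbabilityMeasure ν] {ε : ℝ}
    (hε : 0 < ε) (hε1 : ε ≤ 1) :
    ∫ u, (cube n).indicator (fun u => ν.real {v | arccos ⟪(v : Euc (n + 1)), chart n u⟫ ≤ ε}) u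
      ∂(cubeMeas n) ≤ (9 * ε) ^ n := by
  set B := {p : Par n × Sph (n + 1) | arccos ⟪(p.2 : Euc (n + 1)), chart n p.1⟫ ≤ ε}
  have hB : MeasurableSet B :=
    (isClosed_le (continuous_arccos.comp ((continuous_subtype_val.comp continuous_snd).inner
      (continuous_chart.comp continuous_fst))) continuous_const).measurableSet
  have hi : Integrable (B.indicator fun _ => (1 : ℝ)) ((cubeMeas n).prod ν) :=
    (integrable_const 1).indicator hB
  have e : ∫ u, (cube n).indicator
      (fun u => ν.real {v | arccos ⟪(v : Euc (n + 1)), chart n u⟫ ≤ ε}) u ∂(cubeMeas n) =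
      ∫ u, ∫ v, B.indicator (fun _ => (1 : ℝ)) (u, v) ∂ν ∂(cubeMeas n) := by
    refine integral_congr_ae (ae_mem_cube.mono fun u hu => ?_)
    rw [Set.indicator_of_mem hu]
    exact (integral_indicator_one (measurableSet_le (continuous_arccos.measurable.comp
      ((continuous_subtype_val.inner continuous_const).measurable)) measurable_const)).symm
  rw [e, integral_integral_swap (f := fun u v => B.indicator (fun _ => (1 : ℝ)) (u, v)) hi]
  calc ∫ v, ∫ u, B.indicator (fun _ => (1 : ℝ)) (u, v) ∂(cubeMeas n) ∂ν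
      ≤ ∫ _v, (9 * ε) ^ n ∂ν := by
        refine integral_mono hi.integral_prod_right (integrable_const _) fun v => ?_
        show ∫ u, B.indicator (fun _ => (1 : ℝ)) (u, v) ∂(cubeMeas n) ≤ _
        refine le_trans (le_of_eq (integral_indicator_one ?_)) (cap_le hn (v : Euc (n + 1))
          (by simpa using v.2) hε hε1)
        exact measurable_prodMk_right hB
    _ = (9 * ε) ^ n := by simp

lemma fano_time {ε a : ℝ} (hε : 0 < ε) (ha : 1 ≤ a) (haε : a * ε ≤ 1) (n : ℕ) :
    0 ≤ (n : ℝ) * log (1 / (a * ε)) ∧ exp ((n : ℝ) * log (1 / (a * ε))) * (a * ε) ^ n ≤ 1 ∧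
      (n : ℝ) * log (1 / (a * ε)) = (n : ℝ) * (log (1 / ε) - log a) := by
  have hp : 0 < a * ε := by positivity
  refine ⟨mul_nonneg (Nat.cast_nonneg _) (log_nonneg (by rwa [le_div_iff₀ hp, one_mul])), ?_, ?_⟩
  · rw [exp_nat_mul, exp_log (by positivity), ← mul_pow, one_div_mul_cancel hp.ne', one_pow]
  · rw [log_div one_ne_zero hp.ne', log_div one_ne_zero hε.ne', log_mul (by positivity) hε.ne']
    ring

/-- The lower bound for channels. -/
theorem chan_bound [Nonempty S] (C : Chan (n + 1) S) (hn : 64 ≤ n) {T : ℕ} {ε : ℝ} (hε : 0 < ε)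
    (hL : 100 ≤ log (1 / ε)) (ν : S → Measure (Sph (n + 1)))
    (hν : ∀ w, IsProbabilityMeasure (ν w))
    (hm : ∀ w, Measurable fun u : Par n =>
      (ν w).real {v | arccos ⟪(v : Euc (n + 1)), chart n u⟫ ≤ ε})
    (hs : 3 / 5 ≤ ∫ u, ∑ w, C.lk (chart n u) T w *
      (ν w).real {v | arccos ⟪(v : Euc (n + 1)), chart n u⟫ ≤ ε} ∂(cubeMeas n)) :
    (n : ℝ) * log (1 / ε) / 8 ≤ log (Fintype.card S) ∧
    (n : ℝ) * log (1 / ε) / 8 ≤
      16 * T * (4096 * log (Fintype.card S) / (n : ℝ) ^ 2 + 19) := by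
  set L := log (1 / ε) with hLdef
  have hnR : (64 : ℝ) ≤ n := by exact_mod_cast hn
  have h18 : log 18 ≤ 4 := by
    rw [log_le_iff_le_exp (by norm_num)]
    have h2 : (2.7 : ℝ) ≤ exp 1 := by linarith [exp_one_gt_d9]
    calc (18 : ℝ) ≤ 2.7 ^ 4 := by norm_num
      _ ≤ exp 1 ^ 4 := pow_le_pow_left₀ (by norm_num) h2 4
      _ = exp 4 := by rw [← exp_nat_mul]; norm_num
  have h9 : log 9 ≤ 4 := le_trans (log_le_log (by norm_num) (by norm_num)) h18
  have hε18 : 18 * ε ≤ 1 := by
    have h : log 18 ≤ log (1 / ε) := by linarith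
    rw [log_le_log_iff (by norm_num) (by positivity), le_div_iff₀ hε] at h
    linarith
  have hε1 : ε ≤ 1 := by linarith
  set D : Decoder n S ε := decoderOf ν hν hm hε.le hε1 with hD
  have hsucc : 3 / 5 ≤ D.succ C T := by
    refine hs.trans_eq (integral_congr_ae (ae_mem_cube.mono fun u hu => ?_))
    simp [hD, decoderOf, Set.indicator_of_mem hu]
  have hoint : ∀ (C' : Chan (n + 1) S) t' z,
      Integrable (fun u => C'.lk (chart n u) t' z * D.o z u) (cubeMeas n) := fun C' t' z =>
    (sub01_lk C' t' z).integrable.mul_bdd (c := 1) (D.meas z).aestronglyMeasurable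
      (.of_forall fun u => by
        rw [Real.norm_eq_abs, abs_of_nonneg (D.nonneg z u)]; exact D.le_one z u)
  have hfano : ∀ (C' : Chan (n + 1) S) (t' : ℕ),
      (n : ℝ) * (L - log 9) * D.succ C' t' ≤
        (∑ z, ent 0 (fun u : Par n => C'.lk (chart n u) t' z)) + log 2 := by
    intro C' t'
    obtain ⟨f1, f2, f3⟩ := fano_time hε (by norm_num : (1 : ℝ) ≤ 9) (by linarith : 9 * ε ≤ 1) n
    have h := fano (fun z => sub01_lk C' t' z) (fun u _ => (lk_props C' u t').2)
      (fun z => (⟨D.meas z, fun u _ => D.nonneg z u, fun u _ => D.le_one z u⟩ : Sub01 (D.o z)))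
      (β := (9 * ε) ^ n) (fun z => by
        have := hν z
        exact decoderOf_mass (by omega) (ν z) hε hε1) f1 f2
    rw [f3] at h
    rwa [Decoder.succ, integral_finsetSum _ fun z _ => hoint C' t' z]
  have hlog2 : log 2 ≤ 1 := by linarith [log_two_lt_d9]
  have hnL : (n : ℝ) * L ≥ 6400 := by nlinarith
  have hL2 : (n : ℝ) * L / 2 ≤ (n : ℝ) * (L - log 9) := by nlinarith
  constructor
  · have h1 := hfano C T
    have h2 := info_le_card (fun z => sub01_lk C T z) (fun u _ => (lk_props C u T).2)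
    have h3 : (n : ℝ) * L / 2 * (3 / 5) ≤ (n : ℝ) * (L - log 9) * D.succ C T :=
      mul_le_mul hL2 hsucc (by norm_num) (by linarith)
    linarith
  set k := n / 32 with hk
  have hk1 : 1 ≤ k := by omega
  have hk32 : 32 * k ≤ n := Nat.mul_div_le n 32
  have hkT : k < T := by
    by_contra hcon
    have hT : 32 * T ≤ n := by omega
    obtain ⟨g1, g2, g3⟩ := fano_time hε (by norm_num : (1 : ℝ) ≤ 18) hε18 n
    have h := short_bound C (by omega) hT hε (by linarith) D g1 g2
    rw [g3] at h
    have h3 : (n : ℝ) * L / 2 * (1 / 5) ≤ (n : ℝ) * (L - log 18) * (2 * D.succ C T - 1) :=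
      mul_le_mul (by nlinarith) (by linarith) (by norm_num) (by nlinarith)
    have hTR : 32 * (T : ℝ) ≤ n := by exact_mod_cast hT
    nlinarith
  have hkR : (1 : ℝ) ≤ k := by exact_mod_cast hk1
  set ζ : ℝ := 1 / (10 * k) with hζ
  have hζ0 : 0 < ζ := by positivity
  have hζk : (k : ℝ) * ζ = 1 / 10 := by rw [hζ]; field_simp
  have hζ1 : ζ ≤ 1 / 10 := by nlinarith
  set C' := padChan C T ζ hζ0 (by linarith) with hC'
  set j := T / k + 1 with hj
  have hmd := Nat.div_add_mod T k
  have hml := Nat.mod_lt T (show k > 0 by omega)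
  have hjT : j * k = T + (k - T % k) := by rw [hj, Nat.add_mul, one_mul, Nat.mul_comm (T / k) k]; omega
  have hjT2 : (j : ℝ) * k ≤ 2 * T := by
    have : j * k ≤ 2 * T := by omega
    exact_mod_cast this
  have hsucc' : 1 / 2 ≤ D.succ C' (j * k) := by
    rw [hjT]
    set i := k - T % k
    have hi : (i : ℝ) * ζ ≤ 1 / 10 := by
      refine le_trans (mul_le_mul_of_nonneg_right ?_ hζ0.le) hζk.le
      exact_mod_cast Nat.sub_le k (T % k)
    have hp : 9 / 10 ≤ (1 - ζ) ^ i := by
      have := one_add_mul_le_pow (show -2 ≤ -ζ by linarith) i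
      rw [← sub_eq_add_neg] at this
      linarith
    have hmono : (1 - ζ) ^ i * D.succ C T ≤ D.succ C' (T + i) := by
      rw [Decoder.succ, Decoder.succ, ← integral_const_mul]
      refine integral_mono ((integrable_finsetSum _ fun z _ => hoint C T z).const_mul _)
        (integrable_finsetSum _ fun z _ => hoint C' (T + i) z) fun u => ?_
      simp only [Finset.mul_sum]
      refine Finset.sum_le_sum fun z _ => ?_
      rw [← mul_assoc]
      exact mul_le_mul_of_nonneg_right (padChan_ge C T hζ0 (by linarith) u i z) (D.nonneg z u)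
    have := mul_le_mul hp hsucc (by norm_num) (by linarith)
    linarith
  have h1 := hfano C' (j * k)
  have h2 := info_le C' (noiseVanishes (by omega) C') (by omega) hk1 hk32 j
  have h3 : (n : ℝ) * L / 2 * (1 / 2) ≤ (n : ℝ) * (L - log 9) * D.succ C' (j * k) :=
    mul_le_mul hL2 hsucc' (by norm_num) (by linarith)
  set lS := log (Fintype.card S : ℝ)
  have hlS : 0 ≤ lS := log_nonneg (by exact_mod_cast Fintype.card_pos)
  have hkn : (n : ℝ) / 64 ≤ k := by
    have : n ≤ 64 * k := by omega
    have : (n : ℝ) ≤ 64 * k := by exact_mod_cast this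
    linarith
  have hpos : 0 ≤ lS / (k + 1) + 16 * k + 3 := by positivity
  have h4 : lS / (k + 1) + 16 * k + 3 ≤ (k : ℝ) * (4096 * lS / (n : ℝ) ^ 2 + 19) := by
    have e1 : lS / ((k : ℝ) + 1) ≤ (k : ℝ) * (4096 * lS / (n : ℝ) ^ 2) := by
      rw [mul_div_assoc', div_le_div_iff₀ (by positivity) (by positivity)]
      have hkk : (n : ℝ) ^ 2 ≤ 4096 * ((k : ℝ) * (k + 1)) := by nlinarith
      nlinarith [mul_le_mul_of_nonneg_left hkk hlS]
    nlinarith
  have h5 : (j : ℝ) * (lS / (k + 1) + 16 * k + 3) ≤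
      2 * T * (4096 * lS / (n : ℝ) ^ 2 + 19) := by
    calc _ ≤ (j : ℝ) * ((k : ℝ) * (4096 * lS / (n : ℝ) ^ 2 + 19)) :=
          mul_le_mul_of_nonneg_left h4 (Nat.cast_nonneg _)
      _ = ((j : ℝ) * k) * (4096 * lS / (n : ℝ) ^ 2 + 19) := by ring
      _ ≤ _ := mul_le_mul_of_nonneg_right hjT2 (by positivity)
  linarith

/-- The memory-sample lower bound, with explicit constants. -/
theorem learner_bound {d M T N : ℕ} {ε : ℝ} (hd : 65 ≤ d) (hε : 0 < ε) (hε0 : ε ≤ exp (-100))
    (hN : N ≤ 2 ^ M) (L : Learner d N) (hs : (2 : ℝ≥0∞) / 3 ≤ L.success T ε) :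
    (d : ℝ) * log (1 / ε) / 32 ≤ M ∧
      (d : ℝ) * log (1 / ε) / (5000000 * (1 + M / (d : ℝ) ^ 2)) ≤ T := by
  obtain ⟨n, rfl⟩ : ∃ n, d = n + 1 := ⟨d - 1, by omega⟩
  obtain ⟨C, ν, hν, hm, hs'⟩ := exists_chan_of_learner (by omega : 1 ≤ n) L hs
  have hN0 : 0 < N := by
    rcases Nat.eq_zero_or_pos N with rfl | h
    · simpa using L.init_sum
    · exact h
  have : Nonempty (Fin N × Bool) := ⟨(⟨0, hN0⟩, false)⟩
  have hL : 100 ≤ log (1 / ε) := by
    rw [log_div one_ne_zero hε.ne', log_one, zero_sub]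
    linarith [(log_le_iff_le_exp hε).2 hε0]
  obtain ⟨h1, h2⟩ := chan_bound C (by omega : 64 ≤ n) hε hL ν hν hm hs'
  have hcard : log (Fintype.card (Fin N × Bool) : ℝ) ≤ (M + 1 : ℝ) := by
    rw [Fintype.card_prod, Fintype.card_fin, Fintype.card_bool, Nat.cast_mul]
    have h : (N : ℝ) * ((2 : ℕ) : ℝ) ≤ (2 : ℝ) ^ (M + 1) := by
      rw [pow_succ]; push_cast
      exact mul_le_mul_of_nonneg_right (by exact_mod_cast hN) (by norm_num)
    refine (log_le_log (by positivity) h).trans ?_
    rw [log_pow]; push_cast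
    have h2' : log (2 : ℝ) ≤ 1 := by linarith [log_two_lt_d9]
    nlinarith
  set lS := log (Fintype.card (Fin N × Bool) : ℝ)
  set l := log (1 / ε)
  have hn : (64 : ℝ) ≤ n := by exact_mod_cast (show 64 ≤ n by omega)
  have hdn : ((n + 1 : ℕ) : ℝ) ≤ 2 * n := by push_cast; linarith
  have hdl : ((n + 1 : ℕ) : ℝ) * l ≤ 2 * ((n : ℝ) * l) := by
    rw [← mul_assoc]; exact mul_le_mul_of_nonneg_right hdn (by linarith)
  have hnl : 6400 ≤ (n : ℝ) * l := by nlinarith
  refine ⟨by linarith, ?_⟩
  set q : ℝ := (M : ℝ) / ((n + 1 : ℕ) : ℝ) ^ 2 with hq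
  have hq0 : 0 ≤ q := by positivity
  rw [div_le_iff₀ (by positivity)]
  have h3 : 4096 * lS / (n : ℝ) ^ 2 ≤ 16384 * q + 1 := by
    have e1 : 4096 * lS / (n : ℝ) ^ 2 ≤ 4096 * ((M : ℝ) + 1) / (n : ℝ) ^ 2 :=
      div_le_div_of_nonneg_right (by linarith) (by positivity)
    have e2 : 4096 * (M : ℝ) / (n : ℝ) ^ 2 ≤ 16384 * q := by
      rw [hq, mul_div_assoc', div_le_div_iff₀ (by positivity) (by positivity)]
      have : ((n + 1 : ℕ) : ℝ) ^ 2 ≤ 4 * (n : ℝ) ^ 2 := by nlinarith
      nlinarith [mul_le_mul_of_nonneg_left this (Nat.cast_nonneg M : (0 : ℝ) ≤ M)]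
    have e3 : 4096 / (n : ℝ) ^ 2 ≤ 1 := by
      rw [div_le_one (by positivity)]; nlinarith
    rw [mul_add, add_div, mul_one] at e1
    linarith
  have h4 : 16 * (T : ℝ) * (4096 * lS / (n : ℝ) ^ 2 + 19) ≤ 16 * T * (16384 * (1 + q)) :=
    mul_le_mul_of_nonneg_left (by linarith) (by positivity)
  nlinarith [mul_nonneg (Nat.cast_nonneg T : (0 : ℝ) ≤ T) (by linarith : 0 ≤ 1 + q)]

end Vale.Agent.P309
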