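import Vale.Agent.P309.Cells

/-!
The chart, and negative moments of the distance to a subspace for a Frostman weight.
-/

namespace Vale.Agent.P309

open MeasureTheory ProbabilityTheory Real
open scoped RealInnerProductSpace

variable {n : ℕ}

/-- Forgetting the last coordinate. -/
noncomputable def dropLast (n : ℕ) : Euc (n + 1) →ₗ[ℝ] Euc n where
  toFun x := WithLp.toLp 2 fun i => x i.castSucc
  map_add' _ _ := rfl
  map_smul' _ _ := rfl

lemma dropLast_apply (x : Euc (n + 1)) (i : Fin n) : dropLast n x i = x i.castSucc := rfl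

lemma chart_castSucc (u : Par n) (i : Fin n) : chart n u i.castSucc = flat n u i := by
  simp [chart, flat]

lemma chart_last (u : Par n) : chart n u (Fin.last n) = Real.sqrt (1 - ‖flat n u‖ ^ 2) := by
  simp [chart]

lemma dropLast_chart (u : Par n) : dropLast n (chart n u) = flat n u := by
  ext i; rw [dropLast_apply, chart_castSucc]

lemma norm_sq_split (x : Euc (n + 1)) : ‖x‖ ^ 2 = ‖dropLast n x‖ ^ 2 + x (Fin.last n) ^ 2 := by
  simp [EuclideanSpace.norm_sq_eq, Fin.sum_univ_castSucc, dropLast_apply]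

lemma norm_dropLast_le (x : Euc (n + 1)) : ‖dropLast n x‖ ≤ ‖x‖ :=
  (sq_le_sq₀ (norm_nonneg _) (norm_nonneg _)).1 (by rw [norm_sq_split x]; nlinarith [sq_nonneg (x (Fin.last n))])

lemma flat_norm_le {u : Par n} (hu : u ∈ cube n) : ‖flat n u‖ ≤ 1 / 2 := by
  rcases Nat.eq_zero_or_pos n with h0 | hpos
  · subst h0
    have : flat 0 u = 0 := Subsingleton.elim _ _
    simp [this]
  have hnR : (0 : ℝ) < n := by exact_mod_cast hpos
  rw [EuclideanSpace.norm_eq, Real.sqrt_le_iff]
  refine ⟨by norm_num, ?_⟩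
  calc ∑ i, ‖flat n u i‖ ^ 2 ≤ ∑ _i : Fin n, (1 / 4 : ℝ) / n := by
        refine Finset.sum_le_sum fun i _ => ?_
        rw [flat_apply, Real.norm_eq_abs, sq_abs, div_pow, Real.sq_sqrt hnR.le]
        refine div_le_div_of_nonneg_right ?_ hnR.le
        obtain ⟨h1, h2⟩ := mem_cube.1 hu i
        nlinarith
    _ = (1 / 2) ^ 2 := by
        rw [Finset.sum_const, Finset.card_univ, Fintype.card_fin, nsmul_eq_mul]
        field_simp; ring

lemma continuous_chart : Continuous (chart n) := by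
  unfold chart
  refine (PiLp.continuous_toLp 2 (fun _ : Fin (n + 1) => ℝ)).comp (continuous_pi fun i => ?_)
  induction i using Fin.lastCases with
  | last => simp only [Fin.snoc_last]; exact (continuous_const.sub (continuous_flat.norm.pow 2)).sqrt
  | cast i => simp only [Fin.snoc_castSucc]; fun_prop

lemma norm_chart {u : Par n} (hu : u ∈ cube n) : ‖chart n u‖ = 1 := by
  have h1 : ‖chart n u‖ ^ 2 = 1 := by
    rw [norm_sq_split, dropLast_chart, chart_last, Real.sq_sqrt]
    · ring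
    · nlinarith [flat_norm_le hu, norm_nonneg (flat n u)]
  exact (pow_eq_one_iff_of_nonneg (norm_nonneg _) two_ne_zero).1 h1

lemma chart_dist {u v : Par n} (hu : u ∈ cube n) (hv : v ∈ cube n) :
    ‖chart n u - chart n v‖ ≤ 2 * ‖flat n u - flat n v‖ := by
  refine (sq_le_sq₀ (norm_nonneg _) (by positivity)).1 ?_
  rw [norm_sq_split, map_sub, dropLast_chart, dropLast_chart, PiLp.sub_apply, chart_last, chart_last]
  set a := ‖flat n u‖
  set b := ‖flat n v‖
  set δ := ‖flat n u - flat n v‖ with hδ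
  have ha := flat_norm_le hu
  have hb := flat_norm_le hv
  have ha0 : 0 ≤ a := norm_nonneg _
  have hb0 : 0 ≤ b := norm_nonneg _
  have hab : |a - b| ≤ δ := abs_norm_sub_norm_le _ _
  have hsa : (4 / 5 : ℝ) ≤ √(1 - a ^ 2) := by
    rw [Real.le_sqrt (by norm_num) (by nlinarith)]; nlinarith
  have hsb : (4 / 5 : ℝ) ≤ √(1 - b ^ 2) := by
    rw [Real.le_sqrt (by norm_num) (by nlinarith)]; nlinarith
  have hp : (√(1 - a ^ 2) - √(1 - b ^ 2)) * (√(1 - a ^ 2) + √(1 - b ^ 2)) = (b - a) * (b + a) := by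
    have e1 : √(1 - a ^ 2) * √(1 - a ^ 2) = 1 - a ^ 2 := Real.mul_self_sqrt (by nlinarith)
    have e2 : √(1 - b ^ 2) * √(1 - b ^ 2) = 1 - b ^ 2 := Real.mul_self_sqrt (by nlinarith)
    linear_combination e1 - e2
  have h2 : |√(1 - a ^ 2) - √(1 - b ^ 2)| ≤ δ := by
    have h3 : |√(1 - a ^ 2) - √(1 - b ^ 2)| * (√(1 - a ^ 2) + √(1 - b ^ 2)) = |b - a| * (b + a) := by
      have := congrArg abs hp
      rwa [abs_mul, abs_mul, abs_of_nonneg (by linarith : 0 ≤ √(1 - a ^ 2) + √(1 - b ^ 2)),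
        abs_of_nonneg (by linarith : 0 ≤ b + a)] at this
    rw [abs_sub_comm b a] at h3
    nlinarith [abs_nonneg (√(1 - a ^ 2) - √(1 - b ^ 2)), abs_nonneg (a - b)]
  nlinarith [sq_abs (√(1 - a ^ 2) - √(1 - b ^ 2)), abs_nonneg (√(1 - a ^ 2) - √(1 - b ^ 2)),
    norm_nonneg (flat n u - flat n v)]

/-- The distance of `z` to the subspace `V`. -/
noncomputable def dsub {d : ℕ} (V : Submodule ℝ (Euc d)) (z : Euc d) : ℝ :=
  ‖z - V.starProjection z‖

lemma dsub_nonneg {d : ℕ} (V : Submodule ℝ (Euc d)) (z : Euc d) : 0 ≤ dsub V z := norm_nonneg _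

lemma continuous_dsub {d : ℕ} (V : Submodule ℝ (Euc d)) : Continuous (dsub V) := by
  unfold dsub; fun_prop

lemma dsub_le {d : ℕ} (V : Submodule ℝ (Euc d)) (z : Euc d) {w : Euc d} (hw : w ∈ V) :
    dsub V z ≤ ‖z - w‖ := by
  rw [dsub, Submodule.starProjection_minimal]
  exact ciInf_le ⟨0, by rintro _ ⟨x, rfl⟩; exact norm_nonneg _⟩ (⟨w, hw⟩ : V)

lemma dsub_triangle {d : ℕ} (V : Submodule ℝ (Euc d)) (y z : Euc d) :
    dsub V y ≤ dsub V z + ‖y - z‖ := by
  calc dsub V y ≤ ‖y - V.starProjection z‖ := dsub_le V y (V.starProjection_apply_mem z)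
    _ = ‖(z - V.starProjection z) + (y - z)‖ := by congr 1; abel
    _ ≤ _ := norm_add_le _ _

lemma dsub_dropLast (V : Submodule ℝ (Euc (n + 1))) (z : Euc (n + 1)) :
    dsub (V.map (dropLast n)) (dropLast n z) ≤ dsub V z := by
  refine (dsub_le _ _ (Submodule.mem_map_of_mem (V.starProjection_apply_mem z))).trans ?_
  rw [← map_sub]
  exact norm_dropLast_le _

/-- The exponent of the Frostman bound. -/
def cof (n : ℕ) : ℕ := 3 * n / 4

lemma exists_scale {σ η : ℝ} (hσ : 0 < σ) (hη : 0 < η) {R : ℕ} (hR : σ * (1 / 2) ^ R ≤ η) (k : ℕ)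
    (D : ℝ) :
    (σ / max η D) ^ (4 * k) ≤ (2 : ℝ) ^ (40 * k) +
      ∑ r ∈ Finset.Ico 10 (R + 1), (2 : ℝ) ^ (4 * k * (r + 1)) *
        (if D ≤ σ * (1 / 2) ^ r then 1 else 0) := by
  have hsum : ∀ r ∈ Finset.Ico 10 (R + 1), (0 : ℝ) ≤ (2 : ℝ) ^ (4 * k * (r + 1)) *
        (if D ≤ σ * (1 / 2) ^ r then 1 else 0) := fun r _ => by split_ifs <;> positivity
  have hM : 0 < max η D := lt_max_of_lt_left hη
  by_cases h : σ / max η D ≤ 2 ^ 10
  · refine le_add_of_le_of_nonneg ?_ (Finset.sum_nonneg hsum)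
    rw [show 40 * k = 10 * (4 * k) by ring, pow_mul (2 : ℝ) 10]
    exact pow_le_pow_left₀ (by positivity) h _
  push Not at h
  have hex : ∃ r, σ / max η D ≤ 2 ^ (r + 1) ∧ r ≤ R := by
    refine ⟨R, ?_, le_rfl⟩
    rw [div_le_iff₀ hM]
    calc σ = σ * (1 / 2) ^ R * 2 ^ R := by rw [mul_assoc, ← mul_pow]; norm_num
      _ ≤ max η D * 2 ^ (R + 1) :=
          mul_le_mul (hR.trans (le_max_left _ _))
            (pow_le_pow_right₀ (by norm_num) (Nat.le_succ R)) (by positivity) hM.le
      _ = 2 ^ (R + 1) * max η D := mul_comm _ _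
  classical
  set r := Nat.find hex with hr
  obtain ⟨h1, h2⟩ := Nat.find_spec hex
  have h10 : 10 ≤ r := by
    by_contra hc
    have := (pow_le_pow_right₀ (by norm_num : (1 : ℝ) ≤ 2) (by omega : r + 1 ≤ 10))
    linarith
  have hlow : (2 : ℝ) ^ r < σ / max η D := by
    by_contra hc
    push Not at hc
    have := Nat.find_min hex (show r - 1 < r by omega)
    exact this ⟨by rwa [show r - 1 + 1 = r by omega], by omega⟩
  have hD : D ≤ σ * (1 / 2) ^ r := by
    rw [lt_div_iff₀ hM] at hlow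
    refine (le_max_right η D).trans ?_
    rw [one_div_pow, mul_one_div, le_div_iff₀ (by positivity)]
    linarith
  refine le_add_of_nonneg_of_le (by positivity) (le_trans ?_
    (Finset.single_le_sum hsum (Finset.mem_Ico.2 ⟨h10, by omega⟩ : r ∈ Finset.Ico 10 (R + 1))))
  rw [if_pos hD, mul_one, mul_comm (4 * k) (r + 1), pow_mul (2 : ℝ) (r + 1) (4 * k)]
  exact pow_le_pow_left₀ (by positivity) h1 _

/-- The negative moment of the distance to an affine subspace, for a Frostman weight. -/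
theorem moment_bound {l : ℕ} {c : Fin n → ℤ} (hc : c ∈ idxSet n l) {g : Par n → ℝ}
    (hg : IntegrableOn g (cellOf l c)) (hg0 : ∀ u, 0 ≤ g u) {Q : ℝ} (hQ : 1 ≤ Q)
    (hF : ∀ u ∈ cellOf l c, g u ≠ 0 → ∀ i, mass (l + i) g u ≤
      Q * (∫ v in cellOf l c, g v) * (1 / 2) ^ (cof n * i))
    (V : Submodule ℝ (Euc (n + 1))) (s0 : Euc (n + 1)) {q k : ℕ} (hn : 32 ≤ n) (hq : 32 * q ≤ n)
    (hk : 32 * k ≤ n) (hV : Module.finrank ℝ V ≤ q) {eta : ℝ} (heta : 0 < eta) :
    ∫ u in cellOf l c, g u * ((1 / 2) ^ l / max eta (dsub V (chart n u - s0))) ^ (4 * k) ≤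
      3 * (2 : ℝ) ^ (40 * k) * Q * ∫ v in cellOf l c, g v := by
  classical
  set σ : ℝ := (1 / 2) ^ l with hσd
  have hσ : 0 < σ := by positivity
  set M := ∫ v in cellOf l c, g v with hM
  have hM0 : 0 ≤ M := setIntegral_nonneg (measurableSet_cellOf l c) fun u _ => hg0 u
  set D := fun u => dsub V (chart n u - s0) with hD
  have hDc : Continuous D := (continuous_dsub V).comp (continuous_chart.sub continuous_const)
  obtain ⟨R, hR⟩ : ∃ R : ℕ, σ * (1 / 2) ^ R ≤ eta := by
    obtain ⟨R, hR⟩ := exists_pow_lt_of_lt_one (div_pos heta hσ) (by norm_num : (1 / 2 : ℝ) < 1)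
    rw [lt_div_iff₀ hσ] at hR
    exact ⟨R, by linarith⟩
  have hSm : ∀ r : ℕ, MeasurableSet {u | D u ≤ σ * (1 / 2) ^ r} := fun r =>
    (isClosed_le hDc continuous_const).measurableSet
  have hmass : ∀ r, 10 ≤ r → (2 : ℝ) ^ (4 * k * (r + 1)) *
      (∫ u in cellOf l c ∩ {u | D u ≤ σ * (1 / 2) ^ r}, g u) ≤
        (2 : ℝ) ^ (4 * k) * Q * M * (1 / 2) ^ (r - 10) := by
    intro r hr
    set F := (idxSet n (l + r)).filter fun c' => ∃ u ∈ cellOf (l + r) c',
      u ∈ cellOf l c ∧ g u ≠ 0 ∧ D u ≤ σ * (1 / 2) ^ r with hFd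
    have hFsub : ∀ c' ∈ F, cellOf (l + r) c' ⊆ cellOf l c := by
      intro c' hc'
      obtain ⟨u, hu1, hu2, -⟩ := (Finset.mem_filter.1 hc').2
      rw [← hu1.2, ← hu2.2]
      exact cellOf_subset
    have h1 : (∫ u in cellOf l c ∩ {u | D u ≤ σ * (1 / 2) ^ r}, g u) ≤
        ∑ c' ∈ F, ∫ u in cellOf (l + r) c', g u := by
      have hU : MeasurableSet (⋃ c' ∈ F, cellOf (l + r) c') :=
        Finset.measurableSet_biUnion _ fun c' _ => measurableSet_cellOf _ _
      rw [← integral_biUnion_finset _ (fun c' _ => measurableSet_cellOf _ _) (pairwise_cellOf _ _)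
          (fun c' hc' => hg.mono_set (hFsub c' hc')),
        ← integral_indicator ((measurableSet_cellOf l c).inter (hSm r)), ← integral_indicator hU]
      refine integral_mono
        ((hg.mono_set Set.inter_subset_left).integrable_indicator
          ((measurableSet_cellOf l c).inter (hSm r)))
        ((hg.mono_set (Set.iUnion₂_subset hFsub)).integrable_indicator hU) fun u => ?_
      by_cases hu : u ∈ cellOf l c ∩ {u | D u ≤ σ * (1 / 2) ^ r}
      · rw [Set.indicator_of_mem hu]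
        by_cases hg' : g u = 0
        · rw [hg']; exact Set.indicator_nonneg (fun v _ => hg0 v) _
        · rw [Set.indicator_of_mem]
          simp only [Set.mem_iUnion]
          exact ⟨idx (l + r) u, Finset.mem_filter.2 ⟨idx_mem hu.1.1, u, mem_cellOf_self hu.1.1,
            hu.1, hg', hu.2⟩, mem_cellOf_self hu.1.1⟩
      · rw [Set.indicator_of_notMem hu]; exact Set.indicator_nonneg (fun v _ => hg0 v) _
    have h2 : ∀ c' ∈ F, (∫ u in cellOf (l + r) c', g u) ≤ Q * M * (1 / 2) ^ (cof n * r) := by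
      intro c' hc'
      obtain ⟨u, hu1, hu2, hu3, -⟩ := (Finset.mem_filter.1 hc').2
      have := hF u hu2 hu3 r
      rwa [mass, hu1.2] at this
    set ρ : ℝ := 2 * (1 / 2) ^ (l + r) with hρ
    set W := V.map (dropLast n) with hW
    have hWq : Module.finrank ℝ W ≤ q := (Submodule.finrank_map_le _ _).trans hV
    have hsub : (⋃ c' ∈ F, cellOf (l + r) c') ⊆ cellOf l c ∩
        {u | ‖(flat n u - dropLast n s0) - W.starProjection (flat n u - dropLast n s0)‖ ≤ ρ} := by
      intro v hv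
      simp only [Set.mem_iUnion] at hv
      obtain ⟨c', hc', hv⟩ := hv
      refine ⟨hFsub c' hc' hv, ?_⟩
      obtain ⟨u, hu1, hu2, -, hu4⟩ := (Finset.mem_filter.1 hc').2
      have e1 := dsub_triangle W (flat n v - dropLast n s0) (flat n u - dropLast n s0)
      have e2 : dsub W (flat n u - dropLast n s0) ≤ D u := by
        have := dsub_dropLast V (chart n u - s0)
        rwa [map_sub, dropLast_chart] at this
      have e3 := flat_cell_dist (Finset.mem_filter.1 hc').1 hv hu1 (by omega)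
      rw [sub_sub_sub_cancel_right] at e1
      have e4 : σ * (1 / 2) ^ r = (1 / 2 : ℝ) ^ (l + r) := by rw [hσd, pow_add]
      show dsub W (flat n v - dropLast n s0) ≤ ρ
      rw [e4] at hu4
      linarith [hρ]
    have hlρ : (2 : ℝ) ^ l * ρ = 2 * (1 / 2) ^ r := by
      rw [hρ, pow_add, one_div_pow, one_div_pow]; field_simp
    have hlρ1 : (2 : ℝ) ^ l * ρ ≤ 1 := by
      rw [hlρ]
      have := pow_le_pow_of_le_one (by norm_num : (0 : ℝ) ≤ 1 / 2) (by norm_num) hr
      have h10 : (1 / 2 : ℝ) ^ 10 ≤ 1 / 2 := by norm_num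
      linarith
    have hcard : (F.card : ℝ) * (1 / 2) ^ ((l + r) * n) ≤
        (1 / 2 : ℝ) ^ (l * n) * ((9 : ℝ) ^ n * ((2 : ℝ) ^ l * ρ) ^ (n - q)) := by
      refine le_trans (le_of_eq ?_) ((measureReal_mono hsub
        (measure_inter_lt_top_of_left_ne_top (volume_cellOf_ne_top l c)).ne).trans
        (volume_nbhd (by omega) W (by omega) _ (by positivity) hlρ1 hc hWq))
      rw [measureReal_biUnion_finset (pairwise_cellOf _ _) (fun c' _ => measurableSet_cellOf _ _)
          (fun c' _ => volume_cellOf_ne_top _ _),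
        Finset.sum_congr rfl fun c' hc' => volume_real_cellOf (Finset.mem_filter.1 hc').1,
        Finset.sum_const, nsmul_eq_mul]
    have hF' : (F.card : ℝ) ≤ (2 : ℝ) ^ (5 * n + r * q) := by
      have e : (F.card : ℝ) ≤ (2 : ℝ) ^ (r * n) * ((9 : ℝ) ^ n * (2 * (1 / 2) ^ r) ^ (n - q)) := by
        rw [hlρ, add_mul l r n, pow_add] at hcard
        have h0 : (0 : ℝ) < (1 / 2) ^ (l * n) := by positivity
        have h1 : (2 : ℝ) ^ (r * n) * (1 / 2) ^ (r * n) = 1 := by
          rw [← mul_pow]; norm_num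
        have h4 : (F.card : ℝ) * (1 / 2) ^ (r * n) ≤ (9 : ℝ) ^ n * (2 * (1 / 2) ^ r) ^ (n - q) :=
          le_of_mul_le_mul_left (by linarith) h0
        calc (F.card : ℝ) = (2 : ℝ) ^ (r * n) * ((F.card : ℝ) * (1 / 2) ^ (r * n)) := by
              rw [mul_comm (F.card : ℝ), ← mul_assoc, h1, one_mul]
          _ ≤ _ := mul_le_mul_of_nonneg_left h4 (by positivity)
      refine e.trans ?_
      rw [mul_pow, ← pow_mul, show r * n = r * (n - q) + r * q by rw [← Nat.mul_add]; congr 1; omega,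
        pow_add, pow_add, one_div_pow]
      have h2 : (9 : ℝ) ^ n * (2 : ℝ) ^ (n - q) ≤ (2 : ℝ) ^ (5 * n) := by
        calc (9 : ℝ) ^ n * (2 : ℝ) ^ (n - q) ≤ (16 : ℝ) ^ n * (2 : ℝ) ^ n :=
              mul_le_mul (pow_le_pow_left₀ (by norm_num) (by norm_num) n)
                (pow_le_pow_right₀ (by norm_num) (Nat.sub_le n q)) (by positivity) (by positivity)
          _ = _ := by rw [← mul_pow, pow_mul]; norm_num
      calc (2 : ℝ) ^ (r * (n - q)) * 2 ^ (r * q) *
            ((9 : ℝ) ^ n * (2 ^ (n - q) * (1 / 2 ^ (r * (n - q)))))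
          = ((9 : ℝ) ^ n * 2 ^ (n - q)) * 2 ^ (r * q) := by field_simp
        _ ≤ _ := mul_le_mul_of_nonneg_right h2 (by positivity)
    have hexp : 5 * n + r * q + 4 * k * r + (r - 10) ≤ cof n * r := by
      obtain ⟨j, rfl⟩ : ∃ j, r = 10 + j := ⟨r - 10, by omega⟩
      have hj : j * (q + 4 * k + 1) ≤ j * cof n := Nat.mul_le_mul_left j (by unfold cof; omega)
      have h10 : 5 * n + 10 * q + 40 * k ≤ 10 * cof n := by unfold cof; omega
      rw [show 10 + j - 10 = j by omega]
      nlinarith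
    have h3 : (∫ u in cellOf l c ∩ {u | D u ≤ σ * (1 / 2) ^ r}, g u) ≤
        (2 : ℝ) ^ (5 * n + r * q) * (Q * M * (1 / 2) ^ (cof n * r)) := by
      refine h1.trans ((Finset.sum_le_card_nsmul _ _ _ h2).trans ?_)
      rw [nsmul_eq_mul]
      exact mul_le_mul_of_nonneg_right hF' (by positivity)
    calc _ ≤ (2 : ℝ) ^ (4 * k * (r + 1)) *
          ((2 : ℝ) ^ (5 * n + r * q) * (Q * M * (1 / 2) ^ (cof n * r))) :=
          mul_le_mul_of_nonneg_left h3 (by positivity)
      _ = (2 : ℝ) ^ (4 * k) * Q * M *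
          ((2 : ℝ) ^ (5 * n + r * q + 4 * k * r) * (1 / 2) ^ (cof n * r)) := by
          rw [mul_add, mul_one, pow_add, pow_add]; ring
      _ ≤ _ := by
          refine mul_le_mul_of_nonneg_left ?_ (by positivity)
          rw [one_div_pow, one_div_pow, mul_one_div, div_le_div_iff₀ (by positivity) (by positivity),
            one_mul, ← pow_add]
          exact pow_le_pow_right₀ (by norm_num) hexp
  have hgi : Integrable g (volume.restrict (cellOf l c)) := hg
  have hterm : ∀ r, Integrable (fun u => g u * ((2 : ℝ) ^ (4 * k * (r + 1)) *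
      (if D u ≤ σ * (1 / 2) ^ r then 1 else 0))) (volume.restrict (cellOf l c)) := by
    intro r
    refine hgi.mul_bdd (c := (2 : ℝ) ^ (4 * k * (r + 1))) ?_ (.of_forall fun u => ?_)
    · exact (measurable_const.mul (Measurable.ite (hSm r) measurable_const
        measurable_const)).aestronglyMeasurable
    · rw [Real.norm_eq_abs]; split_ifs <;> simp
  calc ∫ u in cellOf l c, g u * (σ / max eta (D u)) ^ (4 * k)
      ≤ ∫ u in cellOf l c, ((2 : ℝ) ^ (40 * k) * g u + ∑ r ∈ Finset.Ico 10 (R + 1),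
          g u * ((2 : ℝ) ^ (4 * k * (r + 1)) * (if D u ≤ σ * (1 / 2) ^ r then 1 else 0))) := by
        refine integral_mono_of_nonneg (.of_forall fun u => ?_)
          ((hgi.const_mul _).add (integrable_finsetSum _ fun r _ => hterm r))
          (.of_forall fun u => ?_)
        · exact mul_nonneg (hg0 u) (pow_nonneg (div_nonneg hσ.le (le_max_of_le_left heta.le)) _)
        · simp only [mul_comm ((2 : ℝ) ^ (40 * k)) (g u), ← Finset.mul_sum, ← mul_add]
          exact mul_le_mul_of_nonneg_left (exists_scale hσ heta hR k (D u)) (hg0 u)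
    _ = (2 : ℝ) ^ (40 * k) * M + ∑ r ∈ Finset.Ico 10 (R + 1), (2 : ℝ) ^ (4 * k * (r + 1)) *
          (∫ u in cellOf l c ∩ {u | D u ≤ σ * (1 / 2) ^ r}, g u) := by
        rw [integral_add (hgi.const_mul _) (integrable_finsetSum _ fun r _ => hterm r),
          integral_const_mul, integral_finsetSum _ fun r _ => hterm r]
        congr 1
        refine Finset.sum_congr rfl fun r _ => ?_
        rw [← setIntegral_indicator (hSm r), ← integral_const_mul]
        refine integral_congr_ae (.of_forall fun u => ?_)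
        simp only [Set.indicator_apply, Set.mem_ofPred_eq]
        split_ifs <;> ring
    _ ≤ (2 : ℝ) ^ (40 * k) * M +
          ∑ r ∈ Finset.Ico 10 (R + 1), (2 : ℝ) ^ (4 * k) * Q * M * (1 / 2) ^ (r - 10) :=
        (add_le_add_iff_left _).2
          (Finset.sum_le_sum fun r hr => hmass r (Finset.mem_Ico.1 hr).1)
    _ ≤ (2 : ℝ) ^ (40 * k) * M + (2 : ℝ) ^ (4 * k) * Q * M * 2 := by
        rw [← Finset.mul_sum, Finset.sum_Ico_eq_sum_range]
        simp only [Nat.add_sub_cancel_left]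
        exact (add_le_add_iff_left _).2
          (mul_le_mul_of_nonneg_left (sum_geometric_two_le _) (by positivity))
    _ ≤ _ := by
        have h4 : (2 : ℝ) ^ (4 * k) ≤ (2 : ℝ) ^ (40 * k) := pow_le_pow_right₀ (by norm_num) (by omega)
        have h5 : 0 ≤ (2 : ℝ) ^ (40 * k) * M := by positivity
        nlinarith [mul_le_mul_of_nonneg_right h4 (show 0 ≤ Q * M by positivity)]

end Vale.Agent.P309
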