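import Vale.Agent.P309.Step
import Mathlib.MeasureTheory.Function.ContinuousMapDense
import Mathlib.MeasureTheory.Function.Jacobian
import Mathlib.Analysis.Calculus.Deriv.MeanValue
import Mathlib.MeasureTheory.Measure.Decomposition.IntegralRNDeriv

/-!
Label noise of vanishing size is harmless on average over the chart.
-/

namespace Vale.Agent.P309

open MeasureTheory ProbabilityTheory Real Filter Topology
open scoped RealInnerProductSpace ENNReal

/-- Translation is continuous in weighted mean. -/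
lemma tendsto_translate {h ρ : ℝ → ℝ} (hm : Measurable h) (hb : ∀ y, 0 ≤ h y ∧ h y ≤ 1)
    (hρ : Integrable ρ) :
    Tendsto (fun s => ∫ y, ρ y * |h (y + s) - h y|) (𝓝 0) (𝓝 0) := by
  rw [Metric.tendsto_nhds]
  intro ε hε
  obtain ⟨g, hgs, hg, hgc, hgi⟩ :=
    hρ.exists_hasCompactSupport_integral_sub_le (show 0 < ε / 4 by positivity)
  obtain ⟨K, hK⟩ := hgc.bounded_above_of_compact_support hgs
  obtain ⟨R, hR⟩ := hgs.isCompact.isBounded.subset_closedBall (0 : ℝ)
  have hK0 : 0 ≤ K := (norm_nonneg _).trans (hK 0)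
  set I : Set ℝ := Metric.closedBall 0 (R + 1) with hI
  set h1 := I.indicator h with hh1
  have h1i : Integrable h1 := by
    rw [hh1, integrable_indicator_iff Metric.isClosed_closedBall.measurableSet]
    exact Measure.integrableOn_of_bounded (M := 1) measure_closedBall_lt_top.ne
      hm.aestronglyMeasurable (.of_forall fun y => by
        rw [Real.norm_eq_abs, abs_of_nonneg (hb y).1]; exact (hb y).2)
  obtain ⟨φ, hφs, hφ, hφc, hφi⟩ :=
    h1i.exists_hasCompactSupport_integral_sub_le (show 0 < ε / (8 * (K + 1)) by positivity)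
  obtain ⟨B, hB⟩ := hφc.bounded_above_of_compact_support hφs
  have hlast : Tendsto (fun s => ∫ y, |g y| * |φ (y + s) - φ y|) (𝓝 0) (𝓝 0) := by
    have h0 : (0 : ℝ) = ∫ y, |g y| * |φ (y + 0) - φ y| := by simp
    conv_rhs => rw [h0]
    refine tendsto_integral_filter_of_dominated_convergence (fun y => |g y| * (B + B))
      (.of_forall fun s => (Continuous.aestronglyMeasurable (by fun_prop)))
      (.of_forall fun s => .of_forall fun y => ?_) (hgi.abs.mul_const _) (.of_forall fun y => ?_)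
    · rw [Real.norm_eq_abs, abs_mul, abs_abs, abs_abs]
      exact mul_le_mul_of_nonneg_left ((abs_sub _ _).trans (add_le_add (hB _) (hB _))) (abs_nonneg _)
    · exact (Continuous.tendsto (by fun_prop) 0)
  have hball : ∀ᶠ s in 𝓝 (0 : ℝ), |s| ≤ 1 :=
    Filter.mem_of_superset (Metric.closedBall_mem_nhds _ one_pos) fun s hs => by simpa using hs
  filter_upwards [Metric.tendsto_nhds.1 hlast (ε / 4) (by positivity), hball] with s hs1 hs
  rw [Real.dist_eq, sub_zero] at hs1 ⊢
  set Δ : ℝ → ℝ := fun y => |h (y + s) - h y| with hΔ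
  have hΔm : Measurable Δ := ((hm.comp (measurable_id.add_const s)).sub hm).abs
  have hΔ1 : ∀ y, |Δ y| ≤ 1 := fun y => by
    rw [hΔ, abs_abs, abs_sub_le_iff]
    constructor <;> linarith [(hb y).1, (hb y).2, (hb (y + s)).1, (hb (y + s)).2]
  have iρ : Integrable fun y => ρ y * Δ y := hρ.mul_bdd (c := 1) hΔm.aestronglyMeasurable
    (.of_forall fun y => by rw [Real.norm_eq_abs]; exact hΔ1 y)
  have iψ : Integrable fun y => |h1 y - φ y| := (h1i.sub hφi).abs
  have iψs : Integrable fun y => |h1 (y + s) - φ (y + s)| := iψ.comp_add_right s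
  have igφ : Integrable fun y => |g y| * |φ (y + s) - φ y| :=
    hgi.abs.mul_bdd (c := B + B) (Continuous.aestronglyMeasurable (by fun_prop))
      (.of_forall fun y => by
        rw [Real.norm_eq_abs, abs_abs]; exact (abs_sub _ _).trans (add_le_add (hB _) (hB _)))
  have hpt : ∀ y, |ρ y * Δ y| ≤ |ρ y - g y| + (K * |h1 (y + s) - φ (y + s)| + K * |h1 y - φ y|) +
      |g y| * |φ (y + s) - φ y| := by
    intro y
    have e1 : |ρ y * Δ y| ≤ |ρ y - g y| + |g y| * Δ y := by
      rw [show ρ y * Δ y = (ρ y - g y) * Δ y + g y * Δ y by ring]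
      refine (abs_add_le _ _).trans (add_le_add ?_ ?_)
      · rw [abs_mul]; exact mul_le_of_le_one_right (abs_nonneg _) (hΔ1 y)
      · rw [abs_mul, abs_of_nonneg (abs_nonneg _ : 0 ≤ Δ y)]
    by_cases hgy : g y = 0
    · rw [hgy] at e1 ⊢
      simp only [sub_zero, abs_zero, zero_mul, add_zero] at e1 ⊢
      linarith [mul_nonneg hK0 (abs_nonneg (h1 (y + s) - φ (y + s))),
        mul_nonneg hK0 (abs_nonneg (h1 y - φ y))]
    have hy : |y| ≤ R := by simpa using hR (subset_tsupport g hgy)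
    have ey : h1 y = h y := Set.indicator_of_mem (by simp [hI]; linarith) h
    have eys : h1 (y + s) = h (y + s) :=
      Set.indicator_of_mem (by simp [hI]; linarith [abs_add_le y s]) h
    have e2 : Δ y ≤ |h1 (y + s) - φ (y + s)| + |φ (y + s) - φ y| + |h1 y - φ y| := by
      show |h (y + s) - h y| ≤ _
      rw [← ey, ← eys, abs_sub_comm (h1 y) (φ y)]
      exact (abs_sub_le _ (φ (y + s)) _).trans
        (by linarith [abs_sub_le (φ (y + s)) (φ y) (h1 y)])
    have hgK : |g y| ≤ K := hK y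
    have e3 := mul_le_mul_of_nonneg_left e2 (abs_nonneg (g y))
    have e4 := mul_le_mul_of_nonneg_right hgK (abs_nonneg (h1 (y + s) - φ (y + s)))
    have e5 := mul_le_mul_of_nonneg_right hgK (abs_nonneg (h1 y - φ y))
    linarith
  have iρg : Integrable fun y => |ρ y - g y| := (hρ.sub hgi).abs
  have iK : Integrable fun y => K * |h1 (y + s) - φ (y + s)| + K * |h1 y - φ y| :=
    (iψs.const_mul _).add (iψ.const_mul _)
  have i12 : Integrable fun y => |ρ y - g y| + (K * |h1 (y + s) - φ (y + s)| + K * |h1 y - φ y|) :=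
    iρg.add iK
  refine lt_of_le_of_lt (abs_integral_le_integral_abs.trans
    (integral_mono iρ.abs (i12.add igφ) hpt)) ?_
  simp only [Pi.add_apply]
  rw [integral_add i12 igφ, integral_add iρg iK, integral_add (iψs.const_mul _) (iψ.const_mul _),
    integral_const_mul, integral_const_mul,
    integral_add_right_eq_self (fun y => |h1 y - φ y|) s]
  simp only [Real.norm_eq_abs] at hg hφ
  have e6 : K * (∫ y, |h1 y - φ y|) ≤ ε / 8 := by
    calc K * (∫ y, |h1 y - φ y|) ≤ (K + 1) * (ε / (8 * (K + 1))) :=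
          mul_le_mul (by linarith) hφ (integral_nonneg fun y => abs_nonneg _) (by linarith)
      _ = ε / 8 := by field_simp
  have e7 := le_abs_self (∫ y, |g y| * |φ (y + s) - φ y|)
  linarith

/-- One coordinate of the chart pairing does not concentrate on null sets. -/
lemma null_slice {b C : ℝ} (hb : b ≠ 0) (hC : 1 / 2 ≤ C) {q : ℝ} (hq : 1 ≤ q) (a K : ℝ) {A : Set ℝ}
    (hA : MeasurableSet A) (hA0 : volume A = 0) :
    volume (Set.Icc (0 : ℝ) 1 ∩
      {t | a * ((t - 1 / 2) / q) + K + b * √(C - ((t - 1 / 2) / q) ^ 2) ∈ A}) = 0 := by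
  set f : ℝ → ℝ := fun t => a * ((t - 1 / 2) / q) + K + b * √(C - ((t - 1 / 2) / q) ^ 2)
  set f' : ℝ → ℝ := fun t => a * (1 / q) + b * (-(2 * ((t - 1 / 2) / q) * (1 / q)) /
    (2 * √(C - ((t - 1 / 2) / q) ^ 2)))
  have hq0 : (0 : ℝ) < q := by linarith
  have hpos : ∀ t ∈ Set.Icc (0 : ℝ) 1, 0 < C - ((t - 1 / 2) / q) ^ 2 := fun t ht => by
    have h1 : |(t - 1 / 2) / q| ≤ 1 / 2 := by
      rw [abs_div, abs_of_pos hq0, div_le_iff₀ hq0, abs_le]
      constructor <;> nlinarith [ht.1, ht.2]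
    nlinarith [sq_abs ((t - 1 / 2) / q), abs_nonneg ((t - 1 / 2) / q)]
  have hd : ∀ t ∈ Set.Icc (0 : ℝ) 1, HasDerivAt f (f' t) t := fun t ht => by
    have h1 : HasDerivAt (fun t : ℝ => (t - 1 / 2) / q) (1 / q) t :=
      ((hasDerivAt_id t).sub_const (1 / 2)).div_const q
    have h2 := ((h1.fun_pow 2).const_sub C).sqrt (hpos t ht).ne'
    have h3 := ((h1.const_mul a).add_const K).fun_add (h2.const_mul b)
    refine h3.congr_deriv ?_
    simp only [f']
    norm_num
  have huniq : ∀ t₁ ∈ Set.Icc (0 : ℝ) 1, ∀ t₂ ∈ Set.Icc (0 : ℝ) 1, f' t₁ = 0 → f' t₂ = 0 →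
      t₁ = t₂ := by
    intro t₁ h₁ t₂ h₂ e₁ e₂
    set s₁ := (t₁ - 1 / 2) / q with hs₁
    set s₂ := (t₂ - 1 / 2) / q with hs₂
    set r₁ := √(C - s₁ ^ 2)
    set r₂ := √(C - s₂ ^ 2)
    have r₁p : 0 < r₁ := Real.sqrt_pos.2 (hpos t₁ h₁)
    have r₂p : 0 < r₂ := Real.sqrt_pos.2 (hpos t₂ h₂)
    have k₁ : a * r₁ = b * s₁ := by
      simp only [f', ← hs₁] at e₁
      change a * (1 / q) + b * (-(2 * s₁ * (1 / q)) / (2 * r₁)) = 0 at e₁
      field_simp at e₁
      linarith
    have k₂ : a * r₂ = b * s₂ := by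
      simp only [f', ← hs₂] at e₂
      change a * (1 / q) + b * (-(2 * s₂ * (1 / q)) / (2 * r₂)) = 0 at e₂
      field_simp at e₂
      linarith
    have hx : s₁ * r₂ = s₂ * r₁ := mul_left_cancel₀ hb (by linear_combination (-r₂) * k₁ + r₁ * k₂)
    have q₁ : r₁ ^ 2 = C - s₁ ^ 2 := Real.sq_sqrt (hpos t₁ h₁).le
    have q₂ : r₂ ^ 2 = C - s₂ ^ 2 := Real.sq_sqrt (hpos t₂ h₂).le
    have hC0 : C ≠ 0 := by linarith
    have hsq : s₁ ^ 2 = s₂ ^ 2 := mul_left_cancel₀ hC0 (by
      linear_combination (s₁ * r₂ + s₂ * r₁) * hx - s₁ ^ 2 * q₂ + s₂ ^ 2 * q₁)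
    have hr : r₁ = r₂ := by
      rw [show r₁ = √(C - s₁ ^ 2) from rfl, hsq]
    rw [hr] at hx
    have := mul_right_cancel₀ r₂p.ne' hx
    rw [hs₁, hs₂, div_left_inj' hq0.ne'] at this
    linarith
  obtain ⟨z, hz⟩ : ∃ z, ∀ t ∈ Set.Icc (0 : ℝ) 1, t ≠ z → f' t ≠ 0 := by
    by_cases h : ∃ t ∈ Set.Icc (0 : ℝ) 1, f' t = 0
    · obtain ⟨z, hz1, hz2⟩ := h
      exact ⟨z, fun t ht hne he => hne (huniq t ht z hz1 he hz2)⟩
    · exact ⟨0, fun t ht _ he => h ⟨t, ht, he⟩⟩
  have key : ∀ s : Set ℝ, MeasurableSet s → s ⊆ Set.Icc 0 1 → Set.InjOn f s → z ∉ s →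
      volume (s ∩ f ⁻¹' A) = 0 := by
    intro s hs hsub hinj hzs
    have hcv := lintegral_image_eq_lintegral_abs_deriv_mul hs
      (fun t ht => (hd t (hsub ht)).hasDerivWithinAt) hinj (A.indicator fun _ => (1 : ℝ≥0∞))
    rw [lintegral_indicator hA, setLIntegral_one, Measure.restrict_apply hA,
      measure_mono_null Set.inter_subset_left hA0] at hcv
    have hfm : Measurable f := Continuous.measurable (by fun_prop)
    have hf'm : Measurable f' := Measurable.const_add (Measurable.const_mul (Measurable.div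
      (Continuous.measurable (by fun_prop)) (Continuous.measurable (by fun_prop))) b) _
    have h0 := (lintegral_eq_zero_iff (((hf'm.abs).ennreal_ofReal).mul
      ((measurable_const.indicator hA).comp hfm))).1 hcv.symm
    rw [Filter.EventuallyEq, ae_iff, Measure.restrict_apply' hs] at h0
    refine measure_mono_null (fun t ht => Set.mem_inter ?_ ht.1) h0
    have hne : f' t ≠ 0 := hz t (hsub ht.1) fun e => hzs (e ▸ ht.1)
    have hfA : f t ∈ A := ht.2
    simp [hfA, hne]
  have hinj : ∀ s : Set ℝ, s ⊆ Set.Icc 0 1 → (∀ x ∈ s, ∀ y ∈ s, ¬ (x < z ∧ z < y)) →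
      Set.InjOn f s := by
    intro s hsub hz' x hx y hy hxy
    by_contra hne
    have aux : ∀ x y, x ∈ s → y ∈ s → x < y → f x = f y → False := fun x y hx hy hlt he => by
      obtain ⟨c, hc, hc0⟩ := exists_hasDerivAt_eq_zero hlt
        (fun t ht => (hd t ⟨(hsub hx).1.trans ht.1, ht.2.trans (hsub hy).2⟩).continuousAt.continuousWithinAt)
        he (fun t ht => hd t ⟨(hsub hx).1.trans ht.1.le, ht.2.le.trans (hsub hy).2⟩)
      refine hz c ⟨(hsub hx).1.trans hc.1.le, hc.2.le.trans (hsub hy).2⟩ (fun e => ?_) hc0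
      subst e
      exact hz' x hx y hy hc
    rcases lt_or_gt_of_ne hne with h | h
    · exact aux x y hx hy h hxy
    · exact aux y x hy hx h hxy.symm
  refine measure_mono_null (t := (Set.Icc 0 1 ∩ Set.Iio z ∩ f ⁻¹' A) ∪
    ((Set.Icc 0 1 ∩ Set.Ioi z ∩ f ⁻¹' A) ∪ {z})) ?_ ?_
  · rintro t ⟨ht, htA⟩
    rcases lt_trichotomy t z with h | h | h
    · exact Or.inl ⟨⟨ht, h⟩, htA⟩
    · exact Or.inr (Or.inr h)
    · exact Or.inr (Or.inl ⟨⟨ht, h⟩, htA⟩)
  · refine measure_union_null (key _ (measurableSet_Icc.inter measurableSet_Iio)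
      Set.inter_subset_left (hinj _ Set.inter_subset_left fun x hx y hy h => ?_) ?_)
      (measure_union_null (key _ (measurableSet_Icc.inter measurableSet_Ioi)
      Set.inter_subset_left (hinj _ Set.inter_subset_left fun x hx y hy h => ?_) ?_) (by simp))
    · exact lt_asymm h.2 hy.2
    · exact fun h => lt_irrefl z h.2
    · exact lt_asymm h.1 hx.2
    · exact fun h => lt_irrefl z h.2

/-- The pairing with a vector that is not horizontal has an absolutely continuous law. -/
lemma map_pair_ac {m : ℕ} {x : Euc (m + 1 + 1)} (hx : x (Fin.last (m + 1)) ≠ 0) :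
    (cubeMeas (m + 1)).map (fun u => ⟪x, chart (m + 1) u⟫) ≪ volume := by
  refine Measure.AbsolutelyContinuous.mk fun A hA hA0 => ?_
  have hφ : Measurable fun u : Par (m + 1) => ⟪x, chart (m + 1) u⟫ :=
    (continuous_const.inner continuous_chart).measurable
  rw [Measure.map_apply hφ hA, cubeMeas, Measure.restrict_apply (hφ hA)]
  set P : Set (Par (m + 1)) := (fun u => ⟪x, chart (m + 1) u⟫) ⁻¹' A ∩ cube (m + 1)
  have hP : MeasurableSet P := (hφ hA).inter measurableSet_cube
  set e := (MeasurableEquiv.piFinSuccAbove (fun _ => ℝ) (0 : Fin (m + 1))).symm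
  have hmp : MeasurePreserving e ((volume : Measure ℝ).prod (volume : Measure (Par m))) volume :=
    (volume_preserving_piFinSuccAbove (fun _ => ℝ) (0 : Fin (m + 1))).symm
  rw [← hmp.measure_preimage_equiv, Measure.prod_apply_symm (e.measurable hP)]
  refine (lintegral_congr_ae (.of_forall fun w => ?_)).trans lintegral_zero
  show volume ((fun t => (t, w)) ⁻¹' (e ⁻¹' P)) = 0
  have hcons : ∀ t, e (t, w) = Fin.cons t w := fun t => by
    simp [e, MeasurableEquiv.piFinSuccAbove, Fin.insertNthEquiv, Fin.insertNth_zero']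
  by_cases hw : w ∈ cube m
  swap
  · refine measure_mono_null (fun t ht => ?_) measure_empty
    have h : e (t, w) ∈ cube (m + 1) := (ht : e (t, w) ∈ P).2
    rw [hcons] at h
    exact absurd (mem_cube.2 fun i => by simpa using mem_cube.1 h i.succ) hw
  set q : ℝ := √((m + 1 : ℕ) : ℝ) with hq
  have hq1 : 1 ≤ q := Real.one_le_sqrt.2 (by exact_mod_cast Nat.succ_pos m)
  set C : ℝ := 1 - ∑ i : Fin m, ((w i - 1 / 2) / q) ^ 2 with hC
  have hC2 : 1 / 2 ≤ C := by
    have hb : ∀ i : Fin m, ((w i - 1 / 2) / q) ^ 2 ≤ 1 / 4 / ((m + 1 : ℕ) : ℝ) := fun i => by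
      rw [div_pow, hq, Real.sq_sqrt (Nat.cast_nonneg _)]
      refine div_le_div_of_nonneg_right ?_ (Nat.cast_nonneg _)
      obtain ⟨h1, h2⟩ := mem_cube.1 hw i
      nlinarith
    have := Finset.sum_le_sum (s := Finset.univ) fun i _ => hb i
    rw [Finset.sum_const, Finset.card_univ, Fintype.card_fin, nsmul_eq_mul] at this
    have h4 : (m : ℝ) * (1 / 4 / ((m + 1 : ℕ) : ℝ)) ≤ 1 / 4 := by
      rw [← mul_div_assoc, div_le_iff₀ (by positivity)]; push_cast; nlinarith
    linarith
  refine measure_mono_null (fun t ht => ?_) (null_slice hx hC2 hq1 (x 0)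
    (∑ i : Fin m, x i.succ.castSucc * ((w i - 1 / 2) / q)) hA hA0)
  obtain ⟨hA', hc⟩ : e (t, w) ∈ (fun u => ⟪x, chart (m + 1) u⟫) ⁻¹' A ∧ e (t, w) ∈ cube (m + 1) := ht
  rw [hcons] at hA' hc
  obtain ⟨h0, h1⟩ := mem_cube.1 hc 0
  refine ⟨⟨by simpa using h0, by simpa using h1.le⟩, ?_⟩
  show _ ∈ A
  have heq : ⟪x, chart (m + 1) (Fin.cons t w : Par (m + 1))⟫ =
      x 0 * ((t - 1 / 2) / q) + (∑ i : Fin m, x i.succ.castSucc * ((w i - 1 / 2) / q)) +
        x (Fin.last (m + 1)) * √(C - ((t - 1 / 2) / q) ^ 2) := by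
    rw [PiLp.inner_apply, Fin.sum_univ_castSucc, chart_last, Fin.sum_univ_succ,
      EuclideanSpace.norm_sq_eq, Fin.sum_univ_succ]
    simp only [chart_castSucc, flat_apply, RCLike.inner_apply, Real.norm_eq_abs, sq_abs,
      Fin.cons_zero, Fin.cons_succ, hC, hq, conj_trivial]
    simp only [Fin.castSucc_zero, mul_comm]
    ring_nf
  rwa [Set.mem_preimage, heq] at hA'

variable {n : ℕ} {S : Type} [Fintype S] [DecidableEq S]

/-- Label noise of vanishing size is harmless. -/
theorem noiseVanishes (hn : 1 ≤ n) (C : Chan (n + 1) S) : NoiseVanishes C := by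
  obtain ⟨m, rfl⟩ : ∃ m, n = m + 1 := ⟨n - 1, by omega⟩
  intro t z z'
  set γ := (stdGaussian (Euc (m + 1 + 1))).prod (gaussianReal 0 1)
  set h : Euc (m + 1 + 1) → ℝ → ℝ := fun x y => C.K t z (x, y) z'
  have hh : Measurable fun p : Euc (m + 1 + 1) × ℝ => h p.1 p.2 := C.K_meas t z z'
  have hb : ∀ x y, 0 ≤ h x y ∧ h x y ≤ 1 := fun x y =>
    ⟨C.low_pos.le.trans (C.K_low _ _ _ _), chan_le_one C t z _ _⟩
  set D : ℝ → Par (m + 1) × (Euc (m + 1 + 1) × ℝ) → ℝ := fun eta p =>
    |h p.2.1 (⟪p.2.1, chart (m + 1) p.1⟫ + eta * p.2.2) - h p.2.1 ⟪p.2.1, chart (m + 1) p.1⟫|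
  have hcc := continuous_chart (n := m + 1)
  have hDm : ∀ eta, Measurable (D eta) := fun eta =>
    ((hh.comp (f := fun p : Par (m + 1) × (Euc (m + 1 + 1) × ℝ) =>
        (p.2.1, ⟪p.2.1, chart (m + 1) p.1⟫ + eta * p.2.2)) (Continuous.measurable (by fun_prop))).sub
      (hh.comp (f := fun p : Par (m + 1) × (Euc (m + 1 + 1) × ℝ) =>
        (p.2.1, ⟪p.2.1, chart (m + 1) p.1⟫)) (Continuous.measurable (by fun_prop)))).abs
  have hD1 : ∀ eta p, |D eta p| ≤ 1 := fun eta p => by
    rw [abs_abs, abs_sub_le_iff]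
    constructor <;> linarith [(hb p.2.1 (⟪p.2.1, chart (m + 1) p.1⟫ + eta * p.2.2)).1,
      (hb p.2.1 (⟪p.2.1, chart (m + 1) p.1⟫ + eta * p.2.2)).2,
      (hb p.2.1 ⟪p.2.1, chart (m + 1) p.1⟫).1, (hb p.2.1 ⟪p.2.1, chart (m + 1) p.1⟫).2]
  have hDi : ∀ eta, Integrable (D eta) ((cubeMeas (m + 1)).prod γ) := fun eta =>
    Integrable.of_bound (hDm eta).aestronglyMeasurable 1
      (.of_forall fun p => by rw [Real.norm_eq_abs]; exact hD1 eta p)
  have hle : ∀ eta u, |transNoisy (C.K t) eta (chart (m + 1) u) z z' -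
      trans (C.K t) (chart (m + 1) u) z z'| ≤ ∫ q, D eta (u, q) ∂γ := by
    intro eta u
    have i1 : Integrable (fun q : Euc (m + 1 + 1) × ℝ =>
        h q.1 (⟪q.1, chart (m + 1) u⟫ + eta * q.2)) γ :=
      Integrable.of_bound (hh.comp (f := fun q : Euc (m + 1 + 1) × ℝ =>
        (q.1, ⟪q.1, chart (m + 1) u⟫ + eta * q.2)) (Continuous.measurable (by fun_prop))).aestronglyMeasurable 1
        (.of_forall fun q => by rw [Real.norm_eq_abs, abs_of_nonneg (hb _ _).1]; exact (hb _ _).2)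
    have i2 : Integrable (fun q : Euc (m + 1 + 1) × ℝ => h q.1 ⟪q.1, chart (m + 1) u⟫) γ :=
      Integrable.of_bound (hh.comp (f := fun q : Euc (m + 1 + 1) × ℝ =>
        (q.1, ⟪q.1, chart (m + 1) u⟫)) (Continuous.measurable (by fun_prop))).aestronglyMeasurable 1
        (.of_forall fun q => by rw [Real.norm_eq_abs, abs_of_nonneg (hb _ _).1]; exact (hb _ _).2)
    have e1 : transNoisy (C.K t) eta (chart (m + 1) u) z z' =
        ∫ q, h q.1 (⟪q.1, chart (m + 1) u⟫ + eta * q.2) ∂γ := (integral_prod _ i1).symm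
    have e2 : trans (C.K t) (chart (m + 1) u) z z' = ∫ q, h q.1 ⟪q.1, chart (m + 1) u⟫ ∂γ := by
      rw [integral_prod _ i2]; simp [trans, h]
    rw [e1, e2, ← integral_sub i1 i2]
    exact abs_integral_le_integral_abs
  refine squeeze_zero (fun eta => integral_nonneg fun u => abs_nonneg _)
    (fun eta => (integral_mono_of_nonneg (.of_forall fun u => abs_nonneg _)
      (hDi eta).integral_prod_left (.of_forall (hle eta))).trans_eq
        (integral_integral_swap (hDi eta))) ?_
  rw [show 𝓝 (0 : ℝ) = 𝓝 (∫ _q, (0 : ℝ) ∂γ) by rw [integral_zero]]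
  refine tendsto_integral_filter_of_dominated_convergence (fun _ => 1)
    (.of_forall fun eta => (hDi eta).integral_prod_right.aestronglyMeasurable)
    (.of_forall fun eta => .of_forall fun q => ?_) (integrable_const _) ?_
  · rw [Real.norm_eq_abs]
    refine abs_integral_le_integral_abs.trans ((integral_mono_of_nonneg
      (.of_forall fun u => abs_nonneg _) (integrable_const 1)
      (.of_forall fun u => hD1 eta (u, q))).trans_eq (by simp))
  · have hlast : ∀ᵐ x ∂(stdGaussian (Euc (m + 1 + 1))), x (Fin.last (m + 1)) ≠ 0 := by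
      have hms : MeasurableSet {x : Euc (m + 1 + 1) | x (Fin.last (m + 1)) ≠ 0} :=
        (isOpen_ne_fun (by fun_prop) continuous_const).measurableSet
      rw [← map_pi_eq_stdGaussian, ae_map_iff (WithLp.measurable_toLp 2 _).aemeasurable hms]
      exact nullSingleton_pi (Fin.last (m + 1))
    filter_upwards [Measure.quasiMeasurePreserving_fst.ae hlast] with q hq
    set φ : Par (m + 1) → ℝ := fun u => ⟪q.1, chart (m + 1) u⟫ with hφdef
    have hφ : Measurable φ := (continuous_const.inner continuous_chart).measurable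
    set μ := (cubeMeas (m + 1)).map φ
    have hμ : IsProbabilityMeasure μ := Measure.isProbabilityMeasure_map hφ.aemeasurable
    have hlim := tendsto_translate (h := fun y => h q.1 y)
      (hh.comp (f := fun y : ℝ => (q.1, y)) (by fun_prop)) (hb q.1)
      (Measure.integrable_toReal_rnDeriv (μ := μ) (ν := volume))
    have h0 : Tendsto (fun eta : ℝ => eta * q.2) (nhdsWithin 0 (Set.Ioi 0)) (𝓝 0) :=
      tendsto_nhdsWithin_of_tendsto_nhds (Continuous.tendsto' (by fun_prop) 0 0 (zero_mul _))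
    refine (hlim.comp h0).congr fun eta => ?_
    show (∫ y, (μ.rnDeriv volume y).toReal * |h q.1 (y + eta * q.2) - h q.1 y|) = _
    simp only [← smul_eq_mul]
    rw [integral_rnDeriv_smul (map_pair_ac hq)]
    refine integral_map hφ.aemeasurable ?_
    exact ((hh.comp (f := fun y : ℝ => (q.1, y + eta • q.2)) (by fun_prop)).sub
      (hh.comp (f := fun y : ℝ => (q.1, y)) (by fun_prop))).abs.aestronglyMeasurable
where
  nullSingleton_pi {m : ℕ} (i : Fin (m + 1)) :
      ∀ᵐ x ∂(Measure.pi fun _ : Fin (m + 1) => gaussianReal 0 1), x i ≠ 0 := by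
    have : NullSingletonClass (gaussianReal 0 1) := nullSingletonClass_gaussianReal one_ne_zero
    exact (Measure.quasiMeasurePreserving_eval
      (fun _ : Fin (m + 1) => gaussianReal 0 1) i).ae (Measure.ae_ne _ 0)

end Vale.Agent.P309
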