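import Vale.Agent.P309.Moment

/-!
Noisy rows: their density and the few moments that are needed.
-/

namespace Vale.Agent.P309

open MeasureTheory ProbabilityTheory Real
open scoped RealInnerProductSpace

variable {d : ℕ}

/-- The Gaussian density with standard deviation `eta`. -/
noncomputable def gden (eta t : ℝ) : ℝ := (√(2 * π) * eta)⁻¹ * exp (-t ^ 2 / (2 * eta ^ 2))

lemma gden_pos {eta : ℝ} (h : 0 < eta) (t : ℝ) : 0 < gden eta t := by unfold gden; positivity

lemma gden_le {eta : ℝ} (h : 0 < eta) (t : ℝ) : gden eta t ≤ (√(2 * π) * eta)⁻¹ := by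
  refine mul_le_of_le_one_right (by positivity) (exp_le_one_iff.2 ?_)
  exact div_nonpos_of_nonpos_of_nonneg (by nlinarith [sq_nonneg t]) (by positivity)

lemma log_gden {eta : ℝ} (h : 0 < eta) (t : ℝ) :
    log (gden eta t) = -log (√(2 * π) * eta) - t ^ 2 / (2 * eta ^ 2) := by
  rw [gden, log_mul (by positivity) (exp_ne_zero _), log_inv, log_exp]; ring

lemma gden_eq {eta : ℝ} (h : 0 < eta) (a y : ℝ) :
    gden eta (y - a) = gaussianPDFReal a (Real.toNNReal (eta ^ 2)) y := by
  rw [gaussianPDFReal_def, gden]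
  simp only [Real.coe_toNNReal _ (sq_nonneg eta)]
  rw [sqrt_mul (by positivity : (0 : ℝ) ≤ 2 * π) (eta ^ 2), sqrt_sq h.le]

lemma measurable_gden (eta : ℝ) : Measurable (gden eta) := by unfold gden; fun_prop

lemma integrable_gden {eta : ℝ} (h : 0 < eta) (a : ℝ) : Integrable fun y => gden eta (y - a) := by
  simp_rw [gden_eq h]; exact integrable_gaussianPDFReal _ _

lemma integral_gden {eta : ℝ} (h : 0 < eta) (a : ℝ) : ∫ y, gden eta (y - a) = 1 := by
  simp_rw [gden_eq h]
  exact integral_gaussianPDFReal_eq_one _ (Real.toNNReal_pos.2 (by positivity)).ne'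

lemma gden_sq {eta : ℝ} (h : 0 < eta) (a : ℝ) :
    Integrable (fun y => gden eta (y - a) * (y - a) ^ 2) ∧
      ∫ y, gden eta (y - a) * (y - a) ^ 2 = eta ^ 2 := by
  have hv : (Real.toNNReal (eta ^ 2)) ≠ 0 := (Real.toNNReal_pos.2 (by positivity)).ne'
  have h2 : Integrable (fun y => gden eta y * y ^ 2) := by
    have hb : 0 < 1 / (2 * eta ^ 2) := by positivity
    have := ((integrable_rpow_mul_exp_neg_mul_sq hb (s := 2) (by norm_num)).const_mul
      (√(2 * π) * eta)⁻¹)
    refine this.congr (.of_forall fun y => ?_)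
    simp only [gden, rpow_two]
    rw [show -y ^ 2 / (2 * eta ^ 2) = -(1 / (2 * eta ^ 2)) * y ^ 2 by ring]
    ring
  refine ⟨h2.comp_sub_right a, ?_⟩
  rw [integral_sub_right_eq_self (fun y => gden eta y * y ^ 2) a]
  have h3 : Var[id; gaussianReal 0 (Real.toNNReal (eta ^ 2))] = eta ^ 2 := by
    rw [variance_id_gaussianReal, Real.coe_toNNReal _ (sq_nonneg eta)]
  rw [variance_of_integral_eq_zero aemeasurable_id (integral_id_gaussianReal (μ := 0)),
    integral_gaussianReal_eq_integral_smul hv] at h3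
  rw [← h3]
  refine integral_congr_ae (.of_forall fun y => ?_)
  simp [← gden_eq h 0 y]

/-- The space of one row with its label. -/
abbrev Row (d : ℕ) : Type := Euc d × ℝ

/-- The reference measure on rows. -/
noncomputable def rowBase (d : ℕ) : Measure (Row d) :=
  (stdGaussian (Euc d)).prod (volume : Measure ℝ)

instance : SigmaFinite (rowBase d) := by unfold rowBase; infer_instance

/-- The residual of a row at signal `s`. -/
noncomputable def resid (s : Euc d) (p : Row d) : ℝ := p.2 - ⟪p.1, s⟫

lemma measurable_resid (s : Euc d) : Measurable (resid s) :=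
  Continuous.measurable (by unfold resid; fun_prop)

/-- A function against the row density: integrability and Fubini. -/
lemma row_fubini {eta : ℝ} (h : 0 < eta) (s : Euc d) (φ : Euc d → ℝ)
    (hφ : Integrable φ (stdGaussian (Euc d))) :
    Integrable (fun p : Row d => φ p.1 * gden eta (resid s p)) (rowBase d) ∧
      ∫ p, φ p.1 * gden eta (resid s p) ∂(rowBase d) = ∫ x, φ x ∂(stdGaussian (Euc d)) := by
  have hint : Integrable (fun p : Row d => φ p.1 * gden eta (resid s p)) (rowBase d) := by
    rw [rowBase, integrable_prod_iff]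
    · refine ⟨.of_forall fun x => ((integrable_gden h ⟪x, s⟫).const_mul (φ x)).congr
        (.of_forall fun y => rfl), ?_⟩
      refine hφ.norm.congr (.of_forall fun x => ?_)
      simp only [norm_mul, integral_const_mul, resid]
      rw [integral_congr_ae (g := fun y => gden eta (y - ⟪x, s⟫))
        (.of_forall fun y => norm_of_nonneg (gden_pos h _).le), integral_gden h, mul_one]
    · exact (hφ.aestronglyMeasurable.comp_fst).mul
        ((measurable_gden eta).comp (measurable_resid s)).aestronglyMeasurable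
  refine ⟨hint, ?_⟩
  rw [rowBase] at hint ⊢
  rw [integral_prod _ hint]
  refine integral_congr_ae (.of_forall fun x => ?_)
  simp only [integral_const_mul, resid, integral_gden h, mul_one]

lemma row_one {eta : ℝ} (h : 0 < eta) (s : Euc d) :
    Integrable (fun p : Row d => gden eta (resid s p)) (rowBase d) ∧
      ∫ p, gden eta (resid s p) ∂(rowBase d) = 1 := by
  simpa using row_fubini h s (fun _ => 1) (integrable_const _)

lemma row_resid {eta : ℝ} (h : 0 < eta) (s : Euc d) :
    Integrable (fun p : Row d => gden eta (resid s p) * resid s p ^ 2) (rowBase d) ∧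
      ∫ p, gden eta (resid s p) * resid s p ^ 2 ∂(rowBase d) = eta ^ 2 := by
  have hint : Integrable (fun p : Row d => gden eta (resid s p) * resid s p ^ 2) (rowBase d) := by
    rw [rowBase, integrable_prod_iff]
    · refine ⟨.of_forall fun x => (gden_sq h ⟪x, s⟫).1.congr (.of_forall fun y => rfl),
        (integrable_const (eta ^ 2)).congr (.of_forall fun x => ?_)⟩
      simp only [resid]
      rw [integral_congr_ae (g := fun y => gden eta (y - ⟪x, s⟫) * (y - ⟪x, s⟫) ^ 2)
        (.of_forall fun y => norm_of_nonneg (mul_nonneg (gden_pos h _).le (sq_nonneg _))),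
        (gden_sq h _).2]
    · exact (((measurable_gden eta).comp (measurable_resid s)).mul
        ((measurable_resid s).pow_const 2)).aestronglyMeasurable
  refine ⟨hint, ?_⟩
  rw [rowBase] at hint ⊢
  rw [integral_prod _ hint]
  have : ∀ x : Euc d, ∫ y, gden eta (resid s (x, y)) * resid s (x, y) ^ 2 = eta ^ 2 :=
    fun x => (gden_sq h ⟪x, s⟫).2
  simp only [this, integral_const, probReal_univ, one_smul]

lemma integrable_inner_sq (v : Euc d) : Integrable (fun x => ⟪x, v⟫ ^ 2) (stdGaussian (Euc d)) := by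
  have : MemLp (fun x => ⟪x, v⟫) 2 (stdGaussian (Euc d)) :=
    (IsGaussian.memLp_dual (stdGaussian (Euc d)) (innerSL ℝ v) 2 (by simp)).congr_norm
      (Continuous.aestronglyMeasurable (by fun_prop))
      (.of_forall fun x => by simp [real_inner_comm])
  exact this.integrable_sq

lemma integral_inner_sq (v : Euc d) : ∫ x, ⟪x, v⟫ ^ 2 ∂(stdGaussian (Euc d)) = ‖v‖ ^ 2 := by
  have h := variance_dual_stdGaussian (E := Euc d) (innerSL ℝ v)
  rw [variance_of_integral_eq_zero (innerSL ℝ v).continuous.aemeasurable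
    (integral_strongDual_stdGaussian _), innerSL_apply_norm] at h
  rw [← h]
  exact integral_congr_ae (.of_forall fun x => by simp [real_inner_comm])

lemma integrable_norm_sq : Integrable (fun x => ‖x‖ ^ 2) (stdGaussian (Euc d)) :=
  (IsGaussian.memLp_two_id (μ := stdGaussian (Euc d))).norm.integrable_sq

/-- The expectation of the tilting exponent bounds the normalising constant from below. -/
lemma le_log_tilt {m : ℕ} {eta : ℝ} (heta : 0 < eta) (v : Fin m → Euc d) :
    -(∑ i, ‖v i‖ ^ 2) / (2 * eta ^ 2) ≤ log (tilt eta v) := by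
  set a := (∑ i, ‖v i‖ ^ 2) / (2 * eta ^ 2) with ha
  have hint : Integrable (fun x => (∑ i, ⟪x, v i⟫ ^ 2) / (2 * eta ^ 2)) (stdGaussian (Euc d)) :=
    (integrable_finsetSum _ fun i _ => integrable_inner_sq (v i)).div_const _
  have hmean : ∫ x, (∑ i, ⟪x, v i⟫ ^ 2) / (2 * eta ^ 2) ∂(stdGaussian (Euc d)) = a := by
    rw [integral_div, integral_finsetSum _ fun i _ => integrable_inner_sq (v i)]
    simp only [integral_inner_sq, ha]
  have hint2 : Integrable (fun x : Euc d => 1 + (a - (∑ i, ⟪x, v i⟫ ^ 2) / (2 * eta ^ 2)))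
      (stdGaussian (Euc d)) := (integrable_const 1).add ((integrable_const a).sub hint)
  have hone : ∫ x, (1 + (a - (∑ i, ⟪x, v i⟫ ^ 2) / (2 * eta ^ 2))) ∂(stdGaussian (Euc d)) = 1 := by
    have e1 : (fun x : Euc d => 1 + (a - (∑ i, ⟪x, v i⟫ ^ 2) / (2 * eta ^ 2))) =
        fun x => (1 + a) - (∑ i, ⟪x, v i⟫ ^ 2) / (2 * eta ^ 2) := by funext x; ring
    rw [e1, integral_sub (integrable_const _) hint, hmean]
    simp
  have h1 : exp (-a) ≤ tilt eta v := by
    calc exp (-a) = ∫ x, exp (-a) * (1 + (a - (∑ i, ⟪x, v i⟫ ^ 2) / (2 * eta ^ 2)))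
          ∂(stdGaussian (Euc d)) := by rw [integral_const_mul, hone, mul_one]
      _ ≤ tilt eta v := by
          refine integral_mono (hint2.const_mul _) (integrable_tilt eta v) fun x => ?_
          have h3 := add_one_le_exp (a - (∑ i, ⟪x, v i⟫ ^ 2) / (2 * eta ^ 2))
          calc exp (-a) * (1 + (a - (∑ i, ⟪x, v i⟫ ^ 2) / (2 * eta ^ 2)))
              ≤ exp (-a) * exp (a - (∑ i, ⟪x, v i⟫ ^ 2) / (2 * eta ^ 2)) :=
                mul_le_mul_of_nonneg_left (by linarith) (exp_pos _).le
            _ = _ := by rw [← exp_add]; congr 1; ring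
  rw [neg_div, ← ha]
  exact (le_log_iff_exp_le (tilt_pos _ _)).2 h1

/-- Gibbs: if `p * exp L ≤ q` then `∫ p * L ≤ ∫ q - ∫ p`. -/
lemma gibbs {α : Type*} [MeasurableSpace α] {μ : Measure α} {p q L : α → ℝ} (hp0 : ∀ x, 0 ≤ p x)
    (hp : Integrable p μ) (hq : Integrable q μ) (hpL : Integrable (fun x => p x * L x) μ)
    (h : ∀ x, p x * exp (L x) ≤ q x) :
    ∫ x, p x * L x ∂μ ≤ (∫ x, q x ∂μ) - ∫ x, p x ∂μ := by
  rw [← integral_sub hq hp]
  refine integral_mono hpL (hq.sub hp) fun x => ?_
  nlinarith [h x, mul_le_mul_of_nonneg_left (add_one_le_exp (L x)) (hp0 x)]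

end Vale.Agent.P309
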