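import Vale.Agent.P309.Iterate
import Vale.Agent.P309.Noise

/-!
Fewer than `n / 32` rows cannot tell two parameters apart.
-/

namespace Vale.Agent.P309

open MeasureTheory ProbabilityTheory Real Filter Topology
open scoped RealInnerProductSpace

variable {n : ℕ} {S : Type} [Fintype S] [DecidableEq S]

/-- The uniform weight on the whole cube. -/
noncomputable def cubeWgt (n : ℕ) : Wgt n where
  l := 0
  c := 0
  hc := by simp [idxSet]
  f := fun _ => 1
  meas := measurable_const
  nonneg := fun _ => zero_le_one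
  B := 1
  le_B := fun _ => le_rfl
  one := by
    have h : (0 : Fin n → ℤ) ∈ idxSet n 0 := by simp [idxSet]
    simp [setIntegral_const, volume_real_cellOf h]
  Q := 1
  one_le_Q := le_rfl
  frost := fun u hu _ i => by
    rw [mass, setIntegral_const, smul_eq_mul, mul_one, one_mul,
      volume_real_cellOf (idx_mem hu.1), Nat.zero_add, mul_comm i n]
    exact pow_le_pow_of_le_one (by norm_num) (by norm_num)
      (Nat.mul_le_mul_right i (show cof n ≤ n by unfold cof; omega))

lemma cubeWgt_cm1 (n : ℕ) : (cubeWgt n).cm1 = cubeMeas n := by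
  rw [Wgt.cm1, cubeMeas]
  congr 1
  refine Set.Subset.antisymm Set.inter_subset_left fun v hv => ⟨hv, funext fun i => ?_⟩
  obtain ⟨a, b⟩ := mem_cube.1 hv i
  simp [cubeWgt, idx, Int.floor_eq_zero_iff, a, b]

/-- A decoder that accepts two parameters at once only if their charts are `2ε`-close. -/
structure Decoder (n : ℕ) (S : Type) [Fintype S] (ε : ℝ) where
  o : S → Par n → ℝ
  meas : ∀ z, Measurable (o z)
  nonneg : ∀ z u, 0 ≤ o z u
  le_one : ∀ z u, o z u ≤ 1
  excl : ∀ z u v, 2 * ε < ‖chart n u - chart n v‖ → o z u + o z v ≤ 1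

/-- Success of a decoder after `T` rows. -/
noncomputable def Decoder.succ {ε : ℝ} (D : Decoder n S ε) (C : Chan (n + 1) S) (T : ℕ) : ℝ :=
  ∫ u, ∑ z, C.lk (chart n u) T z * D.o z u ∂(cubeMeas n)

lemma pair_close_le (hn : 1 ≤ n) {ε : ℝ} (hε : 0 < ε) (hε1 : 2 * ε ≤ 1) (u : Par n) :
    ∫ v, {p : Par n × Par n | ‖chart n p.1 - chart n p.2‖ ≤ 2 * ε}.indicator (fun _ => (1 : ℝ)) (u, v)
      ∂(cubeMeas n) ≤ (18 * ε) ^ n := by
  set A := {v : Par n | ‖chart n u - chart n v‖ ≤ 2 * ε}
  have hAm : MeasurableSet A :=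
    (isClosed_le (continuous_const.sub continuous_chart).norm continuous_const).measurableSet
  have e : ∫ v, {p : Par n × Par n | ‖chart n p.1 - chart n p.2‖ ≤ 2 * ε}.indicator
      (fun _ => (1 : ℝ)) (u, v) ∂(cubeMeas n) = (cubeMeas n).real A :=
    integral_indicator_one hAm
  rw [e, cubeMeas, measureReal_restrict_apply hAm]
  have hidx : (0 : Fin n → ℤ) ∈ idxSet n 0 := by simp [idxSet]
  have h := volume_nbhd hn (⊥ : Submodule ℝ (Euc n)) (by simp) (flat n u)
    (show 0 < 2 * ε by positivity) (l := 0) (by simpa using hε1) hidx (q := 0) (by simp)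
  simp only [pow_zero, Nat.zero_mul, one_mul, Nat.sub_zero] at h
  rw [show 18 * ε = 9 * (2 * ε) by ring, mul_pow]
  refine le_trans (measureReal_mono ?_ ?_) h
  · rintro v ⟨hv, hc⟩
    refine ⟨⟨hc, funext fun i => ?_⟩, ?_⟩
    · obtain ⟨a, b⟩ := mem_cube.1 hc i
      simp [idx, Int.floor_eq_zero_iff, a, b]
    · show ‖_‖ ≤ 2 * ε
      rw [Submodule.starProjection_bot]
      simp only [_root_.zero_apply, sub_zero]
      rw [← dropLast_chart, ← dropLast_chart, ← map_sub, ← norm_neg, ← map_neg, neg_sub]
      exact (norm_dropLast_le _).trans hv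
  · exact (lt_of_le_of_lt (measure_mono (Set.inter_subset_left.trans Set.inter_subset_left))
      (by simp [volume_cube])).ne

/-- With at most `n / 32` rows, success above one half is paid by the window. -/
theorem short_bound (C : Chan (n + 1) S) (hn : 32 ≤ n) {T : ℕ} (hT : 32 * T ≤ n) {ε : ℝ}
    (hε : 0 < ε) (hε1 : 2 * ε ≤ 1) (D : Decoder n S ε) {t : ℝ} (ht : 0 ≤ t)
    (htb : exp t * (18 * ε) ^ n ≤ 1) :
    t * (2 * D.succ C T - 1) ≤ 16 * T + 2 := by
  set w := cubeWgt n with hw
  have hcm : w.cm1 = cubeMeas n := cubeWgt_cm1 n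
  set O : Par n → (Fin T → Row (n + 1)) → ℝ :=
    fun u W => ∑ y, ∑ z, C.init y * winK C 0 T W y z * D.o z u with hO
  have hK0 : ∀ W y z, 0 ≤ winK C 0 T W y z := fun W y z => (winK_props C 0 T y).2.1 W z
  have hK1 : ∀ W y, ∑ z, winK C 0 T W y z = 1 := fun W y => (winK_props C 0 T y).2.2.1 W
  have hmass : ∀ W, ∑ y, ∑ z, C.init y * winK C 0 T W y z = 1 := fun W => by
    simp [← Finset.mul_sum, hK1, C.init_sum]
  have hOm : Measurable fun p : Par n × (Fin T → Row (n + 1)) => O p.1 p.2 := by
    refine Finset.measurable_sum _ fun y _ => Finset.measurable_sum _ fun z _ => ?_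
    exact (measurable_const.mul (((winK_props C 0 T y).1 z).comp measurable_snd)).mul
      ((D.meas z).comp measurable_fst)
  have hO01 : ∀ u W, 0 ≤ O u W ∧ O u W ≤ 1 := fun u W => by
    refine ⟨Finset.sum_nonneg fun y _ => Finset.sum_nonneg fun z _ =>
      mul_nonneg (mul_nonneg (C.init_pos y).le (hK0 W y z)) (D.nonneg z u), ?_⟩
    rw [← hmass W]
    exact Finset.sum_le_sum fun y _ => Finset.sum_le_sum fun z _ =>
      mul_le_of_le_one_right (mul_nonneg (C.init_pos y).le (hK0 W y z)) (D.le_one z u)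
  set P := {p : Par n × Par n | ‖chart n p.1 - chart n p.2‖ ≤ 2 * ε}
  have hP : MeasurableSet P := (isClosed_le ((continuous_chart.comp continuous_fst).sub
    (continuous_chart.comp continuous_snd)).norm continuous_const).measurableSet
  have hOP : ∀ u v W, O u W + O v W ≤ 1 + P.indicator (fun _ => (1 : ℝ)) (u, v) := by
    intro u v W
    by_cases h : (u, v) ∈ P
    · rw [Set.indicator_of_mem h]
      linarith [(hO01 u W).2, (hO01 v W).2]
    · rw [Set.indicator_of_notMem h, add_zero, ← hmass W, hO]
      simp only [← Finset.sum_add_distrib, ← mul_add]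
      exact Finset.sum_le_sum fun y _ => Finset.sum_le_sum fun z _ =>
        mul_le_of_le_one_right (mul_nonneg (C.init_pos y).le (hK0 W y z))
          (D.excl z u v (not_le.1 h))
  set sN : ℝ → ℝ := fun eta =>
    ∫ u, ∑ y, ∑ z, C.init y * (winNoisy C eta 0 T u y z * D.o z u) ∂(cubeMeas n)
  have hev : ∀ᶠ eta in nhdsWithin (0 : ℝ) (Set.Ioi 0), t * (2 * sN eta - 1) ≤ 16 * T + 2 := by
    filter_upwards [self_mem_nhdsWithin, nhdsWithin_le_nhds (Iio_mem_nhds one_pos)] with eta h1 h2
    have heta : 0 < eta := h1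
    have hfO : Integrable (fun p : Par n × (Fin T → Row (n + 1)) =>
        w.fpsi eta p.1 p.2 * O p.1 p.2) (w.cm1.prod (wBase (n + 1) T)) :=
      w.int_fpsi_bdd heta hOm (C := 1) fun p => by
        rw [abs_of_nonneg (hO01 _ _).1]; exact (hO01 _ _).2
    have hval : ∫ p, w.fpsi eta p.1 p.2 * O p.1 p.2 ∂(w.cm1.prod (wBase (n + 1) T)) = sN eta := by
      rw [integral_prod _ hfO, hcm]
      refine integral_congr_ae (.of_forall fun u => ?_)
      have hi : ∀ y z, Integrable (fun W => C.init y * (Wgt.psi eta u W * winK C 0 T W y z * D.o z u))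
          (wBase (n + 1) T) := fun y z =>
        (((Wgt.psi_int heta u).1.mul_bdd (c := 1) ((winK_props C 0 T y).1 z).aestronglyMeasurable
          (.of_forall fun W => by
            rw [Real.norm_eq_abs, abs_of_nonneg (hK0 W y z), ← hK1 W y]
            exact Finset.single_le_sum (fun x _ => hK0 W y x) (Finset.mem_univ z))).mul_const _).const_mul _
      have e : ∀ W, w.fpsi eta u W * O u W =
          ∑ y, ∑ z, C.init y * (Wgt.psi eta u W * winK C 0 T W y z * D.o z u) := fun W => by
        simp only [hO, Wgt.fpsi, hw, cubeWgt, one_mul, Finset.mul_sum]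
        exact Finset.sum_congr rfl fun y _ => Finset.sum_congr rfl fun z _ => by ring
      show ∫ W, w.fpsi eta u W * O u W ∂(wBase (n + 1) T) = _
      simp only [e]
      rw [integral_finsetSum _ fun y _ => integrable_finsetSum _ fun z _ => hi y z]
      refine Finset.sum_congr rfl fun y _ => ?_
      rw [integral_finsetSum _ fun z _ => hi y z]
      refine Finset.sum_congr rfl fun z _ => ?_
      rw [integral_const_mul, integral_mul_const, ← gfun_winK C heta 0 T u y z]
      rfl
    obtain ⟨i0, e0⟩ := w.pid_marginal (m := 1) heta 0 (g := O) hOm hfO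
    obtain ⟨i1, e1⟩ := w.pid_marginal (m := 1) heta 1 (g := O) hOm hfO
    obtain ⟨ip, ep⟩ := w.pid_int (m := 1) (k := T) heta
    have hPi : Integrable (fun p : (Fin 2 → Par n) × (Fin T → Row (n + 1)) =>
        w.pid eta p * P.indicator (fun _ => (1 : ℝ)) (p.1 0, p.1 1))
        ((w.cm 1).prod (wBase (n + 1) T)) :=
      ip.mul_bdd (c := 1) ((measurable_const.indicator hP).comp
        (((measurable_pi_apply 0).comp measurable_fst).prodMk
          ((measurable_pi_apply 1).comp measurable_fst))).aestronglyMeasurable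
        (.of_forall fun p => by
          rcases Set.indicator_eq_zero_or_self P (fun _ => (1 : ℝ)) (p.1 0, p.1 1) with h | h <;>
            simp [h])
    have h2c := w.two_copies hn hT heta (le_of_lt (by simpa [hw, cubeWgt] using h2)) hP
      (β := (18 * ε) ^ n) (fun u => by
        rw [hcm]
        simp only [hw, cubeWgt, one_mul]
        exact pair_close_le (by omega) hε hε1 u) ht htb
    have hkey : 2 * sN eta - 1 ≤
        ∫ p, w.pid eta p * P.indicator (fun _ => (1 : ℝ)) (p.1 0, p.1 1) ∂(w.big 1 T) := by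
      have hb : ∫ p, (w.pid eta p * O (p.1 0) p.2 + w.pid eta p * O (p.1 1) p.2)
            ∂((w.cm 1).prod (wBase (n + 1) T)) ≤
          ∫ p, (w.pid eta p + w.pid eta p * P.indicator (fun _ => (1 : ℝ)) (p.1 0, p.1 1))
            ∂((w.cm 1).prod (wBase (n + 1) T)) := by
        refine integral_mono (i0.add i1) (ip.add hPi) fun p => ?_
        rw [← mul_add]
        exact (mul_le_mul_of_nonneg_left (hOP _ _ _) (w.pid_nonneg heta p)).trans_eq (by ring)
      rw [integral_add i0 i1, integral_add ip hPi, e0, e1, hval, ep] at hb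
      show 2 * sN eta - 1 ≤ ∫ p, _ ∂((w.cm 1).prod (wBase (n + 1) T))
      linarith
    calc t * (2 * sN eta - 1) ≤ _ := mul_le_mul_of_nonneg_left hkey ht
      _ ≤ 16 * T + 2 + log w.Q := h2c
      _ = _ := by simp [hw, cubeWgt]
  have hlk : ∀ u z, C.lk (chart n u) T z = ∑ y, C.init y * winExact C 0 T u y z := fun u z => by
    have h := lk_window C u 0 T z
    rw [Nat.zero_add] at h
    simpa [Chan.lk] using h
  have hNb : ∀ eta u y z, 0 ≤ winNoisy C eta 0 T u y z ∧ winNoisy C eta 0 T u y z ≤ 1 :=
    fun eta u y z => by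
      obtain ⟨h0, h1, -⟩ := winNoisy_props C eta 0 u T y
      exact ⟨h0 z, h1 ▸ Finset.single_le_sum (fun x _ => h0 x) (Finset.mem_univ z)⟩
  have hEb : ∀ u y z, 0 ≤ winExact C 0 T u y z ∧ winExact C 0 T u y z ≤ 1 := fun u y z => by
    obtain ⟨h0, h1, -⟩ := winExact_props C 0 u T y
    exact ⟨h0 z, h1 ▸ Finset.single_le_sum (fun x _ => h0 x) (Finset.mem_univ z)⟩
  have hiy : ∀ (f : Par n → ℝ), Measurable f → (∀ u, 0 ≤ f u ∧ f u ≤ 1) → ∀ z,
      Integrable (fun u => f u * D.o z u) (cubeMeas n) := fun f hf hb z =>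
    Integrable.of_bound (hf.mul (D.meas z)).aestronglyMeasurable 1 (.of_forall fun u => by
      rw [Real.norm_eq_abs, abs_of_nonneg (mul_nonneg (hb u).1 (D.nonneg z u))]
      exact mul_le_one₀ (hb u).2 (D.nonneg z u) (D.le_one z u))
  have hN := noiseVanishes (by omega : 1 ≤ n) C
  have hlim : Tendsto sN (nhdsWithin 0 (Set.Ioi 0)) (𝓝 (D.succ C T)) := by
    have e1 : ∀ eta, sN eta = ∑ y, ∑ z,
        C.init y * ∫ u, winNoisy C eta 0 T u y z * D.o z u ∂(cubeMeas n) := fun eta => by
      have hi : ∀ y z, Integrable (fun u => C.init y * (winNoisy C eta 0 T u y z * D.o z u))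
          (cubeMeas n) := fun y z =>
        (hiy _ (measurable_winNoisy C eta 0 T y z) (fun u => hNb eta u y z) z).const_mul _
      show ∫ u, _ ∂(cubeMeas n) = _
      rw [integral_finsetSum _ fun y _ => integrable_finsetSum _ fun z _ => hi y z]
      refine Finset.sum_congr rfl fun y _ => ?_
      rw [integral_finsetSum _ fun z _ => hi y z]
      simp only [integral_const_mul]
    have e2 : D.succ C T = ∑ y, ∑ z,
        C.init y * ∫ u, winExact C 0 T u y z * D.o z u ∂(cubeMeas n) := by
      have hi : ∀ y z, Integrable (fun u => C.init y * (winExact C 0 T u y z * D.o z u))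
          (cubeMeas n) := fun y z =>
        (hiy _ (measurable_winExact C 0 T y z) (fun u => hEb u y z) z).const_mul _
      simp only [Decoder.succ, hlk, Finset.sum_mul, mul_assoc]
      rw [integral_finsetSum _ fun z _ => integrable_finsetSum _ fun y _ => hi y z, Finset.sum_comm]
      refine Finset.sum_congr rfl fun z _ => ?_
      rw [integral_finsetSum _ fun y _ => hi y z]
      simp only [integral_const_mul]
    rw [funext e1, e2]
    refine tendsto_finsetSum _ fun y _ => tendsto_finsetSum _ fun z _ => Tendsto.const_mul _ ?_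
    rw [tendsto_iff_norm_sub_tendsto_zero]
    refine squeeze_zero (fun eta => norm_nonneg _) (fun eta => ?_) (tendsto_winNoisy C hN 0 T y z)
    have j1 := hiy _ (measurable_winNoisy C eta 0 T y z) (fun u => hNb eta u y z) z
    have j2 := hiy _ (measurable_winExact C 0 T y z) (fun u => hEb u y z) z
    rw [← integral_sub j1 j2]
    refine (norm_integral_le_integral_norm _).trans (integral_mono_of_nonneg
      (.of_forall fun u => norm_nonneg _) ?_ (.of_forall fun u => ?_))
    · refine Integrable.of_bound (((measurable_winNoisy C eta 0 T y z).sub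
        (measurable_winExact C 0 T y z)).abs).aestronglyMeasurable 1 (.of_forall fun u => ?_)
      rw [Real.norm_eq_abs, abs_abs, abs_sub_le_iff]
      constructor <;> linarith [(hNb eta u y z).1, (hNb eta u y z).2, (hEb u y z).1, (hEb u y z).2]
    · simp only [← sub_mul, norm_mul, Real.norm_eq_abs, abs_of_nonneg (D.nonneg z u)]
      exact mul_le_of_le_one_right (abs_nonneg _) (D.le_one z u)
  exact le_of_tendsto (((hlim.const_mul 2).sub_const 1).const_mul t) hev

end Vale.Agent.P309
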