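import Vale.Agent.P309.Compose
import Vale.Agent.P309.Ent

/-!
One step of the potential: reveal a finer cell, then run one window.
-/

namespace Vale.Agent.P309

open MeasureTheory ProbabilityTheory Real Filter Topology
open scoped RealInnerProductSpace

variable {n : ℕ}

/-- The hypothesis that label noise of vanishing size is harmless. -/
def NoiseVanishes {S : Type} [Fintype S] (C : Chan (n + 1) S) : Prop :=
  ∀ (t : ℕ) (z z' : S), Tendsto (fun eta => ∫ u, |transNoisy (C.K t) eta (chart n u) z z' -
    trans (C.K t) (chart n u) z z'| ∂(cubeMeas n)) (nhdsWithin 0 (Set.Ioi 0)) (nhds 0)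

lemma mul_log_lipschitz {low x y : ℝ} (hlow : 0 < low) (hx : low ≤ x) (hy : low ≤ y) (hx1 : x ≤ 1)
    (hy1 : y ≤ 1) : |x * log x - y * log y| ≤ (1 / low + |log low|) * |x - y| := by
  have hxp := hlow.trans_le hx
  have hyp := hlow.trans_le hy
  have h1 : |log x - log y| ≤ |x - y| / low := by
    rw [← log_div hxp.ne' hyp.ne', abs_le]
    have a := log_le_sub_one_of_pos (div_pos hxp hyp)
    have b := log_le_sub_one_of_pos (div_pos hyp hxp)
    rw [log_div hxp.ne' hyp.ne'] at a ⊢
    rw [log_div hyp.ne' hxp.ne'] at b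
    have a' : x / y - 1 ≤ |x - y| / low := by
      rw [div_sub_one hyp.ne']
      exact (div_le_div_of_nonneg_right (le_abs_self _) hyp.le).trans
        (div_le_div_of_nonneg_left (abs_nonneg _) hlow hy)
    have b' : y / x - 1 ≤ |x - y| / low := by
      rw [div_sub_one hxp.ne', abs_sub_comm]
      exact (div_le_div_of_nonneg_right (le_abs_self _) hxp.le).trans
        (div_le_div_of_nonneg_left (abs_nonneg _) hlow hx)
    constructor <;> linarith
  have h2 : |log y| ≤ |log low| := by
    rw [abs_of_nonpos (log_nonpos hyp.le hy1)]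
    exact (neg_le_neg (log_le_log hlow hy)).trans (neg_le_abs _)
  calc |x * log x - y * log y| = |x * (log x - log y) + (x - y) * log y| := by congr 1; ring
    _ ≤ |x * (log x - log y)| + |(x - y) * log y| := abs_add_le _ _
    _ ≤ |x - y| / low + |x - y| * |log low| := by
      rw [abs_mul, abs_mul, abs_of_pos hxp]
      exact add_le_add ((mul_le_of_le_one_left (abs_nonneg _) hx1).trans h1)
        (mul_le_mul_of_nonneg_left h2 (abs_nonneg _))
    _ = _ := by ring

variable {S : Type} [Fintype S] [DecidableEq S]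

/-- The gain over one exact window inside a cell. -/
theorem gain_exact (C : Chan (n + 1) S) (hN : NoiseVanishes C) (w : Wgt n) (hn : 32 ≤ n) {k : ℕ}
    (hk1 : 1 ≤ k) (hk : 32 * k ≤ n) (t : ℕ) (z : S) :
    ∑ z', ((∫ u, w.f u * (winExact C t k u z z' * log (winExact C t k u z z')) ∂w.cm1) -
        (∫ u, w.f u * winExact C t k u z z' ∂w.cm1) *
          log (∫ u, w.f u * winExact C t k u z z' ∂w.cm1)) ≤
      log (Fintype.card S) / (k + 1) + 16 * k + 1 + log w.Q := by
  set G : (S → Par n → ℝ) → ℝ := fun g =>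
    ∑ z', ((∫ u, w.f u * (g z' u * log (g z' u)) ∂w.cm1) -
        (∫ u, w.f u * g z' u ∂w.cm1) * log (∫ u, w.f u * g z' u ∂w.cm1))
  set gN : ℝ → S → Par n → ℝ := fun eta z' u => winNoisy C eta t k u z z'
  set gE : S → Par n → ℝ := fun z' u => winExact C t k u z z'
  have hle : ∀ᶠ eta in nhdsWithin (0 : ℝ) (Set.Ioi 0),
      G (gN eta) ≤ log (Fintype.card S) / (k + 1) + 16 * k + 1 + log w.Q := by
    filter_upwards [self_mem_nhdsWithin, nhdsWithin_le_nhds
      (Iio_mem_nhds (show (0 : ℝ) < (1 / 2) ^ w.l by positivity))] with eta h1 h2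
    have := w.gain_le hn hk (show 0 < eta from h1) (le_of_lt h2) (fun W => winK C t k W z)
      (fun z' => (winK_props C t k z).1 z') C.low_pos (fun W z' => (winK_props C t k z).2.2.2 hk1 W z')
      (fun W => (winK_props C t k z).2.2.1 W)
    simp only [gfun_winK C (show 0 < eta from h1)] at this
    exact this
  have hE : ∀ z' u, C.low ≤ gE z' u ∧ gE z' u ≤ 1 := fun z' u => by
    obtain ⟨h0, h1, h2⟩ := winExact_props C t u k z
    exact ⟨h2 hk1 z', h1 ▸ Finset.single_le_sum (fun y _ => h0 y) (Finset.mem_univ z')⟩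
  have hNb : ∀ eta z' u, C.low ≤ gN eta z' u ∧ gN eta z' u ≤ 1 := fun eta z' u => by
    obtain ⟨h0, h1, h2⟩ := winNoisy_props C eta t u k z
    exact ⟨h2 hk1 z', h1 ▸ Finset.single_le_sum (fun y _ => h0 y) (Finset.mem_univ z')⟩
  have hint : ∀ (φ : Par n → ℝ) (c : ℝ), Measurable φ → (∀ u, |φ u| ≤ c) →
      Integrable (fun u => w.f u * φ u) w.cm1 := fun φ c hφ hb =>
    w.int_f.mul_bdd (c := c) hφ.aestronglyMeasurable
      (.of_forall fun u => by rw [Real.norm_eq_abs]; exact hb u)
  have hsub : w.cm1 ≤ cubeMeas n := Measure.restrict_mono Set.inter_subset_left le_rfl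
  have hdiff : ∀ z', Tendsto (fun eta => ∫ u, w.f u * |gN eta z' u - gE z' u| ∂w.cm1)
      (nhdsWithin 0 (Set.Ioi 0)) (nhds 0) := by
    intro z'
    have hlim := (tendsto_winNoisy C hN t k z z').const_mul w.B
    rw [mul_zero] at hlim
    refine squeeze_zero (fun eta => integral_nonneg fun u => mul_nonneg (w.nonneg u) (abs_nonneg _))
      (fun eta => ?_) hlim
    have hm : Measurable fun u => |gN eta z' u - gE z' u| :=
      ((measurable_winNoisy C eta t k z z').sub (measurable_winExact C t k z z')).abs
    have hb : ∀ u, |(|gN eta z' u - gE z' u|)| ≤ 1 := fun u => by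
      rw [abs_abs, abs_sub_le_iff]
      constructor <;> linarith [(hE z' u).1, (hE z' u).2, (hNb eta z' u).1, (hNb eta z' u).2, C.low_pos]
    have hic : Integrable (fun u => |gN eta z' u - gE z' u|) (cubeMeas n) :=
      Integrable.of_bound hm.aestronglyMeasurable 1
        (.of_forall fun u => by rw [Real.norm_eq_abs]; exact hb u)
    calc ∫ u, w.f u * |gN eta z' u - gE z' u| ∂w.cm1
        ≤ ∫ u, w.B * |gN eta z' u - gE z' u| ∂w.cm1 :=
          integral_mono (hint _ 1 hm hb) ((hic.mono_measure hsub).const_mul _)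
            fun u => mul_le_mul_of_nonneg_right (w.le_B u) (abs_nonneg _)
      _ ≤ w.B * ∫ u, |gN eta z' u - gE z' u| ∂(cubeMeas n) := by
          rw [integral_const_mul]
          refine mul_le_mul_of_nonneg_left
            (integral_mono_measure hsub (.of_forall fun u => abs_nonneg _) hic) ?_
          exact (w.nonneg (fun _ => 0)).trans (w.le_B _)
  have hA : ∀ z', Tendsto (fun eta => ∫ u, w.f u * gN eta z' u ∂w.cm1)
      (nhdsWithin 0 (Set.Ioi 0)) (nhds (∫ u, w.f u * gE z' u ∂w.cm1)) := by
    intro z'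
    rw [tendsto_iff_norm_sub_tendsto_zero]
    refine squeeze_zero (fun eta => norm_nonneg _) (fun eta => ?_) (hdiff z')
    have i1 := hint (gN eta z') 1 (measurable_winNoisy C eta t k z z') (fun u => by
      rw [abs_of_pos (C.low_pos.trans_le (hNb eta z' u).1)]; exact (hNb eta z' u).2)
    have i2 := hint (gE z') 1 (measurable_winExact C t k z z') (fun u => by
      rw [abs_of_pos (C.low_pos.trans_le (hE z' u).1)]; exact (hE z' u).2)
    rw [← integral_sub i1 i2]
    refine (norm_integral_le_integral_norm _).trans_eq (integral_congr_ae (.of_forall fun u => ?_))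
    dsimp only
    rw [← mul_sub, norm_mul, Real.norm_eq_abs, Real.norm_eq_abs, abs_of_nonneg (w.nonneg u)]
  have hB' : ∀ z', Tendsto (fun eta => ∫ u, w.f u * (gN eta z' u * log (gN eta z' u)) ∂w.cm1)
      (nhdsWithin 0 (Set.Ioi 0)) (nhds (∫ u, w.f u * (gE z' u * log (gE z' u)) ∂w.cm1)) := by
    intro z'
    rw [tendsto_iff_norm_sub_tendsto_zero]
    have hlim := (hdiff z').const_mul (1 / C.low + |log C.low|)
    rw [mul_zero] at hlim
    refine squeeze_zero (fun eta => norm_nonneg _) (fun eta => ?_) hlim
    have mN := measurable_winNoisy C eta t k z z'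
    have mE := measurable_winExact C t k z z'
    have hb : ∀ x, C.low ≤ x → x ≤ 1 → |x * log x| ≤ 1 := fun x h1 h2 =>
      abs_mul_log_le_one (C.low_pos.le.trans h1) h2
    have i1 := hint (fun u => gN eta z' u * log (gN eta z' u)) 1
      (mN.mul (measurable_log.comp mN)) (fun u => hb _ (hNb eta z' u).1 (hNb eta z' u).2)
    have i2 := hint (fun u => gE z' u * log (gE z' u)) 1
      (mE.mul (measurable_log.comp mE)) (fun u => hb _ (hE z' u).1 (hE z' u).2)
    rw [← integral_sub i1 i2, ← integral_const_mul]
    refine (norm_integral_le_integral_norm _).trans (integral_mono (i1.sub i2).norm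
      ((hint (fun u => |gN eta z' u - gE z' u|) 1 (mN.sub mE).abs (fun u => by
        rw [abs_abs, abs_sub_le_iff]
        constructor <;> linarith [(hE z' u).1, (hE z' u).2, (hNb eta z' u).1, (hNb eta z' u).2,
          C.low_pos])).const_mul _) fun u => ?_)
    dsimp only
    rw [← mul_sub, norm_mul, Real.norm_eq_abs, Real.norm_eq_abs, abs_of_nonneg (w.nonneg u),
      mul_left_comm]
    exact mul_le_mul_of_nonneg_left (mul_log_lipschitz C.low_pos (hNb eta z' u).1 (hE z' u).1
      (hNb eta z' u).2 (hE z' u).2) (w.nonneg u)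
  have hG : Tendsto (fun eta => G (gN eta)) (nhdsWithin 0 (Set.Ioi 0)) (nhds (G gE)) :=
    tendsto_finsetSum _ fun z' _ => (hB' z').sub ((continuous_mul_log.tendsto _).comp (hA z'))
  exact le_of_tendsto hG hle

/-- A window inside the cells of level `L`. -/
theorem gain_label (C : Chan (n + 1) S) (hN : NoiseVanishes C) (hn : 32 ≤ n) {k : ℕ} (hk1 : 1 ≤ k)
    (hk : 32 * k ≤ n) (t : ℕ) (z : S) {a b : Par n → ℝ} (ha : Sub01 a) (hb : Sub01 b)
    (hba : ∀ u ∈ cube n, b u ≤ a u) (L : ℕ)
    (hF : ∀ u ∈ cube n, b u ≠ 0 → ∀ i, mass (L + i) b u ≤ mass L a u * (1 / 2) ^ (cof n * i)) :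
    ∑ z', ent L (fun u => b u * winExact C t k u z z') ≤
      ent L b + (log (Fintype.card S) / (k + 1) + 16 * k + 1) * ∫ u, b u ∂(cubeMeas n) +
        ∫ u, b u * log (mass L a u / mass L b u) ∂(cubeMeas n) := by
  set c₁ : ℝ := log (Fintype.card S) / (k + 1) + 16 * k + 1
  set g : S → Par n → ℝ := fun z' u => winExact C t k u z z'
  have hg : ∀ z' u, C.low ≤ g z' u ∧ g z' u ≤ 1 := fun z' u => by
    obtain ⟨h0, h1, h2⟩ := winExact_props C t u k z
    exact ⟨h2 hk1 z', h1 ▸ Finset.single_le_sum (fun y _ => h0 y) (Finset.mem_univ z')⟩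
  have hbg : ∀ z', Sub01 fun u => b u * g z' u := fun z' =>
    ⟨hb.meas.mul (measurable_winExact C t k z z'),
      fun u hu => mul_nonneg (hb.nonneg u hu) (C.low_pos.le.trans (hg z' u).1),
      fun u hu => mul_le_one₀ (hb.le_one u hu) (C.low_pos.le.trans (hg z' u).1) (hg z' u).2⟩
  set G : (Fin n → ℤ) → ℝ :=
    fun c => log ((∫ v in cellOf L c, a v) / ∫ v in cellOf L c, b v)
  have hQi : Integrable (fun u => b u * log (mass L a u / mass L b u)) (cubeMeas n) :=
    hb.integrable_mul_idx L G
  have hsumi : Integrable (fun u => ∑ z', b u * g z' u * log (b u * g z' u /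
      mass L (fun v => b v * g z' v) u)) (cubeMeas n) :=
    integrable_finsetSum _ fun z' _ => (hbg z').ent_integrable L
  have h2i : Integrable (fun u => b u * log (b u / mass L b u) + c₁ * b u) (cubeMeas n) :=
    (hb.ent_integrable L).add (hb.integrable.const_mul c₁)
  have hLHS : ∑ z', ent L (fun u => b u * g z' u) = ∫ u, (∑ z', b u * g z' u * log (b u * g z' u /
      mass L (fun v => b v * g z' v) u)) ∂(cubeMeas n) := by
    rw [integral_finsetSum _ fun z' _ => (hbg z').ent_integrable L]; rfl
  have hRHS : ent L b + c₁ * ∫ u, b u ∂(cubeMeas n) +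
      ∫ u, b u * log (mass L a u / mass L b u) ∂(cubeMeas n) =
      ∫ u, (b u * log (b u / mass L b u) + c₁ * b u + b u * log (mass L a u / mass L b u))
        ∂(cubeMeas n) := by
    rw [integral_add h2i hQi, integral_add (hb.ent_integrable L) (hb.integrable.const_mul c₁),
      integral_const_mul]
    rfl
  have h3i : Integrable (fun u => b u * log (b u / mass L b u) + c₁ * b u +
      b u * log (mass L a u / mass L b u)) (cubeMeas n) := h2i.add hQi
  show ∑ z', ent L (fun u => b u * g z' u) ≤ _
  rw [hLHS, hRHS, integral_cube_eq_sum hsumi L, integral_cube_eq_sum h3i L]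
  refine Finset.sum_le_sum fun c hc => ?_
  set M := ∫ v in cellOf L c, b v with hM
  set Ma := ∫ v in cellOf L c, a v with hMa
  have hb0 : 0 ≤ᵐ[volume.restrict (cellOf L c)] b :=
    ae_restrict_of_forall_mem (measurableSet_cellOf L c) fun v hv => hb.nonneg v hv.1
  have hbi : IntegrableOn b (cellOf L c) := integrableOn_cell hb.integrable L c
  rcases (integral_nonneg_of_ae hb0).eq_or_lt with h0 | h0
  · have hz := (integral_eq_zero_iff_of_nonneg_ae hb0 hbi).1 h0.symm
    refine le_of_eq (integral_congr_ae (hz.mono fun u hu => ?_))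
    simp only [Pi.zero_apply] at hu
    simp [hu]
  rw [← hM] at h0
  have hMle : M ≤ Ma := setIntegral_mono_on hbi (integrableOn_cell ha.integrable L c)
    (measurableSet_cellOf L c) fun v hv => hba v hv.1
  let w : Wgt n :=
    { l := L
      c := c
      hc := hc
      f := fun u => (cellOf L c).indicator b u / M
      meas := (hb.meas.indicator (measurableSet_cellOf L c)).div_const _
      nonneg := fun u => div_nonneg (Set.indicator_apply_nonneg fun hu => hb.nonneg u hu.1) h0.le
      B := 1 / M
      le_B := fun u => by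
        refine div_le_div_of_nonneg_right ?_ h0.le
        by_cases hu : u ∈ cellOf L c
        · rw [Set.indicator_of_mem hu]; exact hb.le_one u hu.1
        · rw [Set.indicator_of_notMem hu]; exact zero_le_one
      one := by
        rw [integral_div, setIntegral_congr_fun (measurableSet_cellOf L c) (g := b)
          (fun u hu => Set.indicator_of_mem hu b), ← hM, div_self h0.ne']
      Q := Ma / M
      one_le_Q := by rw [le_div_iff₀ h0, one_mul]; exact hMle
      frost := fun u hu hf i => by
        rw [Set.indicator_of_mem hu] at hf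
        have hbu : b u ≠ 0 := fun h => hf (by rw [h, zero_div])
        have hmu : mass L a u = Ma := by rw [mass, idx_eq_of_mem hu]
        have hsub : cellOf (L + i) (idx (L + i) u) ⊆ cellOf L c := by
          have := cellOf_subset (l := L) (i := i) (u := u)
          rwa [idx_eq_of_mem hu] at this
        show ∫ v in cellOf (L + i) (idx (L + i) u), (cellOf L c).indicator b v / M ≤ _
        rw [integral_div, setIntegral_congr_fun (measurableSet_cellOf _ _) (g := b)
          (fun v hv => Set.indicator_of_mem (hsub hv) b), div_le_iff₀ h0]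
        refine (hF u hu.1 hbu i).trans_eq ?_
        rw [hmu]; field_simp }
  have hgain := gain_exact C hN w hn hk1 hk t z
  have hwf : ∀ (φ : Par n → ℝ), ∫ u, w.f u * φ u ∂w.cm1 = (∫ u in cellOf L c, b u * φ u) / M := by
    intro φ
    rw [← integral_div]
    refine setIntegral_congr_fun (measurableSet_cellOf L c) fun u hu => ?_
    simp only [w, Set.indicator_of_mem hu]; ring
  simp only [hwf] at hgain
  set Z : S → ℝ := fun z' => ∫ u in cellOf L c, b u * g z' u with hZdef
  have hZpos : ∀ z', 0 < Z z' := fun z' => by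
    refine lt_of_lt_of_le (mul_pos C.low_pos h0) ?_
    rw [hM, ← integral_const_mul]
    exact setIntegral_mono_on (hbi.const_mul _) (integrableOn_cell (hbg z').integrable L c)
      (measurableSet_cellOf L c) fun v hv => by
        rw [mul_comm]; exact mul_le_mul_of_nonneg_left (hg z' v).1 (hb.nonneg v hv.1)
  have hgs : ∀ u, ∑ z', g z' u = 1 := fun u => (winExact_props C t u k z).2.1
  have hZs : ∑ z', Z z' = M := by
    simp only [hZdef]
    rw [← integral_finsetSum _ fun z' _ => integrableOn_cell (hbg z').integrable L c, hM]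
    refine setIntegral_congr_fun (measurableSet_cellOf L c) fun u _ => ?_
    simp only [← Finset.mul_sum, hgs, mul_one]
  have hgli : ∀ z', IntegrableOn (fun u => b u * (g z' u * log (g z' u))) (cellOf L c) := fun z' =>
    hbi.mul_bdd (c := 1) ((measurable_winExact C t k z z').mul (measurable_log.comp
      (measurable_winExact C t k z z'))).aestronglyMeasurable
      (.of_forall fun u => by
        rw [Real.norm_eq_abs]
        exact abs_mul_log_le_one (C.low_pos.le.trans (hg z' u).1) (hg z' u).2)
  have hbli : IntegrableOn (fun u => b u * log (b u / M)) (cellOf L c) := by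
    refine (integrableOn_cell (hb.ent_integrable L) L c).congr_fun (fun u hu => ?_)
      (measurableSet_cellOf L c)
    simp only [mass, idx_eq_of_mem hu, ← hM]
  have hexp : ∫ u in cellOf L c, (∑ z', b u * g z' u * log (b u * g z' u /
      mass L (fun v => b v * g z' v) u)) = ∫ u in cellOf L c, (b u * log (b u / M) +
        ∑ z', (b u * (g z' u * log (g z' u)) - b u * g z' u * log (Z z' / M))) := by
    refine setIntegral_congr_fun (measurableSet_cellOf L c) fun u hu => ?_
    simp only [mass, idx_eq_of_mem hu]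
    by_cases hbu : b u = 0
    · simp [hbu]
    have e : ∀ z', b u * g z' u * log (b u * g z' u / Z z') =
        g z' u * (b u * log (b u / M)) +
          (b u * (g z' u * log (g z' u)) - b u * g z' u * log (Z z' / M)) := by
      intro z'
      have hgp := C.low_pos.trans_le (hg z' u).1
      rw [log_div (mul_ne_zero hbu hgp.ne') (hZpos z').ne', log_mul hbu hgp.ne',
        log_div hbu h0.ne', log_div (hZpos z').ne' h0.ne']
      ring
    show ∑ z', b u * g z' u * log (b u * g z' u / Z z') = _
    simp only [e, Finset.sum_add_distrib, ← Finset.sum_mul, hgs, one_mul]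
  have hti : ∀ z', IntegrableOn (fun u => b u * (g z' u * log (g z' u)) -
      b u * g z' u * log (Z z' / M)) (cellOf L c) := fun z' =>
    (hgli z').sub ((integrableOn_cell (hbg z').integrable L c).mul_const _)
  have hRc : ∫ u in cellOf L c, (b u * log (b u / mass L b u) + c₁ * b u +
      b u * log (mass L a u / mass L b u)) =
      (∫ u in cellOf L c, b u * log (b u / M)) + M * (c₁ + log (Ma / M)) := by
    rw [hM, ← integral_mul_const]
    rw [← integral_add hbli (hbi.mul_const _)]
    refine setIntegral_congr_fun (measurableSet_cellOf L c) fun u hu => ?_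
    simp only [mass, idx_eq_of_mem hu, ← hM, ← hMa]; ring
  rw [hexp, integral_add hbli (integrable_finsetSum _ fun z' _ => hti z'), hRc,
    integral_finsetSum _ fun z' _ => hti z']
  refine (add_le_add_iff_left _).2 ?_
  have hterm : ∀ z', ∫ u in cellOf L c, (b u * (g z' u * log (g z' u)) -
      b u * g z' u * log (Z z' / M)) =
      M * ((∫ u in cellOf L c, b u * (g z' u * log (g z' u))) / M - Z z' / M * log (Z z' / M)) := by
    intro z'
    rw [integral_sub (hgli z') ((integrableOn_cell (hbg z').integrable L c).mul_const _),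
      integral_mul_const]
    have e : ∀ x y l : ℝ, M * (x / M - y / M * l) = x - y * l := fun x y l => by field_simp
    rw [e]
  simp only [hterm, ← Finset.mul_sum]
  exact mul_le_mul_of_nonneg_left hgain h0.le

/-- The mass of the parent against the mass of a piece. -/
lemma log_ratio_le {a b : Par n → ℝ} (ha : Sub01 a) (hb : Sub01 b) (hba : ∀ u ∈ cube n, b u ≤ a u)
    (L r : ℕ) :
    ∫ u, b u * log (mass L a u / mass L b u) ∂(cubeMeas n) ≤
      r * ∫ u, b u ∂(cubeMeas n) + (1 / 2 : ℝ) ^ (r + 1) * ∫ u, a u ∂(cubeMeas n) := by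
  have hQi : Integrable (fun u => b u * log (mass L a u / mass L b u)) (cubeMeas n) :=
    hb.integrable_mul_idx L fun c => log ((∫ v in cellOf L c, a v) / ∫ v in cellOf L c, b v)
  rw [integral_cube_eq_sum hQi L, integral_cube_eq_sum hb.integrable L,
    integral_cube_eq_sum ha.integrable L, Finset.mul_sum, Finset.mul_sum, ← Finset.sum_add_distrib]
  refine Finset.sum_le_sum fun c _ => ?_
  rw [setIntegral_congr_fun (measurableSet_cellOf L c)
    (g := fun u => b u * log ((∫ v in cellOf L c, a v) / ∫ v in cellOf L c, b v))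
    (fun u hu => by simp only [mass, idx_eq_of_mem hu]), integral_mul_const]
  set A := ∫ v in cellOf L c, a v
  set B := ∫ v in cellOf L c, b v
  have hB : 0 ≤ B := setIntegral_nonneg (measurableSet_cellOf L c) fun v hv => hb.nonneg v hv.1
  have hA : B ≤ A := setIntegral_mono_on (integrableOn_cell hb.integrable L c)
    (integrableOn_cell ha.integrable L c) (measurableSet_cellOf L c) fun v hv => hba v hv.1
  rcases hB.eq_or_lt with h | h
  · rw [← h]; simp only [zero_mul, mul_zero, zero_add]; exact mul_nonneg (by positivity) (hB.trans hA)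
  · have h1 := add_one_le_exp (log (A / B) - ((r + 1 : ℕ) : ℝ))
    rw [exp_sub, exp_log (div_pos (h.trans_le hA) h)] at h1
    have h2 : (2 : ℝ) ^ (r + 1) ≤ exp ((r + 1 : ℕ) : ℝ) := by
      rw [← mul_one ((r + 1 : ℕ) : ℝ), exp_nat_mul]
      exact pow_le_pow_left₀ (by norm_num) (by have := add_one_le_exp (1 : ℝ); linarith) _
    have h3 : A / B / exp ((r + 1 : ℕ) : ℝ) ≤ A / B * (1 / 2) ^ (r + 1) := by
      rw [one_div_pow, mul_one_div]
      exact div_le_div_of_nonneg_left (div_nonneg (hB.trans hA) hB) (by positivity) h2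
    have h4 := mul_le_mul_of_nonneg_left
      (show log (A / B) ≤ r + A / B * (1 / 2) ^ (r + 1) by push_cast at h1 h3; linarith) hB
    have e : B * (r + A / B * (1 / 2) ^ (r + 1)) = r * B + (1 / 2) ^ (r + 1) * A := by field_simp
    linarith

lemma cof_succ_le (hn : 32 ≤ n) : cof n + 1 ≤ n := by unfold cof; omega

lemma cof_slope (hn : 32 ≤ n) : (cof n : ℝ) * log 2 + 2 ≤ 7 / 8 * n * log 2 := by
  have h1 : 4 * cof n ≤ 3 * n := by unfold cof; omega
  have h2 : (4 : ℝ) * cof n ≤ 3 * n := by exact_mod_cast h1
  have h3 : (32 : ℝ) ≤ n := by exact_mod_cast hn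
  have h4 := Real.log_two_gt_d9
  nlinarith

/-- The potential of a label at level `l`. -/
noncomputable def pot (l : ℕ) (a : Par n → ℝ) : ℝ :=
  ent l a - 7 / 8 * n * log 2 * l * ∫ u, a u ∂(cubeMeas n)

/-- One label: reveal finer cells, then run a window. -/
theorem step_label (C : Chan (n + 1) S) (hN : NoiseVanishes C) (hn : 32 ≤ n) {k : ℕ} (hk1 : 1 ≤ k)
    (hk : 32 * k ≤ n) (t : ℕ) (z : S) {a : Par n → ℝ} (ha : Sub01 a) (l : ℕ) :
    ∃ R0, ∀ Rm ≥ R0, ∃ p : ℕ → Par n → ℝ, (∀ r, Sub01 (p r)) ∧
      (∀ u ∈ cube n, ∑ r ∈ Finset.range (Rm + 1), p r u = a u) ∧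
      ∑ r ∈ Finset.range (Rm + 1), ∑ z', pot (l + r) (fun u => p r u * winExact C t k u z z') ≤
        pot l a + (log (Fintype.card S) / (k + 1) + 16 * k + 3) * ∫ u, a u ∂(cubeMeas n) := by
  have hR : ∀ c : Fin n → ℤ, ∃ R : ℕ, 0 < (∫ v in cellOf l c, a v) →
      (1 / 2 : ℝ) ^ R < ∫ v in cellOf l c, a v := fun c => by
    by_cases h : 0 < ∫ v in cellOf l c, a v
    · obtain ⟨R, hR⟩ := exists_pow_lt_of_lt_one h (show (1 / 2 : ℝ) < 1 by norm_num)
      exact ⟨R, fun _ => hR⟩
    · exact ⟨0, fun h' => absurd h' h⟩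
  choose Rc hRc using hR
  refine ⟨(idxSet n l).sup Rc, fun Rm hRm => ?_⟩
  classical
  let P : Par n → ℕ → Prop := fun u r => mass l a u * (1 / 2) ^ (cof n * r) ≤ mass (l + r) a u
  let R : Par n → ℕ := fun u => Nat.findGreatest (P u) Rm
  have hP0 : ∀ u, P u 0 := fun u => by
    show mass l a u * _ ≤ _
    simp
  have hRP : ∀ u, P u (R u) := fun u => Nat.findGreatest_spec (Nat.zero_le _) (hP0 u)
  have hRle : ∀ u, R u ≤ Rm := fun u => Nat.findGreatest_le Rm
  have hPm : ∀ r, MeasurableSet {u | P u r} := fun r =>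
    measurableSet_le ((measurable_mass l a).mul_const _) (measurable_mass (l + r) a)
  have hRmeas : Measurable R := measurable_findGreatest fun r _ => hPm r
  have hbig : ∀ u ∈ cube n, 0 < mass l a u → ∀ r, Rm < r → ¬ P u r := by
    intro u hu hM r hr hP
    have h1 : (1 / 2 : ℝ) ^ Rm ≤ (1 / 2) ^ Rc (idx l u) := pow_le_pow_of_le_one (by norm_num)
      (by norm_num) ((Finset.le_sup (idx_mem hu)).trans hRm)
    have h2 : (1 / 2 : ℝ) ^ Rm < mass l a u := lt_of_le_of_lt h1 (hRc (idx l u) hM)
    have h3 := hP.trans (ha.mass_le_vol (l + r) hu)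
    have h4 : (1 / 2 : ℝ) ^ Rm * (1 / 2) ^ (cof n * r) < (1 / 2) ^ ((l + r) * n) :=
      (mul_lt_mul_of_pos_right h2 (by positivity)).trans_le h3
    rw [← pow_add, pow_lt_pow_iff_right_of_lt_one₀ (by norm_num) (by norm_num)] at h4
    have h5 : (cof n + 1) * r ≤ n * r := Nat.mul_le_mul_right _ (cof_succ_le hn)
    nlinarith
  set p : ℕ → Par n → ℝ := fun r => {u | R u = r}.indicator a with hp
  have hps : ∀ r, Sub01 (p r) := fun r =>
    ⟨ha.meas.indicator (hRmeas (measurableSet_singleton r)),
      fun u hu => Set.indicator_apply_nonneg fun _ => ha.nonneg u hu,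
      fun u hu => by
        simp only [hp, Set.indicator_apply]
        split_ifs
        · exact ha.le_one u hu
        · exact zero_le_one⟩
  have hsum : ∀ u, ∑ r ∈ Finset.range (Rm + 1), p r u = a u := fun u => by
    rw [Finset.sum_eq_single (R u) (fun r _ hr => Set.indicator_of_notMem (show u ∉ {u | R u = r} from Ne.symm hr) a)
      (fun h => absurd (Finset.mem_range.2 (Nat.lt_succ_of_le (hRle u))) h)]
    exact Set.indicator_of_mem (show u ∈ {v | R v = R u} from rfl) a
  have hpa : ∀ r, ∀ u ∈ cube n, p r u ≤ a u := fun r u hu => by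
    simp only [hp, Set.indicator_apply]
    split_ifs
    · exact le_rfl
    · exact ha.nonneg u hu
  refine ⟨p, hps, fun u _ => hsum u, ?_⟩
  set c₁ : ℝ := log (Fintype.card S) / (k + 1) + 16 * k + 1
  set κ : ℝ := 7 / 8 * n * log 2
  set G : ℕ → Par n → ℝ := fun r u => p r u * log (a u / mass l a u)
  have hGi : ∀ r, Integrable (G r) (cubeMeas n) := fun r => by
    refine ((ha.ent_integrable l).indicator (hRmeas (measurableSet_singleton r))).congr
      (.of_forall fun u => ?_)
    simp only [G, hp, Set.indicator_mul_left, Set.preimage, Set.mem_singleton_iff]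
  have hent : ∀ r, ent (l + r) (p r) ≤ (∫ u, G r u ∂(cubeMeas n)) +
      (cof n * r : ℕ) * log 2 * ∫ u, p r u ∂(cubeMeas n) +
        ∫ u, p r u * log (mass (l + r) a u / mass (l + r) (p r) u) ∂(cubeMeas n) := by
    intro r
    have i2 := (hps r).integrable.const_mul (((cof n * r : ℕ) : ℝ) * log 2)
    have i3 : Integrable (fun u => p r u * log (mass (l + r) a u / mass (l + r) (p r) u))
        (cubeMeas n) := (hps r).integrable_mul_idx (l + r) fun c =>
      log ((∫ v in cellOf (l + r) c, a v) / ∫ v in cellOf (l + r) c, p r v)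
    have i12 : Integrable (fun u => G r u + (cof n * r : ℕ) * log 2 * p r u) (cubeMeas n) :=
      (hGi r).add i2
    rw [← integral_const_mul, ← integral_add (hGi r) i2, ← integral_add i12 i3]
    refine integral_mono_ae ((hps r).ent_integrable _) (i12.add i3) ?_
    filter_upwards [ae_mem_cube, (hps r).ae_mass_pos (l + r), ha.ae_mass_pos l] with u hu hm hMl
    by_cases h : p r u = 0
    · simp [G, h]
    have hR : R u = r := by
      by_contra hne; exact h (Set.indicator_of_notMem (show u ∉ {u | R u = r} from hne) a)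
    have hpu : p r u = a u := Set.indicator_of_mem (show u ∈ {u | R u = r} from hR) a
    have hau : 0 < a u := lt_of_le_of_ne (ha.nonneg u hu) (fun e => h (by rw [hpu, ← e]))
    have hM := hMl hau.ne'
    have hm1 := hm h
    have hm2 : 0 < mass (l + r) a u :=
      hm1.trans_le (mass_mono (hps r).integrable ha.integrable (hpa r) _ _)
    have hP := hRP u
    rw [hR] at hP
    have hlog := log_le_log (mul_pos hM (by positivity)) hP
    rw [log_mul hM.ne' (by positivity), log_pow, one_div, log_inv] at hlog
    show p r u * log (p r u / mass (l + r) (p r) u) ≤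
      p r u * log (a u / mass l a u) + (cof n * r : ℕ) * log 2 * p r u +
        p r u * log (mass (l + r) a u / mass (l + r) (p r) u)
    rw [hpu, log_div hau.ne' hm1.ne', log_div hau.ne' hM.ne', log_div hm2.ne' hm1.ne']
    have h5 := mul_le_mul_of_nonneg_left hlog hau.le
    linarith
  have hF : ∀ r, ∀ u ∈ cube n, p r u ≠ 0 → ∀ i,
      mass (l + r + i) (p r) u ≤ mass (l + r) a u * (1 / 2) ^ (cof n * i) := by
    intro r u hu h i
    have hR : R u = r := by
      by_contra hne; exact h (Set.indicator_of_notMem (show u ∉ {u | R u = r} from hne) a)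
    refine (mass_mono (hps r).integrable ha.integrable (hpa r) _ _).trans ?_
    rcases Nat.eq_zero_or_pos i with rfl | hi
    · simp
    rcases (ha.mass_nonneg l u).eq_or_lt with h0 | h0
    · have h1 : mass (l + r + i) a u ≤ mass l a u := by
        refine setIntegral_mono_set (integrableOn_cell ha.integrable _ _)
          (ae_restrict_of_forall_mem (measurableSet_cellOf _ _) fun v hv => ha.nonneg v hv.1)
          (Filter.Eventually.of_forall ?_)
        rw [Nat.add_assoc]
        exact cellOf_subset
      rw [← h0] at h1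
      exact h1.trans (mul_nonneg (ha.mass_nonneg _ _) (by positivity))
    have hnP : ¬ P u (r + i) := by
      by_cases hle : r + i ≤ Rm
      · exact Nat.findGreatest_is_greatest (by show R u < r + i; omega) hle
      · exact hbig u hu h0 _ (by omega)
    have hlt : mass (l + (r + i)) a u < mass l a u * (1 / 2) ^ (cof n * (r + i)) := not_le.1 hnP
    rw [← Nat.add_assoc, Nat.mul_add, pow_add, ← mul_assoc] at hlt
    have hP := hRP u
    rw [hR] at hP
    exact hlt.le.trans (mul_le_mul_of_nonneg_right hP (by positivity))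
  have hgs : ∀ u, ∑ z', winExact C t k u z z' = 1 := fun u => (winExact_props C t u k z).2.1
  have hr : ∀ r, ∑ z', pot (l + r) (fun u => p r u * winExact C t k u z z') ≤
      (∫ u, G r u ∂(cubeMeas n)) + (c₁ - κ * l) * (∫ u, p r u ∂(cubeMeas n)) +
        2 * (1 / 2 : ℝ) ^ (r + 1) * ∫ u, a u ∂(cubeMeas n) := by
    intro r
    have hg := gain_label C hN hn hk1 hk t z ha (hps r) (hpa r) (l + r) (hF r)
    have hl := log_ratio_le ha (hps r) (hpa r) (l + r) r
    have he := hent r
    have hpi : ∀ z', Integrable (fun u => p r u * winExact C t k u z z') (cubeMeas n) := fun z' =>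
      (hps r).integrable.mul_bdd (c := 1) (measurable_winExact C t k z z').aestronglyMeasurable
        (.of_forall fun u => by
          obtain ⟨h0, h1, -⟩ := winExact_props C t u k z
          rw [Real.norm_eq_abs, abs_of_nonneg (h0 z')]
          exact h1 ▸ Finset.single_le_sum (fun y _ => h0 y) (Finset.mem_univ z'))
    simp only [pot, Finset.sum_sub_distrib, ← Finset.mul_sum]
    rw [← integral_finsetSum _ fun z' _ => hpi z']
    simp only [← Finset.mul_sum, hgs, mul_one]
    have hs := mul_le_mul_of_nonneg_right (mul_le_mul_of_nonneg_left (cof_slope hn) (Nat.cast_nonneg r))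
      (integral_nonneg_of_ae (ae_mem_cube.mono fun u hu => (hps r).nonneg u hu) :
        0 ≤ ∫ u, p r u ∂(cubeMeas n))
    push_cast at he ⊢
    simp only [κ, c₁] at hg ⊢
    linarith
  refine (Finset.sum_le_sum fun r _ => hr r).trans ?_
  rw [Finset.sum_add_distrib, Finset.sum_add_distrib, ← integral_finsetSum _ fun r _ => hGi r,
    ← Finset.mul_sum, ← integral_finsetSum _ fun r _ => (hps r).integrable]
  simp only [G, ← Finset.sum_mul, hsum]
  have hgeo : ∑ r ∈ Finset.range (Rm + 1), 2 * (1 / 2 : ℝ) ^ (r + 1) ≤ 2 := by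
    have : ∀ N : ℕ, ∑ r ∈ Finset.range N, (1 / 2 : ℝ) ^ (r + 1) = 1 - (1 / 2) ^ N := fun N => by
      induction N with
      | zero => simp
      | succ N ih => rw [Finset.sum_range_succ, ih, pow_succ]; ring
    rw [← Finset.mul_sum, this]
    have : (0 : ℝ) ≤ (1 / 2) ^ (Rm + 1) := by positivity
    linarith
  have hai : 0 ≤ ∫ u, a u ∂(cubeMeas n) :=
    integral_nonneg_of_ae (ae_mem_cube.mono fun u hu => ha.nonneg u hu)
  have := mul_le_mul_of_nonneg_right hgeo hai
  show (∫ u, a u * log (a u / mass l a u) ∂(cubeMeas n)) + (c₁ - κ * l) * (∫ u, a u ∂(cubeMeas n)) +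
    _ ≤ _
  simp only [pot, ent, κ, c₁] at this ⊢
  linarith

end Vale.Agent.P309
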