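import Vale.Agent.P309.Reduce

/-!
A learner with `O (d log (d / ε))` bits and `O (d log (1 / ε))` samples: Kaczmarz steps rounded to a
grid.
-/

namespace Vale.Agent.P309

open MeasureTheory ProbabilityTheory Real
open scoped RealInnerProductSpace ENNReal

variable {d : ℕ}

/-- The squared cosine between a Gaussian row and a fixed vector. -/
noncomputable def rowCos (v x : Euc d) : ℝ := ⟪x, v⟫ ^ 2 / ‖x‖ ^ 2

lemma rowCos_bdd (v x : Euc d) : 0 ≤ rowCos v x ∧ rowCos v x ≤ ‖v‖ ^ 2 := by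
  refine ⟨by unfold rowCos; positivity, div_le_of_le_mul₀ (by positivity) (by positivity) ?_⟩
  rw [← mul_pow, ← sq_abs ⟪x, v⟫, mul_comm]
  exact pow_le_pow_left₀ (abs_nonneg _) (abs_real_inner_le_norm x v) 2

lemma integrable_rowCos (v : Euc d) : Integrable (rowCos v) (stdGaussian (Euc d)) :=
  Integrable.of_bound (Measurable.aestronglyMeasurable (by unfold rowCos; fun_prop)) (‖v‖ ^ 2)
    (.of_forall fun x => by
      rw [Real.norm_eq_abs, abs_of_nonneg (rowCos_bdd v x).1]; exact (rowCos_bdd v x).2)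

lemma integral_rowCos_congr {v w : Euc d} (h : ‖v‖ = ‖w‖) :
    ∫ x, rowCos v x ∂(stdGaussian (Euc d)) = ∫ x, rowCos w x ∂(stdGaussian (Euc d)) := by
  obtain ⟨g, hg⟩ := exists_rot d h
  set e := g.iso
  have hm : Measurable (rowCos w) := by unfold rowCos; fun_prop
  conv_rhs => rw [← stdGaussian_map e, integral_map e.continuous.measurable.aemeasurable
    hm.aestronglyMeasurable]
  refine integral_congr_ae (.of_forall fun x => ?_)
  have hw : w = e v := hg.symm
  simp only [rowCos, hw, e.inner_map_map, e.norm_map]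

lemma integral_rowCos (hd : 1 ≤ d) (v : Euc d) :
    ∫ x, rowCos v x ∂(stdGaussian (Euc d)) = ‖v‖ ^ 2 / d := by
  have : NeZero d := ⟨by omega⟩
  set i₀ : Fin d := ⟨0, by omega⟩
  set b := EuclideanSpace.basisFun (Fin d) ℝ
  have hnull : ∀ᵐ x ∂(stdGaussian (Euc d)), x ≠ 0 := by
    have hms : MeasurableSet {x : Euc d | x ≠ 0} := (measurableSet_singleton (0 : Euc d)).compl
    rw [← map_pi_eq_stdGaussian, ae_map_iff (WithLp.measurable_toLp 2 _).aemeasurable hms]
    have : NullSingletonClass (gaussianReal 0 1) := nullSingletonClass_gaussianReal one_ne_zero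
    filter_upwards [(Measure.quasiMeasurePreserving_eval
      (fun _ : Fin d => gaussianReal 0 1) i₀).ae (Measure.ae_ne _ 0)] with x hx hx0
    exact hx (by simpa using congrArg (fun z : Euc d => z i₀) hx0)
  have hsum : ∑ i, ∫ x, rowCos (b i) x ∂(stdGaussian (Euc d)) = 1 := by
    rw [← integral_finsetSum _ fun i _ => integrable_rowCos (b i)]
    rw [integral_congr_ae (g := fun _ => (1 : ℝ)) (hnull.mono fun x hx => ?_)]
    · simp
    · simp only [rowCos, ← Finset.sum_div]
      rw [show ∑ i, ⟪x, b i⟫ ^ 2 = ‖x‖ ^ 2 from b.sum_sq_inner_left x, div_self]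
      have := norm_pos_iff.2 hx
      positivity
  have hall : ∀ i, ∫ x, rowCos (b i) x ∂(stdGaussian (Euc d)) =
      ∫ x, rowCos (b i₀) x ∂(stdGaussian (Euc d)) := fun i =>
    integral_rowCos_congr (by rw [b.norm_eq_one, b.norm_eq_one])
  simp only [hall, Finset.sum_const, Finset.card_univ, Fintype.card_fin, nsmul_eq_mul] at hsum
  have hb : ∫ x, rowCos (b i₀) x ∂(stdGaussian (Euc d)) = 1 / d := by
    rw [eq_div_iff (by positivity), mul_comm]; exact hsum
  have hn : ‖v‖ = ‖(‖v‖) • b i₀‖ := by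
    rw [norm_smul, b.norm_eq_one, mul_one, norm_norm]
  rw [integral_rowCos_congr hn]
  have hscale : ∀ x : Euc d, rowCos (‖v‖ • b i₀) x = ‖v‖ ^ 2 * rowCos (b i₀) x := fun x => by
    simp only [rowCos, real_inner_smul_right]; ring
  simp only [hscale]
  rw [integral_const_mul, hb]
  ring

/-- The grid states. -/
abbrev Cell (d K : ℕ) : Type := Fin d → Fin (2 * K + 1)

/-- The grid point of a state. -/
noncomputable def gridPt {K : ℕ} (j : Cell d K) : Euc d :=
  WithLp.toLp 2 fun i => ((j i : ℕ) : ℝ) / K - 1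

/-- Rounding of one coordinate, after clamping it to `[-1, 1]`. -/
noncomputable def roundCoord (K : ℕ) (x : ℝ) : Fin (2 * K + 1) :=
  Fin.ofNat _ ⌊(max (-1) (min 1 x) + 1) * K⌋₊

lemma roundCoord_err {K : ℕ} (hK : 0 < K) {x a : ℝ} (ha : |a| ≤ 1) :
    |((roundCoord K x : ℕ) : ℝ) / K - 1 - a| ≤ |x - a| + 1 / K := by
  set c := max (-1) (min 1 x)
  have hc1 : -1 ≤ c := le_max_left _ _
  have hc2 : c ≤ 1 := max_le (by norm_num) (min_le_left _ _)
  have hKR : (0 : ℝ) < K := Nat.cast_pos.2 hK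
  have hp : 0 ≤ (c + 1) * K := mul_nonneg (by linarith) hKR.le
  set m := ⌊(c + 1) * K⌋₊ with hm
  have hlt : m < 2 * K + 1 := Nat.lt_succ_of_le (Nat.floor_le_of_le (by push_cast; nlinarith))
  have hv : (roundCoord K x : ℕ) = m := by
    simp only [roundCoord, Fin.val_ofNat]
    exact Nat.mod_eq_of_lt hlt
  rw [hv]
  have h1 := Nat.floor_le hp
  have h2 := Nat.lt_floor_add_one ((c + 1) * K)
  rw [← hm] at h1 h2
  have e1 : (m : ℝ) / K - 1 ≤ c := by
    rw [sub_le_iff_le_add, div_le_iff₀ hKR]; exact h1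
  have e2 : c ≤ (m : ℝ) / K - 1 + 1 / K := by
    rw [sub_add_eq_add_sub, ← add_div, le_sub_iff_add_le, le_div_iff₀ hKR]; exact h2.le
  have e3 : |c - a| ≤ |x - a| := by
    obtain ⟨a1, a2⟩ := abs_le.1 ha
    simp only [c]
    rcases le_total x (-1) with h | h
    · rw [min_eq_right (by linarith), max_eq_left h, abs_of_nonpos (by linarith),
        abs_of_nonpos (by linarith)]
      linarith
    · rcases le_total x 1 with h' | h'
      · rw [min_eq_right h', max_eq_right h]
      · rw [min_eq_left h', max_eq_right (by norm_num), abs_of_nonneg (by linarith),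
          abs_of_nonneg (by linarith)]
        linarith
  calc |(m : ℝ) / K - 1 - a| ≤ |(m : ℝ) / K - 1 - c| + |c - a| := abs_sub_le _ _ _
    _ ≤ 1 / K + |x - a| := by
        refine add_le_add ?_ e3
        rw [abs_of_nonpos (by linarith)]; linarith
    _ = _ := add_comm _ _

/-- One Kaczmarz step, rounded to the grid. -/
noncomputable def kacz {K : ℕ} (j : Cell d K) (p : Euc d × ℝ) : Cell d K :=
  fun i => roundCoord K ((gridPt j + ((p.2 - ⟪p.1, gridPt j⟫) / ‖p.1‖ ^ 2) • p.1) i)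

lemma measurable_kacz {K : ℕ} (j : Cell d K) : Measurable (kacz j) := by
  refine measurable_pi_lambda _ fun i => ?_
  have hf : Measurable fun p : Euc d × ℝ =>
      (max (-1) (min 1 ((gridPt j + ((p.2 - ⟪p.1, gridPt j⟫) / ‖p.1‖ ^ 2) • p.1) i)) + 1) *
        (K : ℝ) := by
    simp only [PiLp.add_apply, PiLp.smul_apply, smul_eq_mul]
    fun_prop
  exact (Measurable.of_discrete (f := fun m : ℕ => Fin.ofNat (2 * K + 1) m)).comp
    (Nat.measurable_floor.comp hf)

lemma kacz_err {K : ℕ} (hd : 1 ≤ d) (hK : 0 < K) {s : Euc d} (hs : ‖s‖ = 1) (j : Cell d K) (x : Euc d) :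
    ‖gridPt (kacz j (x, ⟪x, s⟫)) - s‖ ^ 2 ≤ (1 + 1 / (2 * d)) *
      (‖gridPt j - s‖ ^ 2 - rowCos (gridPt j - s) x) + (1 + 2 * d) * (d / (K : ℝ) ^ 2) := by
  set e := gridPt j - s with he
  set w := e - (⟪x, e⟫ / ‖x‖ ^ 2) • x with hw
  have hz : gridPt j + ((⟪x, s⟫ - ⟪x, gridPt j⟫) / ‖x‖ ^ 2) • x - s = w := by
    rw [hw, he, inner_sub_right, sub_eq_add_neg _ ((_ / _) • x), ← neg_smul, ← neg_div, neg_sub]
    abel
  have hwsq : ‖w‖ ^ 2 = ‖e‖ ^ 2 - rowCos e x := by
    rcases eq_or_ne x 0 with h0 | h0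
    · simp [hw, h0, rowCos]
    have hx : 0 < ‖x‖ := norm_pos_iff.2 h0
    rw [hw, norm_sub_sq_real, real_inner_smul_right, norm_smul, mul_pow, Real.norm_eq_abs, sq_abs,
      rowCos, real_inner_comm e x]
    field_simp
    ring
  have ha : ∀ i, |s i| ≤ 1 := fun i => hs ▸ (Real.norm_eq_abs (s i)) ▸ PiLp.norm_apply_le s i
  set r : ℝ := 1 / (K : ℝ)
  have hcoord : ∀ i, (gridPt (kacz j (x, ⟪x, s⟫)) - s) i ^ 2 ≤
      (1 + 1 / (2 * (d : ℝ))) * w i ^ 2 + (1 + 2 * (d : ℝ)) * r ^ 2 := by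
    intro i
    have h := roundCoord_err hK (x := (gridPt j + ((⟪x, s⟫ - ⟪x, gridPt j⟫) / ‖x‖ ^ 2) • x) i) (ha i)
    rw [← PiLp.sub_apply, hz] at h
    have h' : |(gridPt (kacz j (x, ⟪x, s⟫)) - s) i| ≤ |w i| + r := by
      simpa [gridPt, kacz, r] using h
    have h2 := pow_le_pow_left₀ (abs_nonneg _) h' 2
    rw [sq_abs] at h2
    refine h2.trans ?_
    have hdp : (0 : ℝ) < d := Nat.cast_pos.2 (by omega)
    have h3 : 0 ≤ 1 / (2 * (d : ℝ)) * (|w i| - 2 * d * r) ^ 2 := by positivity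
    have e4 : 1 / (2 * (d : ℝ)) * (|w i| - 2 * d * r) ^ 2 =
        1 / (2 * (d : ℝ)) * w i ^ 2 - 2 * |w i| * r + 2 * d * r ^ 2 := by
      rw [← sq_abs (w i)]; field_simp; ring
    nlinarith [sq_abs (w i)]
  have hs2 := Finset.sum_le_sum (s := Finset.univ) fun i _ => hcoord i
  rw [Finset.sum_add_distrib, ← Finset.mul_sum, Finset.sum_const, Finset.card_univ, Fintype.card_fin,
    nsmul_eq_mul] at hs2
  rw [EuclideanSpace.norm_sq_eq, ← hwsq, EuclideanSpace.norm_sq_eq]
  simp only [Real.norm_eq_abs, sq_abs]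
  refine hs2.trans (le_of_eq ?_)
  simp only [r]
  ring

lemma kacz_mean {K : ℕ} (hd : 1 ≤ d) (hK : 0 < K) {s : Euc d} (hs : ‖s‖ = 1) (j : Cell d K) :
    ∫⁻ x, ENNReal.ofReal (‖gridPt (kacz j (x, ⟪x, s⟫)) - s‖ ^ 2) ∂(stdGaussian (Euc d)) ≤
      ENNReal.ofReal ((1 - 1 / (2 * d)) * ‖gridPt j - s‖ ^ 2 + 3 * d ^ 2 / (K : ℝ) ^ 2) := by
  set e := gridPt j - s
  set f : Euc d → ℝ := fun x => (1 + 1 / (2 * d)) * (‖e‖ ^ 2 - rowCos e x) +
    (1 + 2 * d) * (d / (K : ℝ) ^ 2)
  have hi : Integrable f (stdGaussian (Euc d)) :=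
    (((integrable_const _).sub (integrable_rowCos e)).const_mul _).add (integrable_const _)
  have hf0 : ∀ x, 0 ≤ f x := fun x =>
    add_nonneg (mul_nonneg (by positivity) (sub_nonneg.2 (rowCos_bdd e x).2)) (by positivity)
  refine (lintegral_mono fun x => ENNReal.ofReal_le_ofReal (kacz_err hd hK hs j x)).trans ?_
  rw [← ofReal_integral_eq_lintegral_ofReal hi (.of_forall hf0)]
  refine ENNReal.ofReal_le_ofReal ?_
  have hdp : (1 : ℝ) ≤ d := by exact_mod_cast hd
  have hi1 : Integrable (fun x => (1 + 1 / (2 * (d : ℝ))) * (‖e‖ ^ 2 - rowCos e x))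
      (stdGaussian (Euc d)) :=
    ((integrable_const _).sub (integrable_rowCos e)).const_mul _
  show ∫ x, f x ∂(stdGaussian (Euc d)) ≤ _
  rw [integral_add hi1 (integrable_const _), integral_const_mul,
    integral_sub (integrable_const _) (integrable_rowCos e), integral_rowCos hd]
  simp only [integral_const, probReal_univ, smul_eq_mul, one_mul]
  have h1 : (1 + 1 / (2 * (d : ℝ))) * (‖e‖ ^ 2 - ‖e‖ ^ 2 / d) ≤
      (1 - 1 / (2 * d)) * ‖e‖ ^ 2 := by
    have : (1 + 1 / (2 * (d : ℝ))) * (‖e‖ ^ 2 - ‖e‖ ^ 2 / d) =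
        (1 - 1 / (2 * d)) * ‖e‖ ^ 2 - ‖e‖ ^ 2 / (2 * d ^ 2) := by field_simp; ring
    rw [this]
    have : 0 ≤ ‖e‖ ^ 2 / (2 * (d : ℝ) ^ 2) := by positivity
    linarith
  have h2 : (1 + 2 * (d : ℝ)) * (d / (K : ℝ) ^ 2) ≤ 3 * d ^ 2 / (K : ℝ) ^ 2 := by
    rw [← mul_div_assoc]
    exact div_le_div_of_nonneg_right (by nlinarith) (by positivity)
  linarith

/-- The unit vector of a state. -/
noncomputable def gridOut {K : ℕ} (hd : 0 < d) (j : Cell d K) : Sph d :=
  if h : gridPt j = 0 then ⟨EuclideanSpace.single ⟨0, hd⟩ 1, by simp⟩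
  else ⟨(‖gridPt j‖⁻¹) • gridPt j, by simp [norm_smul, h]⟩

lemma gridOut_close {K : ℕ} (hd : 0 < d) (j : Cell d K) {s : Euc d} (hs : ‖s‖ = 1) {ε : ℝ}
    (hε : 0 ≤ ε) (hε1 : ε ≤ 1) (h : ‖gridPt j - s‖ ≤ ε / 4) :
    arccos ⟪((gridOut hd j : Sph d) : Euc d), s⟫ ≤ ε := by
  have hne : gridPt j ≠ 0 := fun h0 => by
    rw [h0, zero_sub, norm_neg, hs] at h; linarith
  set g := gridPt j
  have hg : 0 < ‖g‖ := norm_pos_iff.2 hne
  have hv : ((gridOut hd j : Sph d) : Euc d) = ‖g‖⁻¹ • g := by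
    rw [gridOut, dif_neg hne]
  rw [hv]
  have h1 : ‖(‖g‖⁻¹ • g) - g‖ ≤ ε / 4 := by
    have e : (‖g‖⁻¹ • g) - g = (‖g‖⁻¹ - 1) • g := by rw [sub_smul, one_smul]
    rw [e, norm_smul, Real.norm_eq_abs, ← abs_of_pos hg, ← abs_mul, abs_of_pos hg, sub_mul,
      inv_mul_cancel₀ hg.ne', one_mul, ← hs]
    rw [norm_sub_rev] at h
    exact (abs_norm_sub_norm_le _ _).trans h
  have h2 : ‖(‖g‖⁻¹ • g) - s‖ ≤ ε / 2 :=
    (norm_sub_le_norm_sub_add_norm_sub _ g _).trans (by linarith)
  have hnv : ‖(‖g‖⁻¹ • g)‖ = 1 := by simp [norm_smul, hne]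
  have h3 := pow_le_pow_left₀ (norm_nonneg _) h2 2
  rw [norm_sub_sq_real, hnv, hs] at h3
  have hcos : cos ε ≤ ⟪(‖g‖⁻¹ • g), s⟫ := by
    have h4 := cos_le_one_sub_mul_cos_sq (x := ε) (by rw [abs_of_nonneg hε]; linarith [pi_gt_three])
    have h5 : (1 / 8 : ℝ) ≤ 2 / π ^ 2 := by
      rw [le_div_iff₀ (by positivity)]; nlinarith [pi_lt_d4, pi_gt_three]
    have h6 := mul_le_mul_of_nonneg_right h5 (sq_nonneg ε)
    linarith
  calc arccos ⟪(‖g‖⁻¹ • g), s⟫ ≤ arccos (cos ε) := antitone_arccos hcos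
    _ = ε := arccos_cos hε (by linarith [pi_gt_three])

/-- The quantised Kaczmarz learner. -/
noncomputable def kaczLearner (d K : ℕ) (hd : 0 < d) :
    Learner d (Fintype.card (Cell d K)) where
  init z := if z = Fintype.equivFin (Cell d K) (fun _ => Fin.ofNat _ K) then 1 else 0
  init_sum := by simp
  step _ z p w := if w = (Fintype.equivFin (Cell d K)
    (kacz ((Fintype.equivFin (Cell d K)).symm z) p), false) then 1 else 0
  step_meas _ z w := by
    refine Measurable.ite ?_ measurable_const measurable_const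
    exact ((Measurable.of_discrete (f := fun j : Cell d K =>
      (Fintype.equivFin (Cell d K) j, false))).comp (measurable_kacz _)) (measurableSet_singleton w)
        |> fun h => by simpa [Set.preimage, eq_comm] using h
  step_sum _ _ _ := by simp
  out z := Measure.dirac (gridOut hd ((Fintype.equivFin (Cell d K)).symm z))
  out_prob _ := Measure.dirac.isProbabilityMeasure

theorem kacz_success (hd : 1 ≤ d) {K : ℕ} (hK : 0 < K) {T : ℕ} {ε : ℝ} (hε : 0 < ε) (hε1 : ε ≤ 1)
    (hT : exp (-(T / (2 * d : ℝ))) + 6 * d ^ 3 / (K : ℝ) ^ 2 ≤ ε ^ 2 / 48) :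
    (2 : ℝ≥0∞) / 3 ≤ (kaczLearner d K (by omega)).success T ε := by
  have : NeZero d := ⟨by omega⟩
  have := isProbabilityMeasure_uniformSphere d
  set L := kaczLearner d K (by omega : 0 < d)
  set E := Fintype.equivFin (Cell d K)
  have key : ∀ s : Sph d, (2 : ℝ≥0∞) / 3 ≤ ∑ w, L.law (s : Euc d) T w *
      L.out w.1 {v | arccos ⟪(v : Euc d), (s : Euc d)⟫ ≤ ε} := by
    intro s
    have hs : ‖(s : Euc d)‖ = 1 := by simp
    set a : ℕ → Fin (Fintype.card (Cell d K)) → ℝ≥0∞ := fun t z => L.law (s : Euc d) t (z, false)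
    have hstop : ∀ t z p z', L.step t z p (z', true) = 0 := by
      intros; simp [L, kaczLearner]
    have htrue : ∀ t z, L.law (s : Euc d) t (z, true) = 0 := by
      intro t
      induction t with
      | zero => intro z; simp [Learner.law]
      | succ t ih => intro z; simp [Learner.law, ih, hstop]
    set φ : Fin (Fintype.card (Cell d K)) → Euc d → Fin (Fintype.card (Cell d K)) :=
      fun z x => E (kacz (E.symm z) (x, ⟪x, (s : Euc d)⟫))
    have hrec : ∀ (t : ℕ) (h : Fin (Fintype.card (Cell d K)) → ℝ≥0∞), ∑ z', a (t + 1) z' * h z' =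
        ∑ z, a t z * ∫⁻ x, h (φ z x) ∂(stdGaussian (Euc d)) := by
      intro t h
      have hmφ : ∀ z, Measurable (φ z) := fun z =>
        (Measurable.of_discrete (f := E)).comp ((measurable_kacz _).comp
          (f := fun x : Euc d => (x, ⟪x, (s : Euc d)⟫)) (Continuous.measurable (by fun_prop)))
      have e : ∀ z' , a (t + 1) z' * h z' =
          ∑ z, a t z * ∫⁻ x, (if φ z x = z' then h z' else 0) ∂(stdGaussian (Euc d)) := by
        intro z'
        show ((if false = true then L.law (s : Euc d) t (z', true) else 0) + _) * h z' = _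
        simp only [Bool.false_eq_true, if_false, zero_add, Finset.sum_mul, mul_assoc]
        refine Finset.sum_congr rfl fun z _ => ?_
        congr 1
        have hm : Measurable fun x : Euc d => L.step t z (x, ⟪x, (s : Euc d)⟫) (z', false) :=
          (L.step_meas t z (z', false)).comp (f := fun x : Euc d => (x, ⟪x, (s : Euc d)⟫))
            (Continuous.measurable (by fun_prop))
        rw [← lintegral_mul_const _ hm]
        refine lintegral_congr fun x => ?_
        simp only [L, kaczLearner, φ, Prod.mk.injEq, and_true, eq_comm (a := z'), ite_mul, one_mul,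
          zero_mul, E]
      simp only [e]
      rw [Finset.sum_comm]
      refine Finset.sum_congr rfl fun z _ => ?_
      rw [← Finset.mul_sum, ← lintegral_finsetSum
        (f := fun z' x => if φ z x = z' then h z' else 0) Finset.univ fun z' _ =>
        Measurable.ite ((hmφ z) (measurableSet_singleton z')) measurable_const measurable_const]
      simp
    have hmass : ∀ t, ∑ z, a t z = 1 := by
      intro t
      induction t with
      | zero => simp [a, Learner.law, L, kaczLearner]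
      | succ t ih => simpa [ih] using hrec t fun _ => 1
    set σ : Fin (Fintype.card (Cell d K)) → ℝ := fun z => ‖gridPt (E.symm z) - (s : Euc d)‖ ^ 2
    set ρ : ℝ := 1 - 1 / (2 * (d : ℝ))
    set b : ℝ := 3 * (d : ℝ) ^ 2 / (K : ℝ) ^ 2
    have hdp : (1 : ℝ) ≤ d := by exact_mod_cast hd
    have hρ : 0 ≤ ρ := by
      have : 1 / (2 * (d : ℝ)) ≤ 1 := by rw [div_le_one (by positivity)]; linarith
      simp only [ρ]; linarith
    have hb : 0 ≤ b := by positivity
    have hσ : ∀ z, 0 ≤ σ z := fun z => by positivity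
    have hV : ∀ t, ∑ z, a t z * ENNReal.ofReal (σ z) ≤ ENNReal.ofReal (ρ ^ t + 2 * d * b) := by
      intro t
      induction t with
      | zero =>
        have h0 : σ (E (fun _ => Fin.ofNat _ K)) = 1 := by
          have : gridPt (fun _ : Fin d => Fin.ofNat (2 * K + 1) K) = 0 := by
            ext i
            have hKR : (K : ℝ) ≠ 0 := by positivity
            simp [gridPt, Nat.mod_eq_of_lt (show K < 2 * K + 1 by omega),
              div_self hKR]
          simp only [σ, Equiv.symm_apply_apply, this, zero_sub, norm_neg, hs, one_pow]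
        simp only [a, Learner.law, L, kaczLearner, Bool.false_eq_true, if_false, ite_mul, one_mul,
          zero_mul, Finset.sum_ite_eq', Finset.mem_univ, if_true, E] at *
        rw [h0]
        exact ENNReal.ofReal_le_ofReal (by rw [pow_zero]; linarith [mul_nonneg (by linarith : (0 : ℝ) ≤ 2 * d) hb])
      | succ t ih =>
        rw [hrec]
        calc ∑ z, a t z * ∫⁻ x, ENNReal.ofReal (σ (φ z x)) ∂(stdGaussian (Euc d))
            ≤ ∑ z, a t z * (ENNReal.ofReal ρ * ENNReal.ofReal (σ z) + ENNReal.ofReal b) := by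
              refine Finset.sum_le_sum fun z _ => mul_le_mul' le_rfl ?_
              rw [← ENNReal.ofReal_mul hρ, ← ENNReal.ofReal_add (mul_nonneg hρ (hσ z)) hb]
              simpa [σ, φ, ρ, b] using kacz_mean hd hK hs (E.symm z)
          _ = ENNReal.ofReal ρ * ∑ z, a t z * ENNReal.ofReal (σ z) + ENNReal.ofReal b := by
              simp only [mul_add, Finset.sum_add_distrib, ← Finset.sum_mul, hmass, one_mul,
                mul_left_comm _ (ENNReal.ofReal ρ), ← Finset.mul_sum]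
          _ ≤ ENNReal.ofReal ρ * ENNReal.ofReal (ρ ^ t + 2 * d * b) + ENNReal.ofReal b := by gcongr
          _ = _ := by
              rw [← ENNReal.ofReal_mul hρ, ← ENNReal.ofReal_add (by positivity) hb]
              congr 1
              have hρd : ρ * (2 * (d : ℝ)) = 2 * d - 1 := by simp only [ρ]; field_simp
              rw [pow_succ']
              linear_combination b * hρd
    have hVT : ∑ z, a T z * ENNReal.ofReal (σ z) ≤ ENNReal.ofReal (ε ^ 2 / 48) := by
      refine (hV T).trans (ENNReal.ofReal_le_ofReal (le_trans ?_ hT))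
      refine add_le_add ?_ (le_of_eq ?_)
      · refine (pow_le_pow_left₀ hρ (one_sub_le_exp_neg _) T).trans_eq ?_
        rw [← exp_nat_mul]; congr 1; ring
      · simp only [b]; ring
    set c := ENNReal.ofReal (16 / ε ^ 2)
    have hbad : ∀ z, 1 ≤ L.out z {v | arccos ⟪(v : Euc d), (s : Euc d)⟫ ≤ ε} +
        c * ENNReal.ofReal (σ z) := by
      intro z
      by_cases h : ‖gridPt (E.symm z) - (s : Euc d)‖ ≤ ε / 4
      · refine le_add_of_le_of_nonneg ?_ zero_le
        show (1 : ℝ≥0∞) ≤ Measure.dirac (gridOut _ (E.symm z)) _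
        rw [Measure.dirac_apply_of_mem]
        exact gridOut_close _ _ hs hε.le hε1 h
      · refine le_add_of_nonneg_of_le zero_le ?_
        rw [← ENNReal.ofReal_mul (by positivity), ENNReal.one_le_ofReal, div_mul_eq_mul_div,
          le_div_iff₀ (by positivity)]
        have := pow_le_pow_left₀ (by positivity) (not_le.1 h).le 2
        simp only [σ]
        nlinarith
    have htot : (1 : ℝ≥0∞) ≤
        (∑ w, L.law (s : Euc d) T w * L.out w.1 {v | arccos ⟪(v : Euc d), (s : Euc d)⟫ ≤ ε}) +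
          ENNReal.ofReal (1 / 3) := by
      rw [Fintype.sum_prod_type]
      simp only [Fintype.sum_bool, htrue, zero_mul, zero_add]
      calc (1 : ℝ≥0∞) = ∑ z, a T z * 1 := by simp [hmass]
        _ ≤ ∑ z, a T z * (L.out z {v | arccos ⟪(v : Euc d), (s : Euc d)⟫ ≤ ε} +
              c * ENNReal.ofReal (σ z)) :=
            Finset.sum_le_sum fun z _ => mul_le_mul' le_rfl (hbad z)
        _ ≤ _ := by
            simp only [mul_add, Finset.sum_add_distrib, mul_left_comm _ c, ← Finset.mul_sum]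
            refine add_le_add le_rfl ((mul_le_mul' le_rfl hVT).trans ?_)
            rw [← ENNReal.ofReal_mul (by positivity)]
            exact ENNReal.ofReal_le_ofReal (le_of_eq (by field_simp; norm_num))
    have h23 : (2 : ℝ≥0∞) / 3 + ENNReal.ofReal (1 / 3) = 1 := by
      rw [show (2 : ℝ≥0∞) / 3 = ENNReal.ofReal (2 / 3) by
          rw [ENNReal.ofReal_div_of_pos (by norm_num)]; norm_num,
        ← ENNReal.ofReal_add (by norm_num) (by norm_num)]
      norm_num
    exact (ENNReal.add_le_add_iff_right ENNReal.ofReal_ne_top).1 (h23.le.trans htot)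
  calc (2 : ℝ≥0∞) / 3 = ∫⁻ _s, (2 : ℝ≥0∞) / 3 ∂(uniformSphere d) := by simp
    _ ≤ _ := lintegral_mono key

/-- The upper bound. -/
theorem exists_learner_kaczmarz {d M T : ℕ} (hd : 2 ≤ d) {ε : ℝ} (hε : 0 < ε) (hε1 : ε ≤ 1 / 2)
    (hM : 40 * d * log (d / ε) ≤ M) (hT : 40 * d * log (1 / ε) ≤ T) :
    ∃ N ≤ 2 ^ M, ∃ L : Learner d N, (2 : ℝ≥0∞) / 3 ≤ L.success T ε := by
  have hdR : (2 : ℝ) ≤ d := by exact_mod_cast hd
  set K := ⌈24 * (d : ℝ) ^ 2 / ε⌉₊
  have hK1 : 24 * (d : ℝ) ^ 2 / ε ≤ K := Nat.le_ceil _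
  have hpos : 0 < 24 * (d : ℝ) ^ 2 / ε := by positivity
  have hK : 0 < K := Nat.ceil_pos.2 hpos
  refine ⟨Fintype.card (Cell d K), ?_, kaczLearner d K (by omega), kacz_success (by omega) hK hε
    (by linarith) ?_⟩
  · have hr : 4 ≤ (d : ℝ) / ε := by rw [le_div_iff₀ hε]; linarith
    have hKu : ((2 * K + 1 : ℕ) : ℝ) ≤ ((d : ℝ) / ε) ^ 5 := by
      have h1 : (K : ℝ) ≤ 24 * (d : ℝ) ^ 2 / ε + 1 := (Nat.ceil_lt_add_one hpos.le).le
      have h2 : (d : ℝ) ^ 2 / ε ≤ ((d : ℝ) / ε) ^ 2 := by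
        rw [div_pow]
        exact div_le_div_of_nonneg_left (by positivity) (by positivity) (by nlinarith)
      have h3 : 64 ≤ ((d : ℝ) / ε) ^ 3 := le_trans (by norm_num) (pow_le_pow_left₀ (by norm_num) hr 3)
      have h4 : 1 ≤ ((d : ℝ) / ε) ^ 2 := one_le_pow₀ (by linarith)
      have h5 : 51 * ((d : ℝ) / ε) ^ 2 ≤ ((d : ℝ) / ε) ^ 5 := by
        rw [show ((d : ℝ) / ε) ^ 5 = ((d : ℝ) / ε) ^ 3 * ((d : ℝ) / ε) ^ 2 by ring]
        exact mul_le_mul_of_nonneg_right (by linarith) (by positivity)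
      push_cast
      rw [mul_div_assoc] at h1
      linarith
    have hpd : (((2 * K + 1) ^ d : ℕ) : ℝ) ≤ (2 : ℝ) ^ M := by
      rw [Nat.cast_pow]
      refine (pow_le_pow_left₀ (Nat.cast_nonneg _) hKu d).trans ?_
      rw [← pow_mul, ← log_le_log_iff (by positivity) (by positivity), log_pow, log_pow]
      have hl : 0 ≤ log ((d : ℝ) / ε) := log_nonneg (by linarith)
      have h2 := Real.log_two_gt_d9
      have : (0 : ℝ) ≤ M := Nat.cast_nonneg M
      push_cast
      nlinarith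
    rw [Fintype.card_pi, Finset.prod_const, Fintype.card_fin, Finset.card_univ, Fintype.card_fin]
    exact_mod_cast hpd
  · have hl : log 2 ≤ log (1 / ε) :=
      log_le_log (by norm_num) (by rw [le_div_iff₀ hε]; linarith)
    have h1 : exp (-(T / (2 * d : ℝ))) ≤ ε ^ 2 / 96 := by
      have hT' : 20 * log (1 / ε) ≤ (T : ℝ) / (2 * d) := by
        rw [le_div_iff₀ (by positivity)]; linarith
      have h96 : log 96 ≤ 7 * log (1 / ε) := by
        calc log 96 ≤ log (2 ^ 7) := log_le_log (by norm_num) (by norm_num)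
          _ = 7 * log 2 := by rw [log_pow]; norm_num
          _ ≤ _ := by linarith
      rw [← log_le_log_iff (exp_pos _) (by positivity), log_exp, log_div (by positivity) (by norm_num),
        log_pow]
      rw [one_div, log_inv] at hT' h96
      push_cast
      have hl0 : 0 ≤ -log ε := by linarith [log_nonpos hε.le (by linarith : ε ≤ 1)]
      linarith
    have h2 : 6 * (d : ℝ) ^ 3 / (K : ℝ) ^ 2 ≤ ε ^ 2 / 96 := by
      have h := pow_le_pow_left₀ hpos.le hK1 2
      calc 6 * (d : ℝ) ^ 3 / (K : ℝ) ^ 2 ≤ 6 * (d : ℝ) ^ 3 / (24 * (d : ℝ) ^ 2 / ε) ^ 2 :=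
            div_le_div_of_nonneg_left (by positivity) (by positivity) h
        _ = ε ^ 2 / (96 * d) := by field_simp; ring
        _ ≤ _ := div_le_div_of_nonneg_left (by positivity) (by norm_num) (by linarith)
    linarith

end Vale.Agent.P309
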