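import Vale.Agent.P309.Copies

/-!
The window bound: what one window of rows can tell a machine with few states.
-/

namespace Vale.Agent.P309

open MeasureTheory ProbabilityTheory Real
open scoped RealInnerProductSpace

variable {n k m : ℕ}

namespace Wgt

variable (w : Wgt n)

/-- The differences of the charts of the copies. -/
noncomputable def diffs (us : Fin (m + 1) → Par n) (j : Fin m) : Euc (n + 1) :=
  chart n (us j.succ) - chart n (us 0)

/-- The logarithm of the normalising constant of the proposal. -/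
noncomputable def ltilt (eta : ℝ) (us : Fin (m + 1) → Par n) : ℝ := log (tilt eta (diffs us))

/-- The tilting exponent, summed over rows. -/
noncomputable def quad (eta : ℝ) (us : Fin (m + 1) → Par n) (W : Fin k → Row (n + 1)) : ℝ :=
  ∑ i, (∑ j, ⟪(W i).1, diffs us j⟫ ^ 2) / (2 * eta ^ 2)

/-- The proposal for the window given the copies, times their independent law. -/
noncomputable def qq (eta : ℝ) (p : (Fin (m + 1) → Par n) × (Fin k → Row (n + 1))) : ℝ :=
  (∏ j, w.f (p.1 j)) * psi eta (p.1 0) p.2 * exp (-quad eta p.1 p.2) / tilt eta (diffs p.1) ^ k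

/-- The log ratio of the joint law of copies and window to the proposal. -/
noncomputable def lam (eta : ℝ) (p : (Fin (m + 1) → Par n) × (Fin k → Row (n + 1))) : ℝ :=
  (∑ j : Fin m, log (psi eta (p.1 j.succ) p.2)) + k * ltilt eta p.1 + quad eta p.1 p.2 -
    m * log (w.rden eta p.2)

/-- A dominating polynomial. -/
noncomputable def dom (p : (Fin (m + 1) → Par n) × (Fin k → Row (n + 1))) : ℝ :=
  1 + ∑ i, (‖(p.2 i).1‖ ^ 2 + ∑ j, resid (chart n (p.1 j)) (p.2 i) ^ 2)

lemma continuous_diffs : Continuous fun us : Fin (m + 1) → Par n => diffs us := by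
  have := continuous_chart (n := n)
  unfold diffs; fun_prop

lemma measurable_tilt (eta : ℝ) :
    Measurable fun us : Fin (m + 1) → Par n => tilt eta (diffs us) := by
  have hc : Continuous fun q : (Fin (m + 1) → Par n) × Euc (n + 1) =>
      exp (-(∑ i, ⟪q.2, diffs q.1 i⟫ ^ 2) / (2 * eta ^ 2)) := by
    have := continuous_diffs (n := n) (m := m)
    fun_prop
  exact hc.measurable.stronglyMeasurable.integral_prod_right'.measurable

lemma measurable_quad (eta : ℝ) :
    Measurable fun p : (Fin (m + 1) → Par n) × (Fin k → Row (n + 1)) => quad eta p.1 p.2 := by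
  have := continuous_diffs (n := n) (m := m)
  exact Continuous.measurable (by unfold quad; fun_prop)

lemma pid_exp_lam {eta : ℝ} (h : 0 < eta) (p : (Fin (m + 1) → Par n) × (Fin k → Row (n + 1))) :
    w.pid eta p * exp (-w.lam eta p) = w.qq eta p := by
  have hr := w.rden_pos h p.2
  have ht := tilt_pos eta (diffs p.1)
  have e1 : exp (-w.lam eta p) = w.rden eta p.2 ^ m * exp (-quad eta p.1 p.2) /
      ((∏ j : Fin m, psi eta (p.1 j.succ) p.2) * tilt eta (diffs p.1) ^ k) := by
    have : -w.lam eta p = (m : ℝ) * log (w.rden eta p.2) + -quad eta p.1 p.2 -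
        ((∑ j : Fin m, log (psi eta (p.1 j.succ) p.2)) + (k : ℝ) * log (tilt eta (diffs p.1))) := by
      simp only [lam, ltilt]; ring
    rw [this, exp_sub, exp_add, exp_add, exp_sum, exp_nat_mul, exp_nat_mul, exp_log hr, exp_log ht,
      Finset.prod_congr rfl fun j _ => exp_log (psi_pos h (p.1 j.succ) p.2)]
  have hp : (0 : ℝ) < ∏ j : Fin m, psi eta (p.1 j.succ) p.2 :=
    Finset.prod_pos fun j _ => psi_pos h _ _
  have e2 : ∏ j, w.fpsi eta (p.1 j) p.2 =
      (∏ j, w.f (p.1 j)) * (psi eta (p.1 0) p.2 * ∏ j : Fin m, psi eta (p.1 j.succ) p.2) := by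
    rw [← Fin.prod_univ_succ (fun j => psi eta (p.1 j) p.2), ← Finset.prod_mul_distrib]; rfl
  rw [e1, pid, qq, e2]
  field_simp

lemma diffs_norm_le {us : Fin (m + 1) → Par n} (hus : ∀ j, us j ∈ cellOf w.l w.c) (j : Fin m) :
    ‖diffs us j‖ ≤ 2 := by
  refine (norm_sub_le _ _).trans ?_
  rw [norm_chart (hus _).1, norm_chart (hus _).1]; norm_num

lemma tilt_le_one (eta : ℝ) (us : Fin (m + 1) → Par n) : tilt eta (diffs us) ≤ 1 := by
  calc _ ≤ ∫ _x : Euc (n + 1), (1 : ℝ) ∂(stdGaussian (Euc (n + 1))) :=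
        integral_mono (integrable_tilt _ _) (integrable_const 1) (tilt_exp_le_one _ _)
    _ = 1 := by simp

lemma abs_ltilt_le {eta : ℝ} (h : 0 < eta) {us : Fin (m + 1) → Par n}
    (hus : ∀ j, us j ∈ cellOf w.l w.c) : |ltilt eta us| ≤ 2 * m / eta ^ 2 := by
  rw [ltilt, abs_of_nonpos (log_nonpos (tilt_pos _ _).le (tilt_le_one _ _))]
  have h1 := le_log_tilt h (diffs us)
  have h2 : ∑ i, ‖diffs us i‖ ^ 2 ≤ ∑ _i : Fin m, (4 : ℝ) := Finset.sum_le_sum fun i _ => by
    nlinarith [w.diffs_norm_le hus i, norm_nonneg (diffs us i)]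
  simp only [Finset.sum_const, Finset.card_univ, Fintype.card_fin, nsmul_eq_mul] at h2
  have h3 : (∑ i, ‖diffs us i‖ ^ 2) / (2 * eta ^ 2) ≤ 2 * m / eta ^ 2 := by
    rw [div_le_div_iff₀ (by positivity) (by positivity)]; nlinarith
  rw [neg_div] at h1
  linarith

lemma inner_diffs_sq (us : Fin (m + 1) → Par n) (p : Row (n + 1)) (j : Fin m) :
    ⟪p.1, diffs us j⟫ ^ 2 ≤
      2 * resid (chart n (us j.succ)) p ^ 2 + 2 * resid (chart n (us 0)) p ^ 2 := by
  have : ⟪p.1, diffs us j⟫ = resid (chart n (us 0)) p - resid (chart n (us j.succ)) p := by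
    simp [diffs, resid, inner_sub_right]
  rw [this]
  nlinarith [sq_nonneg (resid (chart n (us j.succ)) p + resid (chart n (us 0)) p)]

lemma resid_le_dom (p : (Fin (m + 1) → Par n) × (Fin k → Row (n + 1))) (i : Fin k)
    (j : Fin (m + 1)) : resid (chart n (p.1 j)) (p.2 i) ^ 2 ≤ dom p := by
  have h1 : ∀ i' ∈ Finset.univ, 0 ≤ ‖(p.2 i').1‖ ^ 2 + ∑ j', resid (chart n (p.1 j')) (p.2 i') ^ 2 :=
    fun i' _ => by positivity
  have h2 := Finset.single_le_sum h1 (Finset.mem_univ i)
  have h3 := Finset.single_le_sum (f := fun j' => resid (chart n (p.1 j')) (p.2 i) ^ 2)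
    (fun _ _ => sq_nonneg _) (Finset.mem_univ j)
  have h4 : 0 ≤ ‖(p.2 i).1‖ ^ 2 := sq_nonneg _
  simp only [dom] at h2 h3 ⊢
  linarith

lemma one_le_dom (p : (Fin (m + 1) → Par n) × (Fin k → Row (n + 1))) : 1 ≤ dom p :=
  le_add_of_nonneg_right (Finset.sum_nonneg fun i _ => by positivity)

lemma norm_le_dom (p : (Fin (m + 1) → Par n) × (Fin k → Row (n + 1))) (i : Fin k) :
    ‖(p.2 i).1‖ ^ 2 ≤ dom p := by
  have h1 : ∀ i' ∈ Finset.univ, 0 ≤ ‖(p.2 i').1‖ ^ 2 + ∑ j', resid (chart n (p.1 j')) (p.2 i') ^ 2 :=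
    fun i' _ => by positivity
  have h2 := Finset.single_le_sum h1 (Finset.mem_univ i)
  have h3 : 0 ≤ ∑ j', resid (chart n (p.1 j')) (p.2 i) ^ 2 :=
    Finset.sum_nonneg fun _ _ => sq_nonneg _
  simp only [dom] at h2 ⊢
  linarith

/-- All the logarithmic terms are dominated. -/
lemma exists_lam_bound {eta : ℝ} (h : 0 < eta) :
    ∃ C, ∀ p : (Fin (m + 1) → Par n) × (Fin k → Row (n + 1)), (∀ j, p.1 j ∈ cellOf w.l w.c) →
      |w.lam eta p| ≤ C * dom p := by
  set L := |log (√(2 * π) * eta)|
  refine ⟨(m : ℝ) * (k * (L + 1 / eta ^ 2)) + k * (2 * m / eta ^ 2) + k * (m * (4 / eta ^ 2)) +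
    (m : ℝ) * (k * (L + 5 / eta ^ 2)), fun p hp => ?_⟩
  have hd := one_le_dom p
  have hdiv : ∀ (i : Fin k) (j : Fin (m + 1)),
      resid (chart n (p.1 j)) (p.2 i) ^ 2 / (2 * eta ^ 2) ≤ 1 / eta ^ 2 * dom p := fun i j => by
    rw [one_div_mul_eq_div, div_le_div_iff₀ (by positivity) (by positivity)]
    nlinarith [resid_le_dom p i j, sq_nonneg eta, sq_nonneg (resid (chart n (p.1 j)) (p.2 i))]
  have h1 : |∑ j : Fin m, log (psi eta (p.1 j.succ) p.2)| ≤
      (m : ℝ) * (k * (L + 1 / eta ^ 2)) * dom p := by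
    refine (Finset.abs_sum_le_sum_abs _ _).trans
      ((Finset.sum_le_sum (g := fun _ => (k : ℝ) * (L + 1 / eta ^ 2) * dom p) fun j _ => ?_).trans_eq
        (by simp only [Finset.sum_const, Finset.card_univ, Fintype.card_fin, nsmul_eq_mul]; ring))
    rw [psi, log_prod fun i _ => (gden_pos h _).ne']
    refine (Finset.abs_sum_le_sum_abs _ _).trans
      ((Finset.sum_le_sum (g := fun _ => (L + 1 / eta ^ 2) * dom p) fun i _ => ?_).trans_eq
        (by simp only [Finset.sum_const, Finset.card_univ, Fintype.card_fin, nsmul_eq_mul]; ring))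
    rw [log_gden h]
    refine (abs_sub _ _).trans ?_
    rw [abs_neg, abs_of_nonneg (by positivity : 0 ≤ resid (chart n (p.1 j.succ)) (p.2 i) ^ 2 /
      (2 * eta ^ 2)), add_mul]
    exact add_le_add (le_mul_of_one_le_right (abs_nonneg _) hd) (hdiv i j.succ)
  have h2 : |(k : ℝ) * ltilt eta p.1| ≤ k * (2 * m / eta ^ 2) * dom p := by
    rw [abs_mul, Nat.abs_cast, mul_assoc]
    refine mul_le_mul_of_nonneg_left ((w.abs_ltilt_le h hp).trans ?_) (by positivity)
    exact le_mul_of_one_le_right (by positivity) hd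
  have h3 : |quad eta p.1 p.2| ≤ k * (m * (4 / eta ^ 2)) * dom p := by
    rw [abs_of_nonneg (Finset.sum_nonneg fun i _ => by positivity), quad]
    refine (Finset.sum_le_sum (g := fun _ => (m : ℝ) * (4 / eta ^ 2) * dom p) fun i _ => ?_).trans_eq
        (by simp only [Finset.sum_const, Finset.card_univ, Fintype.card_fin, nsmul_eq_mul]; ring)
    rw [Finset.sum_div]
    refine (Finset.sum_le_sum (g := fun _ => 4 / eta ^ 2 * dom p) fun j _ => ?_).trans_eq
        (by simp only [Finset.sum_const, Finset.card_univ, Fintype.card_fin, nsmul_eq_mul]; ring)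
    refine (div_le_div_of_nonneg_right (inner_diffs_sq p.1 (p.2 i) j) (by positivity)).trans ?_
    have := hdiv i j.succ
    have := hdiv i 0
    rw [add_div, mul_div_assoc, mul_div_assoc, show (4 : ℝ) / eta ^ 2 = 4 * (1 / eta ^ 2) by ring]
    linarith
  have h4 : |(m : ℝ) * log (w.rden eta p.2)| ≤ (m : ℝ) * (k * (L + 5 / eta ^ 2)) * dom p := by
    rw [abs_mul, Nat.abs_cast, mul_assoc]
    refine mul_le_mul_of_nonneg_left ?_ (by positivity)
    have hge := log_le_log (by positivity) (w.rden_ge h p.2)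
    have hle := log_le_log (w.rden_pos h p.2) (w.rden_le h p.2)
    rw [log_mul (by positivity) (exp_ne_zero _), log_exp, log_pow, log_inv] at hge
    rw [log_pow, log_inv] at hle
    have hsum : (∑ i, ((p.2 i).2 ^ 2 + ‖(p.2 i).1‖ ^ 2)) / eta ^ 2 ≤
        (k : ℝ) * (5 / eta ^ 2) * dom p := by
      rw [Finset.sum_div]
      refine (Finset.sum_le_sum (g := fun _ => 5 / eta ^ 2 * dom p) fun i _ => ?_).trans_eq
        (by simp only [Finset.sum_const, Finset.card_univ, Fintype.card_fin, nsmul_eq_mul]; ring)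
      rw [div_mul_eq_mul_div]
      refine div_le_div_of_nonneg_right ?_ (by positivity)
      have h5 := abs_real_inner_le_norm (p.2 i).1 (chart n (p.1 0))
      rw [norm_chart (hp 0).1, mul_one] at h5
      have h6 : (p.2 i).2 = resid (chart n (p.1 0)) (p.2 i) + ⟪(p.2 i).1, chart n (p.1 0)⟫ := by
        simp [resid]
      have h7 : ⟪(p.2 i).1, chart n (p.1 0)⟫ ^ 2 ≤ ‖(p.2 i).1‖ ^ 2 := by
        rw [← sq_abs]; exact pow_le_pow_left₀ (abs_nonneg _) h5 2
      have h8 : (p.2 i).2 ^ 2 ≤
          2 * resid (chart n (p.1 0)) (p.2 i) ^ 2 + 2 * ⟪(p.2 i).1, chart n (p.1 0)⟫ ^ 2 := by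
        rw [h6]
        nlinarith [sq_nonneg (resid (chart n (p.1 0)) (p.2 i) - ⟪(p.2 i).1, chart n (p.1 0)⟫)]
      linarith [resid_le_dom p i 0, norm_le_dom p i]
    have hkL : (k : ℝ) * L ≤ (k : ℝ) * L * dom p := le_mul_of_one_le_right (by positivity) hd
    have hL : -L ≤ log (√(2 * π) * eta) ∧ log (√(2 * π) * eta) ≤ L :=
      ⟨neg_abs_le _, le_abs_self _⟩
    have hk0 : (0 : ℝ) ≤ k := Nat.cast_nonneg k
    have hnn : (0 : ℝ) ≤ (k : ℝ) * (5 / eta ^ 2) * dom p := by positivity
    rw [neg_div] at hge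
    have e : (k : ℝ) * (L + 5 / eta ^ 2) * dom p =
        (k : ℝ) * L * dom p + (k : ℝ) * (5 / eta ^ 2) * dom p := by ring
    rw [abs_le, e]
    constructor <;> nlinarith [mul_le_mul_of_nonneg_left hL.1 hk0, mul_le_mul_of_nonneg_left hL.2 hk0]
  calc |w.lam eta p| ≤ |∑ j : Fin m, log (psi eta (p.1 j.succ) p.2)| + |(k : ℝ) * ltilt eta p.1| +
        |quad eta p.1 p.2| + |(m : ℝ) * log (w.rden eta p.2)| := by
        unfold lam
        exact (abs_sub _ _).trans (add_le_add (abs_add_three _ _ _) le_rfl)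
    _ ≤ _ := by linarith

/-- The measure on copies and windows. -/
noncomputable def big (m k : ℕ) : Measure ((Fin (m + 1) → Par n) × (Fin k → Row (n + 1))) :=
  (w.cm m).prod (wBase (n + 1) k)

lemma ae_big (m k : ℕ) : ∀ᵐ p ∂(w.big m k), ∀ j, p.1 j ∈ cellOf w.l w.c :=
  Measure.quasiMeasurePreserving_fst.ae (w.ae_cell_all m)

lemma pid_bdd {eta : ℝ} (h : 0 < eta) {g : (Fin (m + 1) → Par n) × (Fin k → Row (n + 1)) → ℝ}
    (hg : Measurable g) {C : ℝ} (hC : ∀ᵐ p ∂(w.big m k), |g p| ≤ C) :
    Integrable (fun p => w.pid eta p * g p) (w.big m k) :=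
  (w.pid_int h).1.mul_bdd (c := C) hg.aestronglyMeasurable
    (hC.mono fun p hp => by rwa [Real.norm_eq_abs])

lemma pid_resid {eta : ℝ} (h : 0 < eta) (i : Fin k) (j : Fin (m + 1)) :
    Integrable (fun p => w.pid eta p * resid (chart n (p.1 j)) (p.2 i) ^ 2) (w.big m k) ∧
      ∫ p, w.pid eta p * resid (chart n (p.1 j)) (p.2 i) ^ 2 ∂(w.big m k) ≤ eta ^ 2 := by
  have hgm : Measurable fun p : Par n × Row (n + 1) => resid (chart n p.1) p.2 ^ 2 := by
    have := continuous_chart (n := n)
    exact Continuous.measurable (by unfold resid; fun_prop)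
  obtain ⟨h1, h2⟩ := w.fpsi_row h i (fun u q => resid (chart n u) q ^ 2) hgm
    (fun _ _ => sq_nonneg _) (C := eta ^ 2)
    (fun u _ => ⟨(row_resid h (chart n u)).1, le_of_eq (row_resid h (chart n u)).2⟩)
  obtain ⟨h3, h4⟩ := w.pid_marginal h j (g := fun u W => resid (chart n u) (W i) ^ 2)
    ((measurable_resid_chart i).pow_const 2) h1
  exact ⟨h3, h4.trans_le h2⟩

lemma pid_dom {eta : ℝ} (h : 0 < eta) :
    Integrable (fun p => w.pid eta p * dom p) (w.big m k) := by
  have h1 : ∀ i : Fin k, Integrable (fun p => w.pid eta p * ‖(p.2 i).1‖ ^ 2) (w.big m k) := by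
    intro i
    obtain ⟨h1, -⟩ := w.fpsi_row h i (fun _ q => ‖q.1‖ ^ 2) (by fun_prop) (fun _ _ => sq_nonneg _)
      (C := ∫ x, ‖x‖ ^ 2 ∂(stdGaussian (Euc (n + 1)))) (fun u _ => by
        have := row_fubini h (chart n u) (fun x => ‖x‖ ^ 2) integrable_norm_sq
        simp only [mul_comm (‖_‖ ^ 2)] at this
        exact ⟨this.1, le_of_eq this.2⟩)
    exact (w.pid_marginal h 0 (g := fun _ W => ‖(W i).1‖ ^ 2) (by fun_prop) h1).1
  simp only [dom, mul_add, mul_one, Finset.mul_sum]
  exact (w.pid_int h).1.add (integrable_finsetSum _ fun i _ =>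
    (h1 i).add (integrable_finsetSum _ fun j _ => (w.pid_resid h i j).1))

lemma measurable_lam (eta : ℝ) :
    Measurable fun p : (Fin (m + 1) → Par n) × (Fin k → Row (n + 1)) => w.lam eta p := by
  refine (((Finset.measurable_sum _ fun j _ => ?_).add ?_).add (measurable_quad eta)).sub ?_
  · exact measurable_log.comp ((measurable_psi eta).comp
      (f := fun p : (Fin (m + 1) → Par n) × (Fin k → Row (n + 1)) => (p.1 j.succ, p.2))
      (((measurable_pi_apply j.succ).comp measurable_fst).prodMk measurable_snd))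
  · exact (measurable_log.comp ((measurable_tilt eta).comp measurable_fst)).const_mul _
  · exact (measurable_log.comp ((w.measurable_rden eta).comp measurable_snd)).const_mul _

lemma pid_lam {eta : ℝ} (h : 0 < eta) {g : (Fin (m + 1) → Par n) × (Fin k → Row (n + 1)) → ℝ}
    (hg : Measurable g) (hg1 : ∀ p, |g p| ≤ 1) :
    Integrable (fun p => w.pid eta p * g p * w.lam eta p) (w.big m k) := by
  obtain ⟨C, hC⟩ := w.exists_lam_bound (m := m) (k := k) h
  refine ((w.pid_dom h).const_mul C).mono'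
    (((w.measurable_pid eta).mul hg).mul (w.measurable_lam eta)).aestronglyMeasurable
    ((w.ae_big m k).mono fun p hp => ?_)
  rw [Real.norm_eq_abs, abs_mul, abs_mul, abs_of_nonneg (w.pid_nonneg h p),
    show C * (w.pid eta p * dom p) = w.pid eta p * 1 * (C * dom p) by ring]
  exact mul_le_mul (mul_le_mul_of_nonneg_left (hg1 p) (w.pid_nonneg h p)) (hC p hp) (abs_nonneg _)
    (mul_nonneg (w.pid_nonneg h p) zero_le_one)

/-- The proposal integrates to one against any function of the copies. -/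
lemma qq_int {eta : ℝ} (h : 0 < eta) {φ : (Fin (m + 1) → Par n) → ℝ} (hφ : Measurable φ) {C : ℝ}
    (hC : ∀ us, |φ us| ≤ C) :
    Integrable (fun p => w.qq eta p * φ p.1) (w.big m k) ∧
      ∫ p, w.qq eta p * φ p.1 ∂(w.big m k) = ∫ us, (∏ j, w.f (us j)) * φ us ∂(w.cm m) := by
  have hF : Integrable (fun us : Fin (m + 1) → Par n => (∏ j, w.f (us j)) * φ us) (w.cm m) :=
    (Integrable.fintype_prod (f := fun _ => w.f) fun _ => w.int_f).mul_bdd (c := C)
      hφ.aestronglyMeasurable (.of_forall fun us => by rw [Real.norm_eq_abs]; exact hC us)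
  have hm : Measurable fun p : (Fin (m + 1) → Par n) × (Fin k → Row (n + 1)) =>
      w.qq eta p * φ p.1 := by
    refine Measurable.mul (Measurable.div ((Measurable.mul ?_ ?_).mul ?_) ?_) (hφ.comp measurable_fst)
    · exact Finset.measurable_prod _ fun j _ =>
        w.meas.comp ((measurable_pi_apply j).comp measurable_fst)
    · exact (measurable_psi eta).comp
        (f := fun p : (Fin (m + 1) → Par n) × (Fin k → Row (n + 1)) => (p.1 0, p.2))
        (((measurable_pi_apply 0).comp measurable_fst).prodMk measurable_snd)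
    · exact measurable_exp.comp (measurable_quad eta).neg
    · exact ((measurable_tilt eta).comp measurable_fst).pow_const k
  have hsec : ∀ us : Fin (m + 1) → Par n,
      Integrable (fun W => w.qq eta (us, W) * φ us) (wBase (n + 1) k) ∧
      ∫ W, w.qq eta (us, W) * φ us ∂(wBase (n + 1) k) = (∏ j, w.f (us j)) * φ us := by
    intro us
    have e : ∀ W : Fin k → Row (n + 1), w.qq eta (us, W) * φ us =
        (∏ j, w.f (us j)) * φ us / tilt eta (diffs us) ^ k *
          ∏ i, (exp (-(∑ j, ⟪(W i).1, diffs us j⟫ ^ 2) / (2 * eta ^ 2)) *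
            gden eta (resid (chart n (us 0)) (W i))) := by
      intro W
      have hq : -quad eta us W = ∑ i, -(∑ j, ⟪(W i).1, diffs us j⟫ ^ 2) / (2 * eta ^ 2) := by
        rw [quad, ← Finset.sum_neg_distrib]
        exact Finset.sum_congr rfl fun i _ => (neg_div _ _).symm
      rw [Finset.prod_mul_distrib, ← exp_sum]
      simp only [qq, psi, hq]
      ring
    have hrow := row_fubini h (chart n (us 0))
      (fun x => exp (-(∑ j, ⟪x, diffs us j⟫ ^ 2) / (2 * eta ^ 2))) (integrable_tilt eta (diffs us))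
    simp only [e]
    refine ⟨(Integrable.fintype_prod fun _ => hrow.1).const_mul _, ?_⟩
    rw [integral_const_mul, wBase, integral_fintype_prod_eq_prod (fun (_ : Fin k) p =>
      exp (-(∑ j, ⟪Prod.fst p, diffs us j⟫ ^ 2) / (2 * eta ^ 2)) *
        gden eta (resid (chart n (us 0)) p)), Finset.prod_const, Finset.card_univ, Fintype.card_fin,
      hrow.2]
    exact div_mul_cancel₀ _ (pow_ne_zero _ (tilt_pos eta (diffs us)).ne')
  have hint : Integrable (fun p => w.qq eta p * φ p.1) (w.big m k) := by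
    rw [big, integrable_prod_iff hm.aestronglyMeasurable]
    refine ⟨.of_forall fun us => (hsec us).1, hF.norm.congr (.of_forall fun us => ?_)⟩
    show ‖(∏ j, w.f (us j)) * φ us‖ = ∫ W, ‖w.qq eta (us, W) * φ us‖ ∂(wBase (n + 1) k)
    have hpos : ∀ W : Fin k → Row (n + 1), 0 ≤ w.qq eta (us, W) := fun W =>
      div_nonneg (mul_nonneg (mul_nonneg (Finset.prod_nonneg fun _ _ => w.nonneg _)
        (psi_pos h _ _).le) (exp_pos _).le) (pow_nonneg (tilt_pos _ _).le _)
    simp only [norm_mul, fun W => norm_of_nonneg (hpos W), integral_mul_const]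
    by_cases hφ0 : φ us = 0
    · simp [hφ0]
    · have := (hsec us).2
      rw [integral_mul_const] at this
      rw [mul_right_cancel₀ hφ0 this]
      rw [norm_of_nonneg (Finset.prod_nonneg fun _ _ => w.nonneg _)]
  refine ⟨hint, ?_⟩
  rw [big] at hint ⊢
  rw [integral_prod _ hint]
  exact integral_congr_ae (.of_forall fun us => (hsec us).2)

/-- The mean log ratio. -/
noncomputable def cost (eta : ℝ) (m k : ℕ) : ℝ := ∫ p, w.pid eta p * w.lam eta p ∂(w.big m k)

/-- Donsker-Varadhan for a bounded function of the copies. -/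
lemma mean_le_cost {eta : ℝ} (h : 0 < eta) {φ : (Fin (m + 1) → Par n) → ℝ} (hφ : Measurable φ)
    {C : ℝ} (hC : ∀ us, |φ us| ≤ C) :
    ∫ p, w.pid eta p * φ p.1 ∂(w.big m k) ≤
      w.cost eta m k + log (∫ us, (∏ j, w.f (us j)) * exp (φ us) ∂(w.cm m)) := by
  set I := ∫ us, (∏ j, w.f (us j)) * exp (φ us) ∂(w.cm m) with hI
  have hFint : Integrable (fun us : Fin (m + 1) → Par n => ∏ j, w.f (us j)) (w.cm m) :=
    Integrable.fintype_prod (f := fun _ => w.f) fun _ => w.int_f
  have hFe : Integrable (fun us : Fin (m + 1) → Par n => (∏ j, w.f (us j)) * exp (φ us)) (w.cm m) :=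
    hFint.mul_bdd (c := exp C) (measurable_exp.comp hφ).aestronglyMeasurable
      (.of_forall fun us => by
        rw [Real.norm_eq_abs, abs_of_pos (exp_pos _)]; exact exp_le_exp.2 (abs_le.1 (hC us)).2)
  have hI0 : 0 < I := by
    refine lt_of_lt_of_le (exp_pos (-C)) ?_
    calc exp (-C) = ∫ us, (∏ j, w.f (us j)) * exp (-C) ∂(w.cm m) := by
          rw [integral_mul_const, cm, integral_fintype_prod_eq_prod (fun (_ : Fin (m + 1)) u => w.f u)]
          simp [w.integral_f]
      _ ≤ I := integral_mono (hFint.mul_const _) hFe fun us =>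
          mul_le_mul_of_nonneg_left (exp_le_exp.2 (abs_le.1 (hC us)).1)
            (Finset.prod_nonneg fun _ _ => w.nonneg _)
  obtain ⟨hq, hq'⟩ := w.qq_int (m := m) (k := k) h (φ := fun us => exp (φ us) / I)
    ((measurable_exp.comp hφ).div_const I) (C := exp C / I) (fun us => by
      rw [abs_of_pos (by positivity)]
      exact div_le_div_of_nonneg_right (exp_le_exp.2 (abs_le.1 (hC us)).2) hI0.le)
  have hq1 : ∫ us, (∏ j, w.f (us j)) * (exp (φ us) / I) ∂(w.cm m) = 1 := by
    simp only [← mul_div_assoc]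
    rw [integral_div, ← hI, div_self hI0.ne']
  have hφi : Integrable (fun p => w.pid eta p * φ p.1) (w.big m k) :=
    w.pid_bdd h (hφ.comp measurable_fst) (.of_forall fun p => hC _)
  have hlam : Integrable (fun p => w.pid eta p * w.lam eta p) (w.big m k) := by
    simpa using w.pid_lam (m := m) (k := k) h measurable_const (g := fun _ => (1 : ℝ)) (fun _ => by simp)
  have hpi := w.pid_int (m := m) (k := k) h
  have hG := gibbs (μ := w.big m k) (p := fun p => w.pid eta p)
    (q := fun p => w.qq eta p * (exp (φ p.1) / I))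
    (L := fun p => φ p.1 - log I - w.lam eta p) (w.pid_nonneg h) hpi.1 hq
    (((hφi.sub (hpi.1.mul_const (log I))).sub hlam).congr
      (.of_forall fun p => by simp only [Pi.sub_apply]; ring))
    (fun p => le_of_eq (by
      rw [sub_eq_add_neg (φ p.1 - log I), exp_add, exp_sub, exp_log hI0, ← w.pid_exp_lam h p]; ring))
  rw [hq', hq1] at hG
  have e : ∀ p : (Fin (m + 1) → Par n) × (Fin k → Row (n + 1)),
      w.pid eta p * (φ p.1 - log I - w.lam eta p) =
        w.pid eta p * φ p.1 - w.pid eta p * log I - w.pid eta p * w.lam eta p := fun p => by ring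
  simp only [e] at hG
  rw [integral_sub (hφi.sub' (hpi.1.mul_const _)) hlam, integral_sub hφi (hpi.1.mul_const _),
    integral_mul_const] at hG
  have h1 : ∫ p, w.pid eta p ∂(w.big m k) = 1 := hpi.2
  rw [h1] at hG
  unfold cost
  linarith

lemma sigma_dist {u : Par n} (hu : u ∈ cellOf w.l w.c) {v : Par n} (hv : v ∈ cellOf w.l w.c)
    (hn : 1 ≤ n) : ‖chart n u - chart n v‖ ≤ 2 * (1 / 2 : ℝ) ^ w.l :=
  (chart_dist hu.1 hv.1).trans
    (mul_le_mul_of_nonneg_left (flat_cell_dist w.hc hu hv hn) (by norm_num))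

/-- The corner of the cell. -/
noncomputable def corner : Par n := fun i => (w.c i : ℝ) / 2 ^ w.l

lemma corner_mem : w.corner ∈ cellOf w.l w.c := by
  rw [cellOf_eq w.hc]
  simp only [Set.mem_univ_pi, Set.mem_Ico, corner]
  exact fun i => ⟨le_rfl, div_lt_div_of_pos_right (by linarith) (by positivity)⟩

/-- The mean log ratio is controlled by the tilt. -/
lemma cost_le (hn : 1 ≤ n) {eta : ℝ} (h : 0 < eta) (hsig : eta ≤ (1 / 2 : ℝ) ^ w.l) (m k : ℕ) :
    w.cost eta m k ≤ k * (∫ p, w.pid eta p *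
      ((m : ℝ) * log ((1 / 2 : ℝ) ^ w.l / eta) + ltilt eta p.1) ∂(w.big m k)) + 4 * k * m := by
  set σ : ℝ := (1 / 2 : ℝ) ^ w.l with hσ
  have hσ0 : 0 < σ := by positivity
  have h2σ : (0 : ℝ) < 2 * σ := by positivity
  set sc := chart n w.corner with hsc
  set q0 : (Fin k → Row (n + 1)) → ℝ := fun W => ∏ i, gden (2 * σ) (resid sc (W i)) with hq0
  have hq0pos : ∀ W, 0 < q0 W := fun W => Finset.prod_pos fun i _ => gden_pos h2σ _
  have hq0m : Measurable q0 :=
    Finset.measurable_prod _ fun i _ => (measurable_gden _).comp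
      ((measurable_resid sc).comp (measurable_pi_apply i))
  have hgm : Measurable fun p : Par n × (Fin k → Row (n + 1)) => q0 p.2 / w.rden eta p.2 :=
    (hq0m.comp measurable_snd).div ((w.measurable_rden eta).comp measurable_snd)
  have hq0i : Integrable q0 (wBase (n + 1) k) ∧ ∫ W, q0 W ∂(wBase (n + 1) k) = 1 := by
    refine ⟨Integrable.fintype_prod fun i => (row_one h2σ sc).1, ?_⟩
    simp only [hq0, wBase]
    rw [integral_fintype_prod_eq_prod (fun (_ : Fin k) p => gden (2 * σ) (resid sc p))]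
    simp [(row_one h2σ sc).2]
  have hg1 : Integrable (fun p : Par n × (Fin k → Row (n + 1)) =>
      w.fpsi eta p.1 p.2 * (q0 p.2 / w.rden eta p.2)) (w.cm1.prod (wBase (n + 1) k)) := by
    have haem : AEStronglyMeasurable (fun p : Par n × (Fin k → Row (n + 1)) =>
        w.fpsi eta p.1 p.2 * (q0 p.2 / w.rden eta p.2)) (w.cm1.prod (wBase (n + 1) k)) :=
      ((w.measurable_fpsi eta).mul hgm).aestronglyMeasurable
    rw [integrable_prod_iff' haem]
    refine ⟨.of_forall fun W => (w.int_fpsi_left h W).mul_const (q0 W / w.rden eta W),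
      hq0i.1.congr (.of_forall fun W => ?_)⟩
    show q0 W = ∫ u, ‖w.fpsi eta u W * (q0 W / w.rden eta W)‖ ∂w.cm1
    have h0 : 0 ≤ q0 W / w.rden eta W := div_nonneg (hq0pos W).le (w.rden_pos h W).le
    simp only [fun u => norm_of_nonneg (mul_nonneg (w.fpsi_nonneg h u W) h0), integral_mul_const]
    rw [← rden, mul_div_cancel₀ _ (w.rden_pos h W).ne']
  obtain ⟨hpq, hpq'⟩ := w.pid_marginal (m := m) h 0 (g := fun _ W => q0 W / w.rden eta W) hgm hg1
  have hone : ∫ p : Par n × (Fin k → Row (n + 1)),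
      w.fpsi eta p.1 p.2 * (q0 p.2 / w.rden eta p.2) ∂(w.cm1.prod (wBase (n + 1) k)) = 1 := by
    rw [integral_prod_symm _ hg1, ← hq0i.2]
    refine integral_congr_ae (.of_forall fun W => ?_)
    simp only
    rw [integral_mul_const, ← rden, mul_div_cancel₀ _ (w.rden_pos h W).ne']
  have hpi := w.pid_int (m := m) (k := k) h
  have ht2 : ∀ i : Fin k, Integrable (fun p => w.pid eta p * resid sc (p.2 i) ^ 2) (w.big m k) ∧
      ∫ p, w.pid eta p * resid sc (p.2 i) ^ 2 ∂(w.big m k) ≤ 10 * σ ^ 2 := by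
    intro i
    obtain ⟨h1, h2⟩ := w.fpsi_row h i (fun _ q => resid sc q ^ 2)
      (((measurable_resid sc).comp measurable_snd).pow_const 2) (fun _ _ => sq_nonneg _)
      (C := 10 * σ ^ 2) (fun u hu => by
        have hA := row_resid h (chart n u)
        have hB := row_fubini h (chart n u) (fun x => ⟪x, chart n u - sc⟫ ^ 2) (integrable_inner_sq _)
        have hmaj := (hA.1.const_mul 2).add (hB.1.const_mul 2)
        have hle : ∀ p : Row (n + 1), gden eta (resid (chart n u) p) * resid sc p ^ 2 ≤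
            2 * (gden eta (resid (chart n u) p) * resid (chart n u) p ^ 2) +
              2 * (⟪p.1, chart n u - sc⟫ ^ 2 * gden eta (resid (chart n u) p)) := by
          intro p
          have e : resid sc p = resid (chart n u) p + ⟪p.1, chart n u - sc⟫ := by
            simp [resid, inner_sub_right]
          rw [e]
          nlinarith [gden_pos h (resid (chart n u) p), mul_nonneg (gden_pos h (resid (chart n u) p)).le
            (sq_nonneg (resid (chart n u) p - ⟪p.1, chart n u - sc⟫))]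
        have hint : Integrable (fun p => gden eta (resid (chart n u) p) * resid sc p ^ 2)
            (rowBase (n + 1)) := hmaj.mono'
          (((measurable_gden eta).comp (measurable_resid _)).mul
            ((measurable_resid sc).pow_const 2)).aestronglyMeasurable
          (.of_forall fun p => by
            rw [Real.norm_eq_abs, abs_of_nonneg (mul_nonneg (gden_pos h _).le (sq_nonneg _))]
            exact hle p)
        refine ⟨hint, (integral_mono hint hmaj hle).trans ?_⟩
        simp only [Pi.add_apply]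
        rw [integral_add (hA.1.const_mul 2) (hB.1.const_mul 2), integral_const_mul, integral_const_mul,
          hA.2, hB.2, integral_inner_sq]
        have := w.sigma_dist hu w.corner_mem hn
        rw [← hsc, ← hσ] at this
        nlinarith [norm_nonneg (chart n u - sc)])
    obtain ⟨h3, h4⟩ := w.pid_marginal (m := m) h 0 (g := fun _ W => resid sc (W i) ^ 2)
      (((measurable_resid sc).comp ((measurable_pi_apply i).comp measurable_snd)).pow_const 2) h1
    exact ⟨h3, h4.trans_le h2⟩
  -- replace the marginal density of the window by the proposal `q0`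
  have hlq : ∀ W, log (q0 W) = -(k : ℝ) * log (√(2 * π) * (2 * σ)) -
      ∑ i, resid sc (W i) ^ 2 / (2 * (2 * σ) ^ 2) := by
    intro W
    rw [hq0, log_prod fun i _ => (gden_pos h2σ _).ne']
    simp only [log_gden h2σ, Finset.sum_sub_distrib, Finset.sum_const, Finset.card_univ,
      Fintype.card_fin, nsmul_eq_mul]
    ring
  have hlqi : Integrable (fun p => w.pid eta p * log (q0 p.2)) (w.big m k) := by
    have : Integrable (fun p => w.pid eta p * (-(k : ℝ) * log (√(2 * π) * (2 * σ))) -
        ∑ i, w.pid eta p * resid sc (p.2 i) ^ 2 / (2 * (2 * σ) ^ 2)) (w.big m k) :=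
      (hpi.1.mul_const _).sub (integrable_finsetSum _ fun i _ => (ht2 i).1.div_const _)
    refine this.congr (.of_forall fun p => ?_)
    simp only [hlq, mul_sub, Finset.mul_sum, mul_div_assoc]
  have hlrm : Measurable fun p : (Fin (m + 1) → Par n) × (Fin k → Row (n + 1)) =>
      log (w.rden eta p.2) := measurable_log.comp ((w.measurable_rden eta).comp measurable_snd)
  have hlri : Integrable (fun p => w.pid eta p * log (w.rden eta p.2)) (w.big m k) := by
    set L := |log (√(2 * π) * eta)|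
    refine ((w.pid_dom h).const_mul ((k : ℝ) * (L + 5 / eta ^ 2))).mono'
      ((w.measurable_pid eta).mul hlrm).aestronglyMeasurable ((w.ae_big m k).mono fun p hp => ?_)
    rw [Real.norm_eq_abs, abs_mul, abs_of_nonneg (w.pid_nonneg h p), mul_left_comm]
    refine mul_le_mul_of_nonneg_left ?_ (w.pid_nonneg h p)
    have hd := one_le_dom p
    have hge := log_le_log (by positivity) (w.rden_ge h p.2)
    have hle := log_le_log (w.rden_pos h p.2) (w.rden_le h p.2)
    rw [log_mul (by positivity) (exp_ne_zero _), log_exp, log_pow, log_inv, neg_div] at hge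
    rw [log_pow, log_inv] at hle
    have hsum : (∑ i, ((p.2 i).2 ^ 2 + ‖(p.2 i).1‖ ^ 2)) / eta ^ 2 ≤
        (k : ℝ) * (5 / eta ^ 2) * dom p := by
      rw [Finset.sum_div]
      refine (Finset.sum_le_sum (g := fun _ => 5 / eta ^ 2 * dom p) fun i _ => ?_).trans_eq
        (by simp only [Finset.sum_const, Finset.card_univ, Fintype.card_fin, nsmul_eq_mul]; ring)
      rw [div_mul_eq_mul_div]
      refine div_le_div_of_nonneg_right ?_ (by positivity)
      have h5 := abs_real_inner_le_norm (p.2 i).1 (chart n (p.1 0))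
      rw [norm_chart (hp 0).1, mul_one] at h5
      have h7 : ⟪(p.2 i).1, chart n (p.1 0)⟫ ^ 2 ≤ ‖(p.2 i).1‖ ^ 2 := by
        rw [← sq_abs]; exact pow_le_pow_left₀ (abs_nonneg _) h5 2
      have h6 : (p.2 i).2 = resid (chart n (p.1 0)) (p.2 i) + ⟪(p.2 i).1, chart n (p.1 0)⟫ := by
        simp [resid]
      have h8 : (p.2 i).2 ^ 2 ≤
          2 * resid (chart n (p.1 0)) (p.2 i) ^ 2 + 2 * ⟪(p.2 i).1, chart n (p.1 0)⟫ ^ 2 := by
        rw [h6]
        nlinarith [sq_nonneg (resid (chart n (p.1 0)) (p.2 i) - ⟪(p.2 i).1, chart n (p.1 0)⟫)]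
      linarith [resid_le_dom p i 0, norm_le_dom p i]
    have hkL : (k : ℝ) * L ≤ (k : ℝ) * L * dom p := le_mul_of_one_le_right (by positivity) hd
    have hnn : (0 : ℝ) ≤ (k : ℝ) * (5 / eta ^ 2) * dom p := by positivity
    have hk0 : (0 : ℝ) ≤ k := Nat.cast_nonneg k
    have hA : (k : ℝ) * log (√(2 * π) * eta) ≤ k * L :=
      mul_le_mul_of_nonneg_left (le_abs_self _) hk0
    have hB : -((k : ℝ) * L) ≤ k * log (√(2 * π) * eta) := by
      rw [← mul_neg]; exact mul_le_mul_of_nonneg_left (neg_abs_le _) hk0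
    have e : (k : ℝ) * (L + 5 / eta ^ 2) * dom p =
        (k : ℝ) * L * dom p + (k : ℝ) * (5 / eta ^ 2) * dom p := by ring
    rw [abs_le, e]
    constructor <;> linarith
  have hG := gibbs (μ := w.big m k) (p := fun p => w.pid eta p)
    (q := fun p => w.pid eta p * (q0 p.2 / w.rden eta p.2))
    (L := fun p => log (q0 p.2) - log (w.rden eta p.2)) (w.pid_nonneg h) hpi.1 hpq
    ((hlqi.sub hlri).congr (.of_forall fun p => by simp only [Pi.sub_apply]; ring))
    (fun p => le_of_eq (by rw [exp_sub, exp_log (hq0pos _), exp_log (w.rden_pos h _)]))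
  have hpq'' : ∫ p, w.pid eta p * (q0 p.2 / w.rden eta p.2) ∂(w.big m k) = 1 := hpq'.trans hone
  have hpi2 : ∫ p, w.pid eta p ∂(w.big m k) = 1 := hpi.2
  rw [hpq'', hpi2, sub_self] at hG
  have hG' : ∫ p, (w.pid eta p * log (q0 p.2) - w.pid eta p * log (w.rden eta p.2)) ∂(w.big m k) ≤ 0 := by
    simpa only [mul_sub] using hG
  rw [integral_sub hlqi hlri] at hG'
  -- pointwise bound for the rest
  set X : (Fin (m + 1) → Par n) × (Fin k → Row (n + 1)) → ℝ :=
    fun p => w.lam eta p + (m : ℝ) * log (w.rden eta p.2) - (m : ℝ) * log (q0 p.2) with hX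
  set Φ : (Fin (m + 1) → Par n) → ℝ :=
    fun us => (k : ℝ) * ((m : ℝ) * log (σ / eta) + ltilt eta us) with hΦ
  set Y : (Fin (m + 1) → Par n) × (Fin k → Row (n + 1)) → ℝ := fun p =>
    Φ p.1 + (k : ℝ) * m * log 2 + ∑ i, ∑ j : Fin m,
      (resid (chart n (p.1 j.succ)) (p.2 i) ^ 2 / (2 * eta ^ 2) +
        resid (chart n (p.1 0)) (p.2 i) ^ 2 / eta ^ 2 + resid sc (p.2 i) ^ 2 / (8 * σ ^ 2)) with hY
  have hlog2 : log (√(2 * π) * (2 * σ)) = log (√(2 * π) * eta) + log 2 + log (σ / eta) := by
    rw [log_div hσ0.ne' h.ne', log_mul (by positivity) h.ne', log_mul (by positivity) h2σ.ne',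
      log_mul (by norm_num) hσ0.ne']
    ring
  have hXY : ∀ p, X p ≤ Y p := by
    intro p
    have e1 : ∀ j : Fin m, log (psi eta (p.1 j.succ) p.2) =
        ∑ i, (-log (√(2 * π) * eta) - resid (chart n (p.1 j.succ)) (p.2 i) ^ 2 / (2 * eta ^ 2)) := by
      intro j; rw [psi, log_prod fun i _ => (gden_pos h _).ne']; simp only [log_gden h]
    have hquad : quad eta p.1 p.2 ≤ ∑ i, ∑ j : Fin m,
        (resid (chart n (p.1 j.succ)) (p.2 i) ^ 2 / eta ^ 2 +
          resid (chart n (p.1 0)) (p.2 i) ^ 2 / eta ^ 2) := by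
      refine Finset.sum_le_sum fun i _ => ?_
      rw [Finset.sum_div]
      refine Finset.sum_le_sum fun j _ => ?_
      refine (div_le_div_of_nonneg_right (inner_diffs_sq p.1 (p.2 i) j) (by positivity)).trans_eq ?_
      field_simp
    simp only [hX, hY, hΦ, lam, e1, hlq, hlog2]
    rw [show (8 : ℝ) * σ ^ 2 = 2 * (2 * σ) ^ 2 by ring]
    simp only [Finset.sum_sub_distrib, Finset.sum_add_distrib, Finset.sum_const, Finset.card_univ,
      Fintype.card_fin, nsmul_eq_mul] at hquad ⊢
    rw [Finset.sum_comm (s := (Finset.univ : Finset (Fin m)))]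
    have hdbl : ∑ i : Fin k, ∑ j : Fin m, resid (chart n (p.1 j.succ)) (p.2 i) ^ 2 / eta ^ 2 =
        2 * ∑ i : Fin k, ∑ j : Fin m, resid (chart n (p.1 j.succ)) (p.2 i) ^ 2 / (2 * eta ^ 2) := by
      simp only [Finset.mul_sum]
      exact Finset.sum_congr rfl fun i _ => Finset.sum_congr rfl fun j _ => by field_simp
    rw [hdbl] at hquad
    simp only [← Finset.mul_sum] at hquad ⊢
    linarith
  have hlamI : Integrable (fun p => w.pid eta p * w.lam eta p) (w.big m k) := by
    simpa using w.pid_lam (m := m) (k := k) h measurable_const (g := fun _ => (1 : ℝ)) (fun _ => by simp)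
  have hXi : Integrable (fun p => w.pid eta p * X p) (w.big m k) :=
    ((hlamI.add (hlri.const_mul m)).sub (hlqi.const_mul m)).congr
      (.of_forall fun p => by simp only [hX, Pi.sub_apply, Pi.add_apply]; ring)
  have hlt : Measurable (fun us : Fin (m + 1) → Par n => ltilt eta us) :=
    measurable_log.comp (measurable_tilt eta)
  have hΦi : Integrable (fun p => w.pid eta p * Φ p.1) (w.big m k) := by
    refine w.pid_bdd h (((hlt.const_add _).const_mul _).comp measurable_fst)
      (C := (k : ℝ) * (|(m : ℝ) * log (σ / eta)| + 2 * m / eta ^ 2)) ((w.ae_big m k).mono fun p hp => ?_)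
    show |(k : ℝ) * ((m : ℝ) * log (σ / eta) + ltilt eta p.1)| ≤ _
    rw [abs_mul, Nat.abs_cast]
    exact mul_le_mul_of_nonneg_left
      ((abs_add_le _ _).trans (add_le_add le_rfl (w.abs_ltilt_le h hp))) (Nat.cast_nonneg k)
  set T : Fin k → Fin m → (Fin (m + 1) → Par n) × (Fin k → Row (n + 1)) → ℝ := fun i j p =>
    w.pid eta p * resid (chart n (p.1 j.succ)) (p.2 i) ^ 2 / (2 * eta ^ 2) +
      w.pid eta p * resid (chart n (p.1 0)) (p.2 i) ^ 2 / eta ^ 2 +
      w.pid eta p * resid sc (p.2 i) ^ 2 / (8 * σ ^ 2) with hT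
  have hTi : ∀ i j, Integrable (T i j) (w.big m k) := fun i j =>
    (((w.pid_resid h i j.succ).1.div_const _).add ((w.pid_resid h i 0).1.div_const _)).add
      ((ht2 i).1.div_const _)
  have hTle : ∀ i j, ∫ p, T i j p ∂(w.big m k) ≤ 11 / 4 := by
    intro i j
    have a1 := (w.pid_resid (m := m) h i j.succ).1.div_const (2 * eta ^ 2)
    have a2 := (w.pid_resid (m := m) h i 0).1.div_const (eta ^ 2)
    have a3 := (ht2 i).1.div_const (8 * σ ^ 2)
    simp only [hT]
    have a12 : Integrable (fun p => w.pid eta p * resid (chart n (p.1 j.succ)) (p.2 i) ^ 2 /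
        (2 * eta ^ 2) + w.pid eta p * resid (chart n (p.1 0)) (p.2 i) ^ 2 / eta ^ 2) (w.big m k) :=
      a1.add a2
    rw [integral_add a12 a3, integral_add a1 a2, integral_div, integral_div, integral_div]
    have b1 : (∫ p, w.pid eta p * resid (chart n (p.1 j.succ)) (p.2 i) ^ 2 ∂(w.big m k)) /
        (2 * eta ^ 2) ≤ 1 / 2 := by
      rw [div_le_iff₀ (by positivity)]; linarith [(w.pid_resid (m := m) h i j.succ).2]
    have b2 : (∫ p, w.pid eta p * resid (chart n (p.1 0)) (p.2 i) ^ 2 ∂(w.big m k)) / eta ^ 2 ≤ 1 := by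
      rw [div_le_iff₀ (by positivity)]; linarith [(w.pid_resid (m := m) h i 0).2]
    have b3 : (∫ p, w.pid eta p * resid sc (p.2 i) ^ 2 ∂(w.big m k)) / (8 * σ ^ 2) ≤ 5 / 4 := by
      rw [div_le_iff₀ (by positivity)]; linarith [(ht2 i).2]
    linarith
  have hYe : ∀ p, w.pid eta p * Y p =
      w.pid eta p * Φ p.1 + w.pid eta p * ((k : ℝ) * m * log 2) + ∑ i, ∑ j, T i j p := by
    intro p
    simp only [hY, hT, mul_add, Finset.mul_sum, mul_div_assoc]
  have hSi : Integrable (fun p => ∑ i, ∑ j, T i j p) (w.big m k) :=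
    integrable_finsetSum _ fun i _ => integrable_finsetSum _ fun j _ => hTi i j
  have hYi : Integrable (fun p => w.pid eta p * Y p) (w.big m k) :=
    ((hΦi.add (hpi.1.mul_const _)).add hSi).congr (.of_forall fun p => (hYe p).symm)
  have hmain : ∫ p, w.pid eta p * X p ∂(w.big m k) ≤ ∫ p, w.pid eta p * Y p ∂(w.big m k) :=
    integral_mono hXi hYi fun p => mul_le_mul_of_nonneg_left (hXY p) (w.pid_nonneg h p)
  have hYval : ∫ p, w.pid eta p * Y p ∂(w.big m k) ≤
      (∫ p, w.pid eta p * Φ p.1 ∂(w.big m k)) + (k : ℝ) * m * log 2 + (k : ℝ) * m * (11 / 4) := by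
    simp only [hYe]
    have a12 : Integrable (fun p => w.pid eta p * Φ p.1 + w.pid eta p * ((k : ℝ) * m * log 2))
        (w.big m k) := hΦi.add (hpi.1.mul_const _)
    rw [integral_add a12 hSi, integral_add hΦi (hpi.1.mul_const _),
      integral_mul_const, hpi2, one_mul, integral_finsetSum _
        fun i _ => integrable_finsetSum _ fun j _ => hTi i j]
    refine add_le_add le_rfl ?_
    calc ∑ i, ∫ p, ∑ j, T i j p ∂(w.big m k) ≤ ∑ _i : Fin k, ∑ _j : Fin m, (11 / 4 : ℝ) := by
          refine Finset.sum_le_sum fun i _ => ?_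
          rw [integral_finsetSum _ fun j _ => hTi i j]
          exact Finset.sum_le_sum fun j _ => hTle i j
      _ = _ := by simp; ring
  have hXval : ∫ p, w.pid eta p * X p ∂(w.big m k) = w.cost eta m k +
      (m : ℝ) * (∫ p, w.pid eta p * log (w.rden eta p.2) ∂(w.big m k)) -
      (m : ℝ) * (∫ p, w.pid eta p * log (q0 p.2) ∂(w.big m k)) := by
    simp only [hX, mul_sub, mul_add, mul_left_comm (w.pid eta _) (m : ℝ)]
    have a12 : Integrable (fun p => w.pid eta p * w.lam eta p +
        (m : ℝ) * (w.pid eta p * log (w.rden eta p.2))) (w.big m k) :=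
      hlamI.add (hlri.const_mul _)
    rw [integral_sub a12 (hlqi.const_mul _),
      integral_add hlamI (hlri.const_mul _), integral_const_mul, integral_const_mul, cost]
  have hk2 : (∫ p, w.pid eta p * Φ p.1 ∂(w.big m k)) = (k : ℝ) *
      ∫ p, w.pid eta p * ((m : ℝ) * log (σ / eta) + ltilt eta p.1) ∂(w.big m k) := by
    rw [← integral_const_mul]
    exact integral_congr_ae (.of_forall fun p => by simp only [hΦ]; ring)
  have hl2 : log (2 : ℝ) ≤ 1 := by linarith [log_le_sub_one_of_pos (show (0 : ℝ) < 2 by norm_num)]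
  have hkm : (0 : ℝ) ≤ (k : ℝ) * m := by positivity
  nlinarith [mul_le_mul_of_nonneg_left hG' (Nat.cast_nonneg m : (0 : ℝ) ≤ m),
    mul_le_mul_of_nonneg_left hl2 hkm]

end Wgt

end Vale.Agent.P309
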